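import Mathlib

/-! Identities in a commutative ring with two commuting derivations. -/

namespace Vale.Agent.P229

variable {R : Type} [CommRing R] [Algebra ℝ R]

/-- one half -/
noncomputable def hf (R : Type) [CommRing R] [Algebra ℝ R] : R := algebraMap ℝ R (1 / 2)

theorem two_hf : 2 * hf R = 1 := by
  have : (2 : R) = algebraMap ℝ R 2 := (map_ofNat _ 2).symm
  rw [this, hf, ← map_mul]
  simp

@[simp] theorem der_hf (D : Derivation ℝ R R) : D (hf R) = 0 := D.map_algebraMap _

@[simp] theorem der_two (D : Derivation ℝ R R) : D 2 = 0 := D.map_natCast 2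

theorem der_inv (D : Derivation ℝ R R) {f g : R} (h : f * g = 1) : D g = -(g ^ 2 * D f) := by
  have h1 := congrArg D h
  rw [D.leibniz, D.map_one_eq_zero, smul_eq_mul, smul_eq_mul] at h1
  linear_combination g * h1 - D g * h

/-- a pair of coordinate functions with invertible Jacobian -/
structure Frame (d1 d2 : Derivation ℝ R R) where
  x : R
  y : R
  ji : R
  hj : (d1 x * d2 y - d2 x * d1 y) * ji = 1

namespace Frame

variable {d1 d2 : Derivation ℝ R R} (fr : Frame d1 d2)

/-- the Jacobian -/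
def j : R := d1 fr.x * d2 fr.y - d2 fr.x * d1 fr.y

/-- derivative in `x` -/
def Dx : Derivation ℝ R R := (fr.ji * d2 fr.y) • d1 - (fr.ji * d1 fr.y) • d2

/-- derivative in `y` -/
def Dy : Derivation ℝ R R := (fr.ji * d1 fr.x) • d2 - (fr.ji * d2 fr.x) • d1

theorem j_ji : fr.j * fr.ji = 1 := fr.hj

theorem Dx_apply (f : R) : fr.Dx f = fr.ji * d2 fr.y * d1 f - fr.ji * d1 fr.y * d2 f := by
  simp [Dx]

theorem Dy_apply (f : R) : fr.Dy f = fr.ji * d1 fr.x * d2 f - fr.ji * d2 fr.x * d1 f := by
  simp [Dy]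

theorem Dx_x : fr.Dx fr.x = 1 := by rw [Dx_apply]; linear_combination fr.hj
theorem Dx_y : fr.Dx fr.y = 0 := by rw [Dx_apply]; ring
theorem Dy_x : fr.Dy fr.x = 0 := by rw [Dy_apply]; ring
theorem Dy_y : fr.Dy fr.y = 1 := by rw [Dy_apply]; linear_combination fr.hj

theorem d1_eq (f : R) : d1 f = d1 fr.x * fr.Dx f + d1 fr.y * fr.Dy f := by
  rw [Dx_apply, Dy_apply]; linear_combination (-d1 f) * fr.hj

theorem d2_eq (f : R) : d2 f = d2 fr.x * fr.Dx f + d2 fr.y * fr.Dy f := by
  rw [Dx_apply, Dy_apply]; linear_combination (-d2 f) * fr.hj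

variable (hc : ∀ f, d1 (d2 f) = d2 (d1 f))
include hc

theorem j_Dx (f : R) : fr.j * fr.Dx f = d1 (f * d2 fr.y) - d2 (f * d1 fr.y) := by
  rw [Dx_apply]
  simp only [Derivation.leibniz, smul_eq_mul, hc]
  linear_combination (d2 fr.y * d1 f - d1 fr.y * d2 f) * fr.j_ji

theorem j_Dy (f : R) : fr.j * fr.Dy f = d2 (f * d1 fr.x) - d1 (f * d2 fr.x) := by
  rw [Dy_apply]
  simp only [Derivation.leibniz, smul_eq_mul, hc]
  linear_combination (d1 fr.x * d2 f - d2 fr.x * d1 f) * fr.j_ji

theorem comm (f : R) : fr.Dx (fr.Dy f) = fr.Dy (fr.Dx f) := by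
  obtain ⟨α, β, key⟩ : ∃ α β : R, ∀ g, fr.Dx (fr.Dy g) - fr.Dy (fr.Dx g) = α * d1 g + β * d2 g := by
    refine ⟨-fr.Dx (fr.ji * d2 fr.x) - fr.Dy (fr.ji * d2 fr.y),
      fr.Dx (fr.ji * d1 fr.x) + fr.Dy (fr.ji * d1 fr.y), fun g => ?_⟩
    rw [fr.Dy_apply g, fr.Dx_apply g, map_sub, map_sub, fr.Dx.leibniz _ (d2 g),
      fr.Dx.leibniz _ (d1 g), fr.Dy.leibniz _ (d1 g), fr.Dy.leibniz _ (d2 g), fr.Dx_apply (d2 g),
      fr.Dx_apply (d1 g), fr.Dy_apply (d1 g), fr.Dy_apply (d2 g), hc]
    simp only [smul_eq_mul]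
    ring
  have h1 := key fr.x
  have h2 := key fr.y
  rw [Dx_x, Dy_x, map_zero, Derivation.map_one_eq_zero] at h1
  rw [Dx_y, Dy_y, map_zero, Derivation.map_one_eq_zero] at h2
  have h3 : α = 0 := by
    linear_combination (-α) * fr.hj - fr.ji * d2 fr.y * h1 + fr.ji * d2 fr.x * h2
  have h4 : β = 0 := by
    linear_combination (-β) * fr.hj + fr.ji * d1 fr.y * h1 - fr.ji * d1 fr.x * h2
  have := key f
  rw [h3, h4] at this
  linear_combination this

end Frame

section two

variable {D E : Derivation ℝ R R} (hc : ∀ f, D (E f) = E (D f))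
include hc

/-- the multiplier identity for `E E w - D (a D w)` -/
theorem mult_id (a w m n : R) :
    (E (E w) - D (a * D w)) * (m * D w + n * E w) =
      hf R * (D m - E n) * E w ^ 2 + hf R * (a * (D m - E n) - m * D a - n * E a) * D w ^ 2 +
        (a * D n - E m) * (D w * E w) +
      D (-(hf R * m * (E w * E w)) - hf R * a * m * (D w * D w) - a * n * (D w * E w)) +
      E (m * (D w * E w) + hf R * n * (E w * E w) + hf R * a * n * (D w * D w)) := by
  simp only [map_add, map_sub, map_neg, Derivation.leibniz, smul_eq_mul, hc, der_hf]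
  linear_combination (m * E w * E (D w) + a * m * D w * D (D w) + a * D m * D w ^ 2
    + m * D a * D w ^ 2 - n * E w * E (E w) - a * n * D w * E (D w) - a * D m * D w ^ 2
    - m * D a * D w ^ 2 + m * D a * D w ^ 2) * (two_hf (R := R))

omit hc in
/-- the weak form -/
theorem weak_id (a w ψ : R) :
    (E (E w) - D (a * D w)) * ψ =
      a * D w * D ψ - E w * E ψ + D (-(a * D w * ψ)) + E (E w * ψ) := by
  simp only [map_neg, Derivation.leibniz, smul_eq_mul]
  ring

/-- the equation for the height of an infinitesimal deformation, in Legendre coordinates -/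
theorem pde_id {x P q V₁ V₂ z p hxx hxy hyy : R} (hx : D x = 1) (hx' : E x = 0)
    (hq : D q = -E P) (hp : D P * p = 1)
    (h1 : hxx = 2 * (D P * (D V₁ + x * D z)))
    (h2 : hyy = 2 * (E P * E V₁ + E V₂ + (x * E P + q) * E z))
    (h3 : hxy = D P * E V₁ + E P * D V₁ + D V₂ + x * D P * E z + (x * E P + q) * D z) :
    E (E z) + D (E q * p * D z) =
      D (p * (-(E (E P) * (hf R * hxx * p)) - hf R * D hyy + E hxy)) - E (E (hf R * hxx * p)) := by
  have e1 : hf R * hxx * p = D V₁ + x * D z := by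
    rw [h1]
    linear_combination (D P * p * (D V₁ + x * D z)) * (two_hf (R := R)) + (D V₁ + x * D z) * hp
  have e2 : hf R * D hyy = D (E P * E V₁ + E V₂ + (x * E P + q) * E z) := by
    rw [h2, D.leibniz, der_two, smul_eq_mul, smul_zero, add_zero]
    linear_combination (D (E P * E V₁ + E V₂ + (x * E P + q) * E z)) * (two_hf (R := R))
  have e3 : p * (-(E (E P) * (D V₁ + x * D z)) - D (E P * E V₁ + E V₂ + (x * E P + q) * E z)
      + E hxy) = E (E V₁) + x * E (E z) + E q * p * D z := by
    rw [h3]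
    simp only [map_add, Derivation.leibniz, smul_eq_mul, hc, hx, hx', hq]
    linear_combination (E (E V₁) + x * E (E z)) * hp
  rw [e1, e2, e3]
  simp only [map_add, Derivation.leibniz, smul_eq_mul, hc, hx, hx', map_zero]
  ring

/-- the source produced by the strain `β dT²`, `T` having derivatives `a = D T`, `b = E T` -/
theorem source_id {P p a b β : R} (hab : D b = E a) :
    D (p * (-(E (E P) * (hf R * (β * a * a) * p)) - hf R * D (β * b * b) + E (β * a * b))) -
        E (E (hf R * (β * a * a) * p)) =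
      (D (p * (a * E b - hf R * E (E P) * a * a * p)) - E (E (hf R * a * a * p))) * β +
      (p * (a * E b - hf R * E (E P) * a * a * p) - D (hf R * p * b * b) +
        hf R * p * (b * E a - a * E b)) * D β +
      (D (p * a * b) - 2 * E (hf R * a * a * p) + hf R * p * (a * E a - b * D a)) * E β -
      hf R * p * (a * E (a * E β - b * D β) - b * D (a * E β - b * D β)) := by
  have e1 : p * (-(E (E P) * (hf R * (β * a * a) * p)) - hf R * D (β * b * b) + E (β * a * b)) =
      p * (a * E b - hf R * E (E P) * a * a * p) * β - hf R * p * b * b * D β +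
        p * a * b * E β := by
    simp only [Derivation.leibniz, smul_eq_mul, hab]
    linear_combination (-(p * β * b * E a)) * (two_hf (R := R))
  have e2 : hf R * (β * a * a) * p = (hf R * a * a * p) * β := by ring
  rw [e1, e2]
  generalize p * (a * E b - hf R * E (E P) * a * a * p) = s
  simp only [map_add, map_sub, Derivation.leibniz _ _ β, Derivation.leibniz _ _ (D β),
    Derivation.leibniz _ _ (E β), Derivation.leibniz _ β, smul_eq_mul, hc, hab]
  linear_combination (-(p * a * b * E (D β))) * (two_hf (R := R))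

/-- the Brioschi expression, `K (E G - F²)²` for the metric with coefficients `A, B, C` -/
noncomputable def bri (D E : Derivation ℝ R R) (A B C : R) : R :=
  (D (E B) - hf R * E (E A) - hf R * D (D C)) * (A * C - B * B) -
    hf R * D A * ((E B - hf R * D C) * C - B * (hf R * E C)) +
    (D B - hf R * E A) * ((E B - hf R * D C) * B - A * (hf R * E C)) +
    hf R * E A * (hf R * E A * C - B * (hf R * D C)) -
    hf R * D C * (hf R * E A * B - A * (hf R * D C))

/-- determinant of three vectors -/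
def det3 (a₁ a₂ a₃ b₁ b₂ b₃ c₁ c₂ c₃ : R) : R :=
  a₁ * (b₂ * c₃ - b₃ * c₂) + a₂ * (b₃ * c₁ - b₁ * c₃) + a₃ * (b₁ * c₂ - b₂ * c₁)

/-- Theorema Egregium -/
theorem egregium (P Y Z : R) :
    det3 (D (D P)) (D (D Y)) (D (D Z)) (D P) (D Y) (D Z) (E P) (E Y) (E Z) *
        det3 (E (E P)) (E (E Y)) (E (E Z)) (D P) (D Y) (D Z) (E P) (E Y) (E Z) -
      det3 (D (E P)) (D (E Y)) (D (E Z)) (D P) (D Y) (D Z) (E P) (E Y) (E Z) ^ 2 =
    bri D E (D P * D P + D Y * D Y + D Z * D Z) (D P * E P + D Y * E Y + D Z * E Z)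
      (E P * E P + E Y * E Y + E Z * E Z) := by
  have k1 : ∀ (F : Derivation ℝ R R) (u v w : R), hf R * F (u * u + v * v + w * w) =
      u * F u + v * F v + w * F w := by
    intro F u v w
    simp only [map_add, Derivation.leibniz, smul_eq_mul]
    linear_combination (u * F u + v * F v + w * F w) * (two_hf (R := R))
  have k2 : ∀ (F : Derivation ℝ R R) (u : R), hf R * F (F u) = F (hf R * F u) := by
    intro F u
    simp
  simp only [bri, k2, k1]
  simp only [det3, map_add, Derivation.leibniz, smul_eq_mul, hc]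
  ring

end two

end Vale.Agent.P229
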