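import Vale.Agent.P229.Ring
import Vale.Agent.P229.Alg

/-! Bounds for all derivatives up to a given order, and a calculus of such bounds. -/

open scoped ContDiff
open Set

namespace Vale.Agent.P229

/-- all derivatives of order at most `k` are bounded by `c` -/
def Bk : ℕ → ℝ → S → Prop
  | 0, c, f => ∀ u, |f.1 u| ≤ c
  | k + 1, c, f => (∀ u, |f.1 u| ≤ c) ∧ Bk k c (d1 f) ∧ Bk k c (d2 f)

variable {k : ℕ} {a b c : ℝ} {f g : S}

theorem Bk.le (h : Bk k c f) (u : Om) : |f.1 u| ≤ c := by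
  cases k with
  | zero => exact h u
  | succ k => exact h.1 u

theorem Bk.nonneg (h : Bk k c f) : 0 ≤ c := (abs_nonneg _).trans (h.le o)

theorem Bk.d1 (h : Bk (k + 1) c f) : Bk k c (d1 f) := h.2.1
theorem Bk.d2 (h : Bk (k + 1) c f) : Bk k c (d2 f) := h.2.2

theorem Bk.mono (h : Bk k a f) (hab : a ≤ b) : Bk k b f := by
  induction k generalizing f with
  | zero => exact fun u => (h u).trans hab
  | succ k ih => exact ⟨fun u => (h.1 u).trans hab, ih h.2.1, ih h.2.2⟩

theorem Bk.down (h : Bk (k + 1) c f) : Bk k c f := by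
  induction k generalizing f with
  | zero => exact h.1
  | succ k ih => exact ⟨h.1, ih h.2.1, ih h.2.2⟩

theorem Bk.of_le {l : ℕ} (h : Bk k c f) (hl : l ≤ k) : Bk l c f := by
  induction hl with
  | refl => exact h
  | step _ ih => exact ih h.down

theorem Bk.add (h : Bk k a f) (h' : Bk k b g) : Bk k (a + b) (f + g) := by
  have key : ∀ {f g : S}, (∀ u, |f.1 u| ≤ a) → (∀ u, |g.1 u| ≤ b) → ∀ u, |(f + g).1 u| ≤ a + b :=
    fun h h' u => (abs_add_le _ _).trans (add_le_add (h u) (h' u))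
  induction k generalizing f g with
  | zero => exact key h h'
  | succ k ih =>
    exact ⟨key h.1 h'.1, by rw [map_add]; exact ih h.2.1 h'.2.1,
      by rw [map_add]; exact ih h.2.2 h'.2.2⟩

theorem Bk.smul (h : Bk k a f) (r : ℝ) : Bk k (|r| * a) (r • f) := by
  have key : ∀ {f : S}, (∀ u, |f.1 u| ≤ a) → ∀ u, |(r • f).1 u| ≤ |r| * a := fun h u => by
    simpa [abs_mul] using mul_le_mul_of_nonneg_left (h u) (abs_nonneg r)
  induction k generalizing f with
  | zero => exact key h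
  | succ k ih =>
    exact ⟨key h.1, by rw [Derivation.map_smul]; exact ih h.2.1,
      by rw [Derivation.map_smul]; exact ih h.2.2⟩

theorem Bk.neg (h : Bk k a f) : Bk k a (-f) := by simpa using h.smul (-1)

theorem Bk.sub (h : Bk k a f) (h' : Bk k b g) : Bk k (a + b) (f - g) := by
  rw [sub_eq_add_neg]; exact h.add h'.neg

theorem Bk.zero (k : ℕ) (h : 0 ≤ c) : Bk k c 0 := by
  induction k with
  | zero => exact fun u => by simpa using h
  | succ k ih => exact ⟨fun u => by simpa using h, by simpa using ih, by simpa using ih⟩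

theorem Bk.cst (k : ℕ) {r : ℝ} (h : |r| ≤ c) : Bk k c (cst r) := by
  cases k with
  | zero => exact fun _ => h
  | succ k =>
    have := Bk.zero k ((abs_nonneg _).trans h)
    exact ⟨fun _ => h, by simpa using this, by simpa using this⟩

theorem Bk.mul (h : Bk k a f) (h' : Bk k b g) : Bk k (2 ^ k * (a * b)) (f * g) := by
  have key : ∀ {f g : S}, (∀ u, |f.1 u| ≤ a) → (∀ u, |g.1 u| ≤ b) → ∀ u, |(f * g).1 u| ≤ a * b :=
    fun h h' u => by
      simpa [abs_mul] using mul_le_mul (h u) (h' u) (abs_nonneg _) ((abs_nonneg _).trans (h u))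
  induction k generalizing f g with
  | zero => exact fun u => (key h h' u).trans (le_of_eq (by simp))
  | succ k ih =>
    have h0 := mul_nonneg h.nonneg h'.nonneg
    have e : ∀ D : Derivation ℝ S S, D (f * g) = f * D g + D f * g := fun D => by
      rw [D.leibniz, smul_eq_mul, smul_eq_mul, mul_comm g]
    refine ⟨fun u => (key h.1 h'.1 u).trans (le_mul_of_one_le_left h0 (one_le_pow₀ one_le_two)),
      ?_, ?_⟩
    · rw [e]
      exact ((ih h.down h'.2.1).add (ih h.2.1 h'.down)).mono (le_of_eq (by ring))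
    · rw [e]
      exact ((ih h.down h'.2.2).add (ih h.2.2 h'.down)).mono (le_of_eq (by ring))

theorem Bk.lip (h : Bk k c (P229.d1 f)) (h' : Bk k c (P229.d2 f)) (u v : Om) :
    |f.1 u - f.1 v| ≤ 2 * c * ‖u.1 - v.1‖ := by
  have h1 := abs_sub_le f h.le h'.le u v
  have h2 : |u.1.1 - v.1.1| ≤ ‖u.1 - v.1‖ := norm_fst_le (u.1 - v.1)
  have h3 : |u.1.2 - v.1.2| ≤ ‖u.1 - v.1‖ := norm_snd_le (u.1 - v.1)
  have := h.nonneg
  nlinarith

theorem Bk.lip0 (h : Bk k c (P229.d1 f)) (h' : Bk k c (P229.d2 f)) (u : Om) :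
    |f.1 u - f.1 o| ≤ 2 * c * ‖u.1‖ := by simpa [o] using h.lip h' u o

/-- integrate up from the origin -/
theorem Bk.up (h0 : |f.1 o| ≤ a) (h : Bk k c (P229.d1 f)) (h' : Bk k c (P229.d2 f)) :
    Bk (k + 1) (a + 8 * c) f := by
  have h1 := h.nonneg
  have h2 := (abs_nonneg _).trans h0
  refine ⟨fun u => ?_, h.mono (by linarith), h'.mono (by linarith)⟩
  have h3 := h.lip0 h' u
  have h4 := mem_Om.1 u.2
  have h5 := abs_sub_abs_le_abs_sub (f.1 u) (f.1 o)
  nlinarith

theorem Bk.T (k : ℕ) : Bk k 4 T := by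
  have h : ∀ u : Om, |P229.T.1 u| ≤ 4 := fun u => (norm_fst_le u.1).trans (mem_Om.1 u.2).le
  cases k with
  | zero => exact h
  | succ k =>
    exact ⟨h, by simpa [P229.cst] using Bk.cst k (r := 1) (c := 4) (by norm_num),
      by simpa using Bk.zero k (by norm_num)⟩

theorem Bk.Sc (k : ℕ) : Bk k 4 Sc := by
  have h : ∀ u : Om, |P229.Sc.1 u| ≤ 4 := fun u => (norm_snd_le u.1).trans (mem_Om.1 u.2).le
  cases k with
  | zero => exact h
  | succ k =>
    exact ⟨h, by simpa using Bk.zero k (by norm_num),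
      by simpa [P229.cst] using Bk.cst k (r := 1) (c := 4) (by norm_num)⟩

/-- pull back along a map whose columns have `ℓ¹` norm at most one -/
theorem Bk.pull (h : Bk k c f) (A : Aff) (h1 : |A.a| + |A.c| ≤ 1) (h2 : |A.b| + |A.d| ≤ 1) :
    Bk k c (pull A f) := by
  induction k generalizing f with
  | zero => exact fun u => h _
  | succ k ih =>
    have h0 := h.nonneg
    refine ⟨fun u => h.1 _, ?_, ?_⟩
    · rw [d1_pull]
      exact (((ih h.2.1).smul _).add ((ih h.2.2).smul _)).mono (by nlinarith)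
    · rw [d2_pull]
      exact (((ih h.2.1).smul _).add ((ih h.2.2).smul _)).mono (by nlinarith)

/-- after a pull back into a smaller square everything is bounded -/
theorem exists_Bk_pull (k : ℕ) (f : S) : ∃ c, ∀ A : Aff, |A.a| + |A.c| ≤ 1 → |A.b| + |A.d| ≤ 1 →
    (∀ u : Om, ‖A.toFun u‖ ≤ 7 / 2) → Bk k c (pull A f) := by
  have key : ∀ f : S, ∃ c, ∀ u : Om, ‖u.1‖ ≤ 7 / 2 → |f.1 u| ≤ c := by
    intro f
    obtain ⟨c, hc⟩ := (isCompact_closedBall (0 : ℝ × ℝ) (7 / 2)).exists_bound_of_continuousOn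
      ((S.smooth f).continuousOn.mono Kc_sub)
    exact ⟨c, fun u hu => by simpa using hc u (by simpa using hu)⟩
  induction k generalizing f with
  | zero =>
    obtain ⟨c, hc⟩ := key f
    exact ⟨c, fun A _ _ h u => hc _ (h u)⟩
  | succ k ih =>
    obtain ⟨c, hc⟩ := key f
    obtain ⟨c₁, h₁⟩ := ih (P229.d1 f)
    obtain ⟨c₂, h₂⟩ := ih (P229.d2 f)
    refine ⟨max c (max c₁ c₂), fun A h1 h2 h3 => ?_⟩
    have k1 := (h₁ A h1 h2 h3).mono ((le_max_left c₁ c₂).trans (le_max_right c _))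
    have k2 := (h₂ A h1 h2 h3).mono ((le_max_right c₁ c₂).trans (le_max_right c _))
    have h0 := k1.nonneg
    refine ⟨fun u => (hc _ (h3 u)).trans (le_max_left _ _), ?_, ?_⟩
    · rw [d1_pull]
      exact ((k1.smul _).add (k2.smul _)).mono (by nlinarith)
    · rw [d2_pull]
      exact ((k1.smul _).add (k2.smul _)).mono (by nlinarith)

/-! ### families -/

/-- the family `f` is `O(ν)` with all derivatives of order at most `k` -/
def O {ι : Type} (k : ℕ) (ν : ι → ℝ) (f : ι → S) : Prop :=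
  ∃ A, 0 ≤ A ∧ ∀ i, Bk k (A * ν i) (f i)

section O

variable {ι : Type} {ν ν' : ι → ℝ} {f g : ι → S}

theorem O.of_Bk (A : ℝ) (hA : 0 ≤ A) (h : ∀ i, Bk k (A * ν i) (f i)) : O k ν f := ⟨A, hA, h⟩

theorem O.congr (h : O k ν f) (e : ∀ i, g i = f i) : O k ν g := by
  rw [show g = f from funext e]; exact h

theorem O.mono (h : O k ν f) (C : ℝ) (hC : 0 ≤ C) (e : ∀ i, ν i ≤ C * ν' i) : O k ν' f := by
  obtain ⟨A, hA, h⟩ := h
  exact ⟨A * C, by positivity, fun i => (h i).mono (by rw [mul_assoc]; gcongr; exact e i)⟩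

theorem O.le (h : O k ν f) (e : ∀ i, ν i ≤ ν' i) : O k ν' f :=
  h.mono 1 zero_le_one (by simpa using e)

theorem O.of_le {l : ℕ} (h : O k ν f) (hl : l ≤ k) : O l ν f := by
  obtain ⟨A, hA, h⟩ := h
  exact ⟨A, hA, fun i => (h i).of_le hl⟩

theorem O.down (h : O (k + 1) ν f) : O k ν f := h.of_le (Nat.le_succ k)

theorem O.d1 (h : O (k + 1) ν f) : O k ν fun i => d1 (f i) := by
  obtain ⟨A, hA, h⟩ := h
  exact ⟨A, hA, fun i => (h i).d1⟩

theorem O.d2 (h : O (k + 1) ν f) : O k ν fun i => d2 (f i) := by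
  obtain ⟨A, hA, h⟩ := h
  exact ⟨A, hA, fun i => (h i).d2⟩

theorem O.add (h : O k ν f) (h' : O k ν g) : O k ν fun i => f i + g i := by
  obtain ⟨A, hA, h⟩ := h
  obtain ⟨B, hB, h'⟩ := h'
  exact ⟨A + B, by positivity, fun i => ((h i).add (h' i)).mono (le_of_eq (by ring))⟩

theorem O.neg (h : O k ν f) : O k ν fun i => -f i := by
  obtain ⟨A, hA, h⟩ := h
  exact ⟨A, hA, fun i => (h i).neg⟩

theorem O.sub (h : O k ν f) (h' : O k ν g) : O k ν fun i => f i - g i :=
  (h.add h'.neg).congr fun _ => sub_eq_add_neg _ _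

theorem O.mul (h : O k ν f) (h' : O k ν' g) : O k (fun i => ν i * ν' i) fun i => f i * g i := by
  obtain ⟨A, hA, h⟩ := h
  obtain ⟨B, hB, h'⟩ := h'
  exact ⟨2 ^ k * (A * B), by positivity, fun i => ((h i).mul (h' i)).mono (le_of_eq (by ring))⟩

/-- bounded times small -/
theorem O.mul₁ (h : O k (fun _ => 1) f) (h' : O k ν g) : O k ν fun i => f i * g i := by
  simpa using h.mul h'

/-- small times bounded -/
theorem O.mul₂ (h : O k ν f) (h' : O k (fun _ => 1) g) : O k ν fun i => f i * g i := by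
  simpa using h.mul h'

theorem O.smul (h : O k ν f) (r : ι → ℝ) (C : ℝ) (hC : 0 ≤ C) (e : ∀ i, |r i| ≤ C * ν' i) :
    O k (fun i => ν' i * ν i) fun i => r i • f i := by
  obtain ⟨A, hA, h⟩ := h
  refine ⟨C * A, by positivity, fun i => ((h i).smul (r i)).mono ?_⟩
  have := mul_le_mul_of_nonneg_right (e i) (h i).nonneg
  linarith

theorem O.cst (r : ι → ℝ) (C : ℝ) (hC : 0 ≤ C) (e : ∀ i, |r i| ≤ C * ν i) :
    O k ν fun i => cst (r i) := ⟨C, hC, fun i => Bk.cst k (e i)⟩

theorem O.const (r : ℝ) : O k (fun _ : ι => 1) fun _ => P229.cst r :=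
  O.cst (fun _ => r) |r| (abs_nonneg _) (by simp)

theorem O.one : O k (fun _ : ι => 1) fun _ => 1 := by simpa [P229.cst] using O.const (k := k) 1

theorem O.hf : O k (fun _ : ι => 1) fun _ => hf S := O.const _

theorem O.two : O k (fun _ : ι => 1) fun _ => 2 :=
  (O.one.add O.one).congr fun _ => one_add_one_eq_two.symm

theorem O.zero (h : ∀ i, 0 ≤ ν i) : O k ν fun _ => 0 :=
  ⟨1, zero_le_one, fun i => Bk.zero k (by simpa using h i)⟩

theorem O.T : O k (fun _ : ι => 1) fun _ => T := ⟨4, by norm_num, fun _ => by simpa using Bk.T k⟩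

theorem O.Sc : O k (fun _ : ι => 1) fun _ => Sc := ⟨4, by norm_num, fun _ => by simpa using Bk.Sc k⟩

theorem O.succ (h0 : O 0 ν f) (h1 : O k ν fun i => P229.d1 (f i))
    (h2 : O k ν fun i => P229.d2 (f i)) (hν : ∀ i, 0 ≤ ν i) : O (k + 1) ν f := by
  obtain ⟨A, hA, h0⟩ := h0
  obtain ⟨B, hB, h1⟩ := h1
  obtain ⟨C, hC, h2⟩ := h2
  refine ⟨A + B + C, by positivity, fun i => ?_⟩
  have := hν i
  exact ⟨fun u => (h0 i u).trans (by nlinarith [mul_nonneg hB this, mul_nonneg hC this]),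
    (h1 i).mono (by nlinarith [mul_nonneg hA this, mul_nonneg hC this]),
    (h2 i).mono (by nlinarith [mul_nonneg hA this, mul_nonneg hB this])⟩

/-- integrate up from the origin -/
theorem O.up (C : ℝ) (hC : 0 ≤ C) (h0 : ∀ i, |(f i).1 o| ≤ C * ν i)
    (h1 : O k ν fun i => P229.d1 (f i)) (h2 : O k ν fun i => P229.d2 (f i)) (hν : ∀ i, 0 ≤ ν i) :
    O (k + 1) ν f := by
  obtain ⟨A, hA, h1⟩ := h1
  obtain ⟨B, hB, h2⟩ := h2
  refine ⟨C + 8 * (A + B), by positivity, fun i => (Bk.up (c := (A + B) * ν i) (h0 i)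
    ((h1 i).mono ?_) ((h2 i).mono ?_)).mono (le_of_eq (by ring))⟩
  · nlinarith [mul_nonneg hB (hν i)]
  · nlinarith [mul_nonneg hA (hν i)]

/-- the inverse of a bounded family, if it is bounded -/
theorem O.inv (h : O k (fun _ => 1) f) (e : ∀ i, f i * g i = 1) (hg : O 0 (fun _ => 1) g) :
    O k (fun _ => 1) g := by
  induction k with
  | zero => exact hg
  | succ k ih =>
    have h1 := ih h.down
    refine O.succ hg (((h1.mul₁ h1).mul₁ h.d1).neg.congr fun i => ?_)
      (((h1.mul₁ h1).mul₁ h.d2).neg.congr fun i => ?_) fun _ => zero_le_one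
    · rw [der_inv _ (e i), sq]
    · rw [der_inv _ (e i), sq]

end O

/-! ### functions on the plane -/

/-- a smooth function on the plane with derivatives of order at most `N` bounded by `η` -/
def Sm (N : ℕ) (η : ℝ) (φ : ℝ × ℝ → ℝ) : Prop :=
  ContDiff ℝ ∞ φ ∧ ∀ i ≤ N, ∀ u, ‖iteratedFDeriv ℝ i φ u‖ ≤ η

theorem Sm.fderiv {N : ℕ} {η : ℝ} {φ : ℝ × ℝ → ℝ} (h : Sm (N + 1) η φ) {e : ℝ × ℝ}
    (he : ‖e‖ ≤ 1) : Sm N η fun u => fderiv ℝ φ u e := by
  have h1 : ContDiff ℝ ∞ (_root_.fderiv ℝ φ) := h.1.fderiv_right (by simp)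
  refine ⟨h1.clm_apply contDiff_const, fun i hi u => ?_⟩
  refine (norm_iteratedFDeriv_clm_apply_const h1.contDiffAt (by exact_mod_cast le_top)).trans ?_
  rw [norm_iteratedFDeriv_fderiv]
  have := h.2 (i + 1) (by omega) u
  nlinarith [norm_nonneg (iteratedFDeriv ℝ (i + 1) φ u)]

theorem Sm.bk {N : ℕ} {η : ℝ} {φ : ℝ × ℝ → ℝ} (h : Sm N η φ) : Bk N η (mk φ h.1.contDiffOn) := by
  induction N generalizing φ with
  | zero => exact fun u => by simpa using h.2 0 le_rfl u
  | succ N ih =>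
    refine ⟨fun u => by simpa using h.2 0 (by omega) u, ?_, ?_⟩
    · convert ih (h.fderiv (e := (1, 0)) (by simp)) using 1
      exact S.ext' fun u => der_mk _ _ _ u
    · convert ih (h.fderiv (e := (0, 1)) (by simp)) using 1
      exact S.ext' fun u => der_mk _ _ _ u

end Vale.Agent.P229
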