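import Vale.Agent.P229.Defs

/-! The Brioschi expression is linear up to quadratic errors. -/

namespace Vale.Agent.P229

/-- the linear part of the Brioschi expression -/
noncomputable def lin (A B C : S) : S := d1 (d2 B) - hf S * d2 (d2 A) - hf S * d1 (d1 C)

theorem O_lin {ι : Type} {k : ℕ} {ν : ι → ℝ} {A B C : ι → S} (hA : O (k + 2) ν A)
    (hB : O (k + 2) ν B) (hC : O (k + 2) ν C) : O k ν fun i => lin (A i) (B i) (C i) :=
  (hB.d2.d1.sub (O.hf.mul₁ hA.d2.d2)).sub (O.hf.mul₁ hC.d1.d1)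

theorem lin_add (A B C A' B' C' : S) :
    lin (A + A') (B + B') (C + C') = lin A B C + lin A' B' C' := by
  simp only [lin, map_add]
  ring

theorem O_bri_lin {ι : Type} {k : ℕ} {ν : ι → ℝ} {A B C : ι → S}
    (h1 : ∀ i, ν i ≤ 1) (hA : O (k + 2) ν fun i => A i - 1) (hB : O (k + 2) ν B)
    (hC : O (k + 2) ν fun i => C i - 1) :
    O k (fun i => ν i * ν i) fun i => bri d1 d2 (A i) (B i) (C i) - lin (A i) (B i) (C i) := by
  have a0 : O k ν fun i => A i - 1 := hA.of_le (by omega)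
  have b0 : O k ν B := hB.of_le (by omega)
  have c0 : O k ν fun i => C i - 1 := hC.of_le (by omega)
  have A0 : O k (fun _ => 1) A := ((a0.le h1).add O.one).congr fun i => by ring
  have B0 : O k (fun _ => 1) B := b0.le h1
  have C0 : O k (fun _ => 1) C := ((c0.le h1).add O.one).congr fun i => by ring
  have a1 : O k ν fun i => hf S * d1 (A i) := O.hf.mul₁ (hA.d1.down.congr fun i => by simp)
  have a2 : O k ν fun i => hf S * d2 (A i) := O.hf.mul₁ (hA.d2.down.congr fun i => by simp)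
  have c1 : O k ν fun i => hf S * d1 (C i) := O.hf.mul₁ (hC.d1.down.congr fun i => by simp)
  have c2 : O k ν fun i => hf S * d2 (C i) := O.hf.mul₁ (hC.d2.down.congr fun i => by simp)
  have b1 : O k ν fun i => d1 (B i) := hB.d1.down
  have b2 : O k ν fun i => d2 (B i) := hB.d2.down
  have l : O k ν fun i => lin (A i) (B i) (C i) :=
    (O_lin hA hB hC).congr fun i => by simp [lin]
  have m : O k ν fun i => A i * C i - B i * B i - 1 :=
    (((a0.mul₂ C0).add c0).sub (b0.mul₂ B0)).congr fun i => by ring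
  refine (((((l.mul m).sub (a1.mul (((b2.sub c1).mul₂ C0).sub (B0.mul₁ c2)))).add
    ((b1.sub a2).mul (((b2.sub c1).mul₂ B0).sub (A0.mul₁ c2)))).add
    (a2.mul ((a2.mul₂ C0).sub (B0.mul₁ c1)))).sub
    (c1.mul ((a2.mul₂ B0).sub (A0.mul₁ c1)))).congr fun i => ?_
  simp only [bri, lin]
  ring

theorem d1_qq : d1 qq = 2 * T := by simp [qq, sq, Derivation.leibniz, two_mul]

theorem d2_qq : d2 qq = 2 * Sc := by simp [qq, sq, Derivation.leibniz, two_mul]

theorem smul_eq_cst (c : ℝ) (f : S) : c • f = cst c * f := Algebra.smul_def c f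

theorem lin_lam (ε ρ : ℝ) : lin (lam ε ρ) 0 (lam ε ρ) = ε • (qq - cst (ρ ^ 2)) := by
  have e1 : d1 (d1 (qq ^ 2)) = 4 * qq + 8 * T ^ 2 := by
    simp only [sq, Derivation.leibniz, smul_eq_mul, map_add, d1_qq, d1_T, der_two]
    ring
  have e2 : d2 (d2 (qq ^ 2)) = 4 * qq + 8 * Sc ^ 2 := by
    simp only [sq, Derivation.leibniz, smul_eq_mul, map_add, d2_qq, d2_Sc, der_two]
    ring
  have e3 : d1 (d1 qq) = 2 := by simp [d1_qq, Derivation.leibniz]
  have e4 : d2 (d2 qq) = 2 := by simp [d2_qq, Derivation.leibniz]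
  simp only [lin, lam, map_add, Derivation.map_smul, Derivation.map_one_eq_zero, map_zero, e1, e2,
    e3, e4]
  refine S.ext' fun u => ?_
  have h : (hf S).1 u = 1 / 2 := rfl
  have h2 : (2 : S).1 u = 2 := rfl
  have h4 : (4 : S).1 u = 4 := rfl
  have h8 : (8 : S).1 u = 8 := rfl
  simp [qq, h, h2, h4, h8]
  ring

theorem O_qq {ι : Type} {k : ℕ} : O k (fun _ : ι => 1) fun _ => qq :=
  ((O.T.mul₁ O.T).add (O.Sc.mul₁ O.Sc)).congr fun _ => by simp [qq, sq]

theorem O_lam {ι : Type} {k : ℕ} {ν : ι → ℝ} (ε ρ : ι → ℝ) (hε : ∀ i, |ε i| ≤ ν i)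
    (hρ : ∀ i, |ρ i| ≤ 1) : O k ν fun i => lam (ε i) (ρ i) - 1 := by
  have h1 : O k (fun _ : ι => 1) fun _ => (-1 / 8 : ℝ) • qq ^ 2 := by
    simpa [sq] using (O_qq.mul₁ O_qq).smul (ν' := fun _ => 1) (fun _ : ι => (-1 / 8 : ℝ)) 1
      zero_le_one fun _ => by norm_num [abs_le]
  have h2 : O k (fun _ : ι => 1) fun i => (ρ i ^ 2 / 2) • qq := by
    simpa using O_qq.smul (ν' := fun _ => 1) (fun i : ι => ρ i ^ 2 / 2) 1 zero_le_one fun i => by
      have := abs_le.1 (hρ i)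
      rw [abs_of_nonneg (by positivity)]
      nlinarith
  have h3 := (h1.add h2).smul (ν' := ν) ε 1 zero_le_one (by simpa using hε)
  simpa [lam] using h3

end Vale.Agent.P229
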