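import Vale.Agent.P229.Bnd

/-! Cutoff functions. -/

open scoped ContDiff
open Set

namespace Vale.Agent.P229

/-- `χ` is a cutoff equal to `1` on the square of radius `r` and to `0` outside radius `r + d` -/
structure IsCut (K r d : ℝ) (χ : S) : Prop where
  nonneg : ∀ u, 0 ≤ χ.1 u
  le_one : ∀ u, χ.1 u ≤ 1
  one : ∀ u : Om, ‖u.1‖ ≤ r → χ.1 u = 1
  zero : ∀ u : Om, r + d ≤ ‖u.1‖ → χ.1 u = 0
  b1 : ∀ u, |(d1 χ).1 u| ≤ K / d
  b2 : ∀ u, |(d2 χ).1 u| ≤ K / d

theorem der_eq_zero_of_eventually {f : S} {c : ℝ} {U : Set (ℝ × ℝ)} (hU : IsOpen U)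
    (h : ∀ u : Om, u.1 ∈ U → f.1 u = c) (e : ℝ × ℝ) (u : Om) (hu : u.1 ∈ U) :
    (der e f).1 u = 0 := by
  have : ext f.1 =ᶠ[nhds u.1] fun _ => c :=
    Filter.eventuallyEq_of_mem ((hU.inter isOpen_Om).mem_nhds ⟨hu, u.2⟩) fun v hv => by
      rw [ext_of_mem _ hv.2]; exact h _ hv.1
  rw [der_apply, this.fderiv_eq]
  simp

/-- a function which is constant inside a square has zero derivative there -/
theorem der_in {f : S} {c r : ℝ} (h : ∀ u : Om, ‖u.1‖ < r → f.1 u = c) (e : ℝ × ℝ) (u : Om)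
    (hu : ‖u.1‖ < r) : (der e f).1 u = 0 :=
  der_eq_zero_of_eventually (U := {v | ‖v‖ < r}) (isOpen_lt continuous_norm continuous_const)
    h e u hu

/-- a function which is constant outside a square has zero derivative there -/
theorem der_out {f : S} {c r : ℝ} (h : ∀ u : Om, r < ‖u.1‖ → f.1 u = c) (e : ℝ × ℝ) (u : Om)
    (hu : r < ‖u.1‖) : (der e f).1 u = 0 :=
  der_eq_zero_of_eventually (U := {v | r < ‖v‖}) (isOpen_lt continuous_const continuous_norm)
    h e u hu

variable {K r d : ℝ} {χ : S}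

theorem IsCut.d1_in (h : IsCut K r d χ) (u : Om) (hu : ‖u.1‖ < r) : (d1 χ).1 u = 0 :=
  der_in (fun v hv => h.one v hv.le) _ u hu

theorem IsCut.d2_in (h : IsCut K r d χ) (u : Om) (hu : ‖u.1‖ < r) : (d2 χ).1 u = 0 :=
  der_in (fun v hv => h.one v hv.le) _ u hu

theorem IsCut.d1_out (h : IsCut K r d χ) (u : Om) (hu : r + d < ‖u.1‖) : (d1 χ).1 u = 0 :=
  der_out (fun v hv => h.zero v hv.le) _ u hu

theorem IsCut.d2_out (h : IsCut K r d χ) (u : Om) (hu : r + d < ‖u.1‖) : (d2 χ).1 u = 0 :=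
  der_out (fun v hv => h.zero v hv.le) _ u hu

theorem IsCut.cs (h : IsCut K r d χ) (hr : r + d ≤ 7 / 2) : Cs χ :=
  fun u hu => h.zero u (by linarith)

theorem exists_cut : ∃ K : ℝ, 1 ≤ K ∧ ∀ r d : ℝ, 0 < d → ∃ χ : S, IsCut K r d χ := by
  have hs : ContDiff ℝ ∞ Real.smoothTransition := Real.smoothTransition.contDiff
  obtain ⟨M, hM⟩ : ∃ M, ∀ x, |deriv Real.smoothTransition x| ≤ M := by
    have h1 : HasCompactSupport (deriv Real.smoothTransition) := by
      refine HasCompactSupport.intro (isCompact_Icc (a := 0) (b := 1)) fun x hx => ?_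
      rcases not_and_or.1 hx with h | h
      · have : Real.smoothTransition =ᶠ[nhds x] fun _ => 0 :=
          Filter.eventuallyEq_of_mem (Iio_mem_nhds (not_le.1 h))
            fun y hy => Real.smoothTransition.zero_of_nonpos (le_of_lt hy)
        rw [this.deriv_eq]; simp
      · have : Real.smoothTransition =ᶠ[nhds x] fun _ => 1 :=
          Filter.eventuallyEq_of_mem (Ioi_mem_nhds (not_le.1 h))
            fun y hy => Real.smoothTransition.one_of_one_le (le_of_lt hy)
        rw [this.deriv_eq]; simp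
    exact (contDiff_deriv hs).continuous.bounded_above_of_compact_support h1
  have hM0 : 0 ≤ M := (abs_nonneg _).trans (hM 0)
  refine ⟨2 * M + 1, by linarith, fun r d hd => ?_⟩
  let p : S → S := fun g => comp _ hs (d⁻¹ • (cst (r + d) - g)) * comp _ hs (d⁻¹ • (cst (r + d) + g))
  have p0 : ∀ g u, 0 ≤ (p g).1 u := fun g u =>
    mul_nonneg (Real.smoothTransition.nonneg _) (Real.smoothTransition.nonneg _)
  have p1 : ∀ g u, (p g).1 u ≤ 1 := fun g u =>
    mul_le_one₀ (Real.smoothTransition.le_one _) (Real.smoothTransition.nonneg _)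
      (Real.smoothTransition.le_one _)
  have hp : ∀ g u, (p g).1 u = Real.smoothTransition (d⁻¹ * (r + d - g.1 u)) *
      Real.smoothTransition (d⁻¹ * (r + d + g.1 u)) := by
    intro g u
    show (comp _ hs _).1 u * (comp _ hs _).1 u = _
    rw [comp_apply, comp_apply]
    rfl
  have pone : ∀ g u, |g.1 u| ≤ r → (p g).1 u = 1 := by
    intro g u hu
    have h1 := abs_le.1 hu
    have e : ∀ x, -r ≤ x → Real.smoothTransition (d⁻¹ * (r + d + x)) = 1 := fun x hx =>
      Real.smoothTransition.one_of_one_le (by rw [← div_eq_inv_mul, le_div_iff₀ hd]; linarith)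
    have e1 := e (-g.1 u) (by linarith)
    have e2 := e (g.1 u) h1.1
    rw [← sub_eq_add_neg] at e1
    rw [hp, e1, e2, mul_one]
  have pzero : ∀ g u, r + d ≤ |g.1 u| → (p g).1 u = 0 := by
    intro g u hu
    have e : ∀ x, x ≤ 0 → Real.smoothTransition (d⁻¹ * x) = 0 := fun x hx =>
      Real.smoothTransition.zero_of_nonpos (mul_nonpos_of_nonneg_of_nonpos (by positivity) hx)
    rcases le_abs.1 hu with h | h
    · rw [hp, e (r + d - g.1 u) (by linarith), zero_mul]
    · rw [hp, e (r + d + g.1 u) (by linarith), mul_zero]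
  have pd : ∀ (e : ℝ × ℝ) g u, |(der e (p g)).1 u| ≤ 2 * M / d * |(der e g).1 u| := by
    intro e g u
    have e0 : der e (cst (r + d)) = 0 := (der e).map_algebraMap _
    simp only [p, Derivation.leibniz, der_comp, Derivation.map_smul, map_sub, map_add, e0,
      smul_eq_mul]
    simp only [Subalgebra.coe_add, Subalgebra.coe_mul, Pi.add_apply, Pi.mul_apply, comp_apply,
      zero_sub, zero_add, Subalgebra.coe_smul, Subalgebra.coe_neg, Pi.smul_apply, Pi.neg_apply,
      smul_eq_mul]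
    generalize (d⁻¹ * ((cst (r + d)).1 u + g.1 u)) = x
    generalize (d⁻¹ * ((cst (r + d) - g).1 u)) = y
    have k : ∀ x y z : ℝ, |Real.smoothTransition x * (deriv Real.smoothTransition y * (d⁻¹ * z))|
        ≤ M / d * |z| := by
      intro x y z
      rw [abs_mul, abs_mul, abs_mul, abs_of_nonneg (Real.smoothTransition.nonneg x),
        abs_of_pos (inv_pos.2 hd)]
      calc _ ≤ 1 * (M * (d⁻¹ * |z|)) := by
            gcongr
            exacts [Real.smoothTransition.le_one x, hM y]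
        _ = _ := by ring
    have k1 := k y x ((der e g).1 u)
    have k2 := k x y (-(der e g).1 u)
    rw [abs_neg] at k2
    refine (abs_add_le _ _).trans ((add_le_add k1 k2).trans (le_of_eq (by ring)))
  have hK : 2 * M / d ≤ (2 * M + 1) / d := by gcongr; linarith
  refine ⟨p T * p Sc, fun u => mul_nonneg (p0 _ u) (p0 _ u),
    fun u => mul_le_one₀ (p1 _ u) (p0 _ u) (p1 _ u), fun u hu => ?_, fun u hu => ?_,
    fun u => ?_, fun u => ?_⟩
  · show (p T).1 u * (p Sc).1 u = 1
    rw [pone _ _ ((norm_fst_le u.1).trans hu), pone _ _ ((norm_snd_le u.1).trans hu), mul_one]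
  · show (p T).1 u * (p Sc).1 u = 0
    rcases le_max_iff.1 (hu.trans_eq (Prod.norm_def u.1)) with h | h
    · rw [pzero T u h, zero_mul]
    · rw [pzero Sc u h, mul_zero]
  · have h1 := pd (1, 0) T u
    have h2 := pd (1, 0) Sc u
    rw [← d1] at h1 h2
    simp only [d1_T, d1_Sc, OneMemClass.coe_one, Pi.one_apply, abs_one, mul_one,
      ZeroMemClass.coe_zero, Pi.zero_apply, abs_zero, mul_zero, abs_nonpos_iff] at h1 h2
    rw [Derivation.leibniz]
    show |(p T).1 u * (d1 (p Sc)).1 u + (p Sc).1 u * (d1 (p T)).1 u| ≤ _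
    rw [h2, mul_zero, zero_add, abs_mul, abs_of_nonneg (p0 _ u)]
    exact (mul_le_of_le_one_left (abs_nonneg _) (p1 _ u)).trans (h1.trans hK)
  · have h1 := pd (0, 1) T u
    have h2 := pd (0, 1) Sc u
    rw [← d2] at h1 h2
    simp only [d2_T, d2_Sc, OneMemClass.coe_one, Pi.one_apply, abs_one, mul_one,
      ZeroMemClass.coe_zero, Pi.zero_apply, abs_zero, mul_zero, abs_nonpos_iff] at h1 h2
    rw [Derivation.leibniz]
    show |(p T).1 u * (d2 (p Sc)).1 u + (p Sc).1 u * (d2 (p T)).1 u| ≤ _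
    rw [h1, mul_zero, add_zero, abs_mul, abs_of_nonneg (p0 _ u)]
    exact (mul_le_of_le_one_left (abs_nonneg _) (p1 _ u)).trans (h2.trans hK)

end Vale.Agent.P229
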