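import Vale.Agent.P229.Cut

/-! Definitions shared by the files of the proof (see `notes/P229.md`). -/

open scoped ContDiff
open Set

namespace Vale.Agent.P229

/-- graded bounds: derivatives of order `i ≤ k` are bounded by `c * ρ ^ i` -/
def Gr : ℕ → ℝ → ℝ → S → Prop
  | 0, c, _, f => ∀ u, |f.1 u| ≤ c
  | k + 1, c, ρ, f => (∀ u, |f.1 u| ≤ c) ∧ Gr k (c * ρ) ρ (d1 f) ∧ Gr k (c * ρ) ρ (d2 f)

section Gr

variable {k : ℕ} {a b c ρ : ℝ} {f g : S}

theorem Gr.le (h : Gr k c ρ f) (u : Om) : |f.1 u| ≤ c := by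
  cases k with
  | zero => exact h u
  | succ k => exact h.1 u

theorem Gr.nonneg (h : Gr k c ρ f) : 0 ≤ c := (abs_nonneg _).trans (h.le o)

theorem Gr.d1 (h : Gr (k + 1) c ρ f) : Gr k (c * ρ) ρ (d1 f) := h.2.1
theorem Gr.d2 (h : Gr (k + 1) c ρ f) : Gr k (c * ρ) ρ (d2 f) := h.2.2

theorem Gr.mono (h : Gr k a ρ f) (hρ : 0 ≤ ρ) (hab : a ≤ b) : Gr k b ρ f := by
  induction k generalizing f a b with
  | zero => exact fun u => (h u).trans hab
  | succ k ih =>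
    have := mul_le_mul_of_nonneg_right hab hρ
    exact ⟨fun u => (h.1 u).trans hab, ih h.2.1 this, ih h.2.2 this⟩

theorem Gr.bk (h : Gr k c ρ f) (h0 : 0 ≤ ρ) (h1 : ρ ≤ 1) : Bk k c f := by
  induction k generalizing f c with
  | zero => exact h
  | succ k ih =>
    have := mul_le_of_le_one_right h.nonneg h1
    exact ⟨h.1, (ih h.2.1).mono this, (ih h.2.2).mono this⟩

theorem Gr.add (h : Gr k a ρ f) (h' : Gr k b ρ g) : Gr k (a + b) ρ (f + g) := by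
  have key : ∀ {a b : ℝ} {f g : S}, (∀ u, |f.1 u| ≤ a) → (∀ u, |g.1 u| ≤ b) →
      ∀ u, |(f + g).1 u| ≤ a + b :=
    fun h h' u => (abs_add_le _ _).trans (add_le_add (h u) (h' u))
  induction k generalizing f g a b with
  | zero => exact key h h'
  | succ k ih =>
    exact ⟨key h.1 h'.1, by rw [map_add, add_mul]; exact ih h.2.1 h'.2.1,
      by rw [map_add, add_mul]; exact ih h.2.2 h'.2.2⟩

theorem Gr.smul (h : Gr k a ρ f) (r : ℝ) : Gr k (|r| * a) ρ (r • f) := by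
  have key : ∀ {a : ℝ} {f : S}, (∀ u, |f.1 u| ≤ a) → ∀ u, |(r • f).1 u| ≤ |r| * a :=
    fun h u => by simpa [abs_mul] using mul_le_mul_of_nonneg_left (h u) (abs_nonneg r)
  induction k generalizing f a with
  | zero => exact key h
  | succ k ih =>
    exact ⟨key h.1, by rw [Derivation.map_smul, mul_assoc]; exact ih h.2.1,
      by rw [Derivation.map_smul, mul_assoc]; exact ih h.2.2⟩

/-- pull back along a map whose columns have `ℓ¹` norm at most `ρ` -/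
theorem Bk.gr_pull (h : Bk k c f) (A : Aff) (h1 : |A.a| + |A.c| ≤ ρ) (h2 : |A.b| + |A.d| ≤ ρ) :
    Gr k c ρ (P229.pull A f) := by
  have hρ : 0 ≤ ρ := le_trans (by positivity) h1
  have key : ∀ (k : ℕ) (m : ℝ) (f : S), 0 ≤ m → Bk k c f → ∀ x : ℝ, |x| ≤ m →
      Gr k (c * m) ρ (x • P229.pull A f) := by
    intro k
    induction k with
    | zero =>
      intro m f _ h x hx u
      have := mul_le_mul hx (h (A.map u)) (abs_nonneg _) ((abs_nonneg _).trans hx)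
      simpa [abs_mul, mul_comm c] using this
    | succ k ih =>
      intro m f hm h x hx
      have h0 := h.nonneg
      refine ⟨fun u => ?_, ?_, ?_⟩
      · have := mul_le_mul hx (h.1 (A.map u)) (abs_nonneg _) ((abs_nonneg _).trans hx)
        simpa [abs_mul, mul_comm c] using this
      · rw [Derivation.map_smul, d1_pull, smul_add, smul_smul, smul_smul]
        refine ((ih (m * |A.a|) _ (by positivity) h.2.1 _ ?_).add
          (ih (m * |A.c|) _ (by positivity) h.2.2 _ ?_)).mono hρ ?_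
        · rw [abs_mul]; gcongr
        · rw [abs_mul]; gcongr
        · nlinarith [mul_le_mul_of_nonneg_left h1 (mul_nonneg h0 hm)]
      · rw [Derivation.map_smul, d2_pull, smul_add, smul_smul, smul_smul]
        refine ((ih (m * |A.b|) _ (by positivity) h.2.1 _ ?_).add
          (ih (m * |A.d|) _ (by positivity) h.2.2 _ ?_)).mono hρ ?_
        · rw [abs_mul]; gcongr
        · rw [abs_mul]; gcongr
        · nlinarith [mul_le_mul_of_nonneg_left h2 (mul_nonneg h0 hm)]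
  simpa using key k 1 f zero_le_one h 1 (by simp)

end Gr

/-- a map from the square to three-space -/
structure Trip where
  P : S
  Y : S
  Z : S

namespace Trip

/-- first coefficient of the induced metric -/
noncomputable def E (t : Trip) : S := d1 t.P * d1 t.P + d1 t.Y * d1 t.Y + d1 t.Z * d1 t.Z

/-- second coefficient of the induced metric -/
noncomputable def F (t : Trip) : S := d1 t.P * d2 t.P + d1 t.Y * d2 t.Y + d1 t.Z * d2 t.Z

/-- third coefficient of the induced metric -/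
noncomputable def G (t : Trip) : S := d2 t.P * d2 t.P + d2 t.Y * d2 t.Y + d2 t.Z * d2 t.Z

/-- a property of the six first derivatives -/
def All (t : Trip) (p : S → Prop) : Prop :=
  p (d1 t.P) ∧ p (d2 t.P) ∧ p (d1 t.Y) ∧ p (d2 t.Y) ∧ p (d1 t.Z) ∧ p (d2 t.Z)

/-- difference -/
noncomputable def sub (t t' : Trip) : Trip := ⟨t.P - t'.P, t.Y - t'.Y, t.Z - t'.Z⟩

end Trip

/-- `x² + y²` -/
noncomputable def qq : S := T ^ 2 + Sc ^ 2

/-- the conformal factor of the background metric, of curvature about `ε (q - ρ²)` -/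
noncomputable def lam (ε ρ : ℝ) : S := 1 + ε • ((-1 / 8 : ℝ) • qq ^ 2 + (ρ ^ 2 / 2) • qq)

/-- a normalised map at scale `ρ` -/
structure Good (C ε μ ρ : ℝ) (t : Trip) : Prop where
  Y0 : t.Y.1 o = 0
  Z0 : t.Z.1 o = 0
  P1 : (d1 t.P).1 o = 1
  P2 : (d2 t.P).1 o = 0
  Y1 : (d1 t.Y).1 o = 0
  Y2 : (d2 t.Y).1 o = 1
  Z1 : (d1 t.Z).1 o = 0
  Z2 : (d2 t.Z).1 o = 0
  gr : t.All (Gr 4 C (2 * ρ))
  Z11 : μ * ρ ≤ (d1 (d1 t.Z)).1 o
  Z12 : |(d2 (d1 t.Z)).1 o| ≤ ρ ^ 3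
  mE : Bk 3 (ρ ^ 5) (t.E - lam (ε * ρ ^ 4) 1)
  mF : Bk 3 (ρ ^ 5) t.F
  mG : Bk 3 (ρ ^ 5) (t.G - lam (ε * ρ ^ 4) 1)

/-- the map `u ↦ ρ R u`, `R` the rotation by the angle `θ` -/
noncomputable def rot (ρ θ : ℝ) (h0 : 0 < ρ) (h : ρ ≤ 1 / 2) : Aff where
  p := 0
  a := ρ * Real.cos θ
  b := -(ρ * Real.sin θ)
  c := ρ * Real.sin θ
  d := ρ * Real.cos θ
  maps u hu := by
    rw [mem_Om] at hu ⊢
    have h1 : |u.1| < 4 := (norm_fst_le u).trans_lt hu
    have h2 : |u.2| < 4 := (norm_snd_le u).trans_lt hu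
    have k : ∀ x y : ℝ, |x| ≤ 1 → |y| < 4 → |ρ * x * y| < 2 := by
      intro x y hx hy
      rw [abs_mul, abs_mul, abs_of_pos h0]
      have := mul_le_of_le_one_right h0.le hx
      nlinarith [abs_nonneg x, abs_nonneg y, mul_nonneg h0.le (abs_nonneg x)]
    have k1 := abs_lt.1 (k _ _ (Real.abs_cos_le_one θ) h1)
    have k2 := abs_lt.1 (k _ _ (Real.abs_cos_le_one θ) h2)
    have k3 := abs_lt.1 (k _ _ (Real.abs_sin_le_one θ) h1)
    have k4 := abs_lt.1 (k _ _ (Real.abs_sin_le_one θ) h2)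
    rw [Prod.norm_def, max_lt_iff, Real.norm_eq_abs, Real.norm_eq_abs, abs_lt, abs_lt]
    simp only [Prod.fst_zero, Prod.snd_zero]
    refine ⟨⟨?_, ?_⟩, ?_, ?_⟩ <;> linarith [k1.1, k1.2, k2.1, k2.2, k3.1, k3.2, k4.1, k4.2]

/-- the frame is close to the standard one and `a` is close to `e (1 - x² - y²)` -/
structure Near (e H : ℝ) (fr : Frame d1 d2) (a : S) : Prop where
  x1 : ∀ u, |(d1 fr.x).1 u - 1| ≤ 1 / 100
  x2 : ∀ u, |(d2 fr.x).1 u| ≤ 1 / 100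
  y1 : ∀ u, |(d1 fr.y).1 u| ≤ 1 / 100
  y2 : ∀ u, |(d2 fr.y).1 u - 1| ≤ 1 / 100
  x0 : fr.x.1 o = 0
  y0 : fr.y.1 o = 0
  ha : Bk 1 (e / 1000) (a - e • (1 - fr.x ^ 2 - fr.y ^ 2))
  tl : ∀ u : Om, ‖u.1‖ ≤ H → (d2 fr.x).1 u ^ 2 ≤ e / 100

/-- a source `f` living in a thin vertical strip of width about `wd`, of size `φ` -/
structure Src (B h wd s φ : ℝ) (j f : S) where
  Sin : S
  Sout : S
  th : S
  thp : S
  ψ : S
  g2 : S
  g3 : S
  wd_pos : 0 < wd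
  in1 : d1 Sin = wd⁻¹ • th ^ 2
  in2 : d2 Sin = 0
  inB : ∀ u, |Sin.1 u| ≤ B
  out1 : d1 Sout = wd⁻¹ • thp ^ 2
  out2 : d2 Sout = 0
  outB : ∀ u, |Sout.1 u| ≤ B
  outf : Sout * f = 0
  thf : th * f = f
  f0 : ∀ u : Om, h < ‖u.1‖ → f.1 u = 0
  ψ0 : ∀ u : Om, h < ‖u.1‖ → ψ.1 u = 0
  g20 : ∀ u : Om, h < ‖u.1‖ → g2.1 u = 0
  g30 : ∀ u : Om, h < ‖u.1‖ → g3.1 u = 0
  ψ1 : d1 ψ = wd⁻¹ • (thp * g2)
  ψ2 : d2 ψ = th * g3
  If : wd * I (f ^ 2) ≤ B * φ
  Ig2 : wd * I (g2 ^ 2) ≤ B * φ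
  Ig3 : wd ^ 3 * I (g3 ^ 2) ≤ B * s ^ 2 * φ
  det : φ ≤ B * wd * I (-(j * f * ψ))

/-- bounds for the coefficients of the source operator -/
structure Coef (B : ℝ) (j c0 c1 c2 c3 : S) : Prop where
  bj : ∀ u, |j.1 u| ≤ B
  b0 : ∀ u, |c0.1 u| ≤ B
  b1 : ∀ u, |c1.1 u| ≤ B
  b2 : ∀ u, |c2.1 u| ≤ B
  b3 : ∀ u, |c3.1 u| ≤ B
  lo : ∀ u, 1 / B ≤ -(j.1 u * c3.1 u)

end Vale.Agent.P229
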