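import Vale.Agent.P229.Defs

/-! Pointwise consequences of `Near`, and integration by parts in a frame.

PLAN. `j = x1 y2 - x2 y1` (`Frame.j`), `j * ji = 1` (`Frame.j_ji`, evaluate at `u`). For `x_sub`
apply `abs_sub_le` (or `Bk.lip0` with `k = 0`) to `fr.x - T` between `u` and `o`. For `a_*` write
`a = e (1 - x² - y²) + r` with `|r| ≤ e/1000` (`ha.le`), `|x|, |y| ≤ 1.02 ‖u‖ ≤ 4.08`; in `a_out`
`‖u‖ = max |u.1| |u.2|`. For `Dx_a` use `Dx_x, Dx_y`, Leibniz, and `Dx_le` for `r` (`ha.d1`,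
`ha.d2`). `I_Dx` is `Frame.j_Dx d_comm` with `Cs.I_d1`, `Cs.I_d2`. `grad_le` is `Frame.d1_eq`. -/

namespace Vale.Agent.P229

/-- squared gradient in the frame -/
noncomputable def gr2 (fr : Frame d1 d2) (w : S) : S := fr.Dx w ^ 2 + fr.Dy w ^ 2

theorem gr2_apply (fr : Frame d1 d2) (w : S) (u : Om) :
    (gr2 fr w).1 u = (fr.Dx w).1 u ^ 2 + (fr.Dy w).1 u ^ 2 := rfl

theorem Frame.I_Dx (fr : Frame d1 d2) {U : S} (h : Cs U) : I (fr.j * fr.Dx U) = 0 := by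
  rw [fr.j_Dx d_comm, map_sub, (h.mul_right _).I_d1, (h.mul_right _).I_d2, sub_zero]

theorem Frame.I_Dy (fr : Frame d1 d2) {U : S} (h : Cs U) : I (fr.j * fr.Dy U) = 0 := by
  rw [fr.j_Dy d_comm, map_sub, (h.mul_right _).I_d1, (h.mul_right _).I_d2, sub_zero]

variable {e H : ℝ} {fr : Frame d1 d2} {a : S}

theorem Near.e_nonneg (h : Near e H fr a) : 0 ≤ e := by
  have := h.ha.nonneg
  linarith

theorem Frame.j_apply (fr : Frame d1 d2) (u : Om) :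
    fr.j.1 u = (d1 fr.x).1 u * (d2 fr.y).1 u - (d2 fr.x).1 u * (d1 fr.y).1 u := rfl

theorem Frame.j_ji_apply (fr : Frame d1 d2) (u : Om) : fr.j.1 u * fr.ji.1 u = 1 :=
  congrArg (fun f : S => f.1 u) fr.j_ji

theorem Frame.Dx_ap (fr : Frame d1 d2) (f : S) (u : Om) : (fr.Dx f).1 u =
    fr.ji.1 u * (d2 fr.y).1 u * (d1 f).1 u - fr.ji.1 u * (d1 fr.y).1 u * (d2 f).1 u :=
  congrArg (fun f : S => f.1 u) (fr.Dx_apply f)

theorem Frame.Dy_ap (fr : Frame d1 d2) (f : S) (u : Om) : (fr.Dy f).1 u =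
    fr.ji.1 u * (d1 fr.x).1 u * (d2 f).1 u - fr.ji.1 u * (d2 fr.x).1 u * (d1 f).1 u :=
  congrArg (fun f : S => f.1 u) (fr.Dy_apply f)

theorem Near.j_sub (h : Near e H fr a) (u : Om) : |fr.j.1 u - 1| ≤ 3 / 100 := by
  have h1 := abs_le.1 (h.x1 u)
  have h2 := abs_le.1 (h.x2 u)
  have h3 := abs_le.1 (h.y1 u)
  have h4 := abs_le.1 (h.y2 u)
  rw [fr.j_apply, abs_le]
  constructor <;> nlinarith [h1.1, h1.2, h2.1, h2.2, h3.1, h3.2, h4.1, h4.2]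

theorem Near.j_lo (h : Near e H fr a) (u : Om) : 97 / 100 ≤ fr.j.1 u := by
  linarith [(abs_le.1 (h.j_sub u)).1]

theorem Near.j_hi (h : Near e H fr a) (u : Om) : fr.j.1 u ≤ 103 / 100 := by
  linarith [(abs_le.1 (h.j_sub u)).2]

theorem Near.ji_lo (h : Near e H fr a) (u : Om) : 97 / 100 ≤ fr.ji.1 u := by
  have h1 := fr.j_ji_apply u
  have h2 := h.j_lo u
  have h3 := h.j_hi u
  by_contra h4
  nlinarith

theorem Near.ji_hi (h : Near e H fr a) (u : Om) : fr.ji.1 u ≤ 104 / 100 := by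
  have h1 := fr.j_ji_apply u
  have h2 := h.j_lo u
  by_contra h4
  nlinarith

theorem Near.x_sub (h : Near e H fr a) (u : Om) : |fr.x.1 u - u.1.1| ≤ ‖u.1‖ / 50 := by
  have h1 := Bk.lip0 (k := 0) (c := 1 / 100) (f := fr.x - T)
    (fun v => by simpa using h.x1 v) (fun v => by simpa using h.x2 v) u
  have h2 : (fr.x - T).1 o = 0 := sub_eq_zero.2 h.x0
  rw [h2, sub_zero] at h1
  exact h1.trans (le_of_eq (by ring))

theorem Near.y_sub (h : Near e H fr a) (u : Om) : |fr.y.1 u - u.1.2| ≤ ‖u.1‖ / 50 := by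
  have h1 := Bk.lip0 (k := 0) (c := 1 / 100) (f := fr.y - Sc)
    (fun v => by simpa using h.y1 v) (fun v => by simpa using h.y2 v) u
  have h2 : (fr.y - Sc).1 o = 0 := sub_eq_zero.2 h.y0
  rw [h2, sub_zero] at h1
  exact h1.trans (le_of_eq (by ring))

theorem Near.x_le (h : Near e H fr a) (u : Om) : |fr.x.1 u| ≤ 51 / 50 * ‖u.1‖ := by
  have h1 : |u.1.1| ≤ ‖u.1‖ := norm_fst_le u.1
  linarith [h.x_sub u, abs_sub_abs_le_abs_sub (fr.x.1 u) u.1.1]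

theorem Near.y_le (h : Near e H fr a) (u : Om) : |fr.y.1 u| ≤ 51 / 50 * ‖u.1‖ := by
  have h1 : |u.1.2| ≤ ‖u.1‖ := norm_snd_le u.1
  linarith [h.y_sub u, abs_sub_abs_le_abs_sub (fr.y.1 u) u.1.2]

theorem enA_aux {i p q s t M : ℝ} (h0 : 97 / 100 ≤ i) (h1 : i ≤ 104 / 100)
    (hp : |p - 1| ≤ 1 / 100) (hq : |q| ≤ 1 / 100) (hs : |s| ≤ M) (ht : |t| ≤ M) :
    |i * p * s - i * q * t| ≤ 11 / 10 * M := by
  have hM := (abs_nonneg _).trans hs
  have h2 : |p| ≤ 101 / 100 := by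
    have := abs_sub_abs_le_abs_sub p 1
    rw [abs_one] at this
    linarith
  refine (abs_sub _ _).trans ?_
  simp only [abs_mul, abs_of_nonneg (show 0 ≤ i by linarith)]
  calc i * |p| * |s| + i * |q| * |t| ≤ 104 / 100 * (101 / 100) * M + 104 / 100 * (1 / 100) * M := by
        gcongr
    _ ≤ _ := by linarith

theorem Near.Dx_le (h : Near e H fr a) {f : S} {u : Om} {M : ℝ} (h1 : |(d1 f).1 u| ≤ M)
    (h2 : |(d2 f).1 u| ≤ M) : |(fr.Dx f).1 u| ≤ 11 / 10 * M := by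
  rw [fr.Dx_ap]
  exact enA_aux (h.ji_lo u) (h.ji_hi u) (h.y2 u) (h.y1 u) h1 h2

theorem Near.Dy_le (h : Near e H fr a) {f : S} {u : Om} {M : ℝ} (h1 : |(d1 f).1 u| ≤ M)
    (h2 : |(d2 f).1 u| ≤ M) : |(fr.Dy f).1 u| ≤ 11 / 10 * M := by
  rw [fr.Dy_ap]
  exact enA_aux (h.ji_lo u) (h.ji_hi u) (h.x1 u) (h.x2 u) h2 h1

theorem Near.a_sub (h : Near e H fr a) (u : Om) :
    |a.1 u - e * (1 - fr.x.1 u ^ 2 - fr.y.1 u ^ 2)| ≤ e / 1000 := by
  exact h.ha.le u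

theorem Near.x_sq (h : Near e H fr a) (u : Om) {r : ℝ} (hu : ‖u.1‖ ≤ r) :
    fr.x.1 u ^ 2 ≤ (51 / 50 * r) ^ 2 :=
  sq_le_sq' (by linarith [(abs_le.1 (h.x_le u)).1]) (by linarith [(abs_le.1 (h.x_le u)).2])

theorem Near.y_sq (h : Near e H fr a) (u : Om) {r : ℝ} (hu : ‖u.1‖ ≤ r) :
    fr.y.1 u ^ 2 ≤ (51 / 50 * r) ^ 2 :=
  sq_le_sq' (by linarith [(abs_le.1 (h.y_le u)).1]) (by linarith [(abs_le.1 (h.y_le u)).2])

theorem Near.a_abs (h : Near e H fr a) (u : Om) : |a.1 u| ≤ 35 * e := by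
  have h1 := abs_le.1 (h.a_sub u)
  have h2 := h.x_sq u (mem_Om.1 u.2).le
  have h3 := h.y_sq u (mem_Om.1 u.2).le
  have h4 := h.e_nonneg
  rw [abs_le]
  constructor <;> nlinarith [h1.1, h1.2, sq_nonneg (fr.x.1 u), sq_nonneg (fr.y.1 u)]

theorem Near.a_out (h : Near e H fr a) (u : Om) (hu : 3 / 2 ≤ ‖u.1‖) : a.1 u ≤ -e := by
  have h1 := (abs_le.1 (h.a_sub u)).2
  have h4 := h.e_nonneg
  have h5 : (147 / 100 : ℝ) ^ 2 ≤ fr.x.1 u ^ 2 + fr.y.1 u ^ 2 := by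
    rcases le_max_iff.1 (Prod.norm_def u.1).le with h6 | h6
    · have h7 : 147 / 100 ≤ |fr.x.1 u| := by
        have := abs_sub_abs_le_abs_sub u.1.1 (fr.x.1 u)
        rw [abs_sub_comm] at this
        rw [Real.norm_eq_abs] at h6
        linarith [h.x_sub u]
      have := pow_le_pow_left₀ (by norm_num) h7 2
      rw [sq_abs] at this
      linarith [sq_nonneg (fr.y.1 u)]
    · have h7 : 147 / 100 ≤ |fr.y.1 u| := by
        have := abs_sub_abs_le_abs_sub u.1.2 (fr.y.1 u)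
        rw [abs_sub_comm] at this
        rw [Real.norm_eq_abs] at h6
        linarith [h.y_sub u]
      have := pow_le_pow_left₀ (by norm_num) h7 2
      rw [sq_abs] at this
      linarith [sq_nonneg (fr.x.1 u)]
  nlinarith

theorem Near.a_in (h : Near e H fr a) (u : Om) (hu : ‖u.1‖ ≤ 1 / 4) : 4 / 5 * e ≤ a.1 u := by
  have h1 := (abs_le.1 (h.a_sub u)).1
  have h2 := h.x_sq u hu
  have h3 := h.y_sq u hu
  have h4 := h.e_nonneg
  nlinarith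

theorem Near.Dx_a (h : Near e H fr a) (u : Om) :
    |(fr.Dx a).1 u + 2 * e * fr.x.1 u| ≤ e / 900 := by
  have h1 := h.Dx_le (h.ha.d1.le u) (h.ha.d2.le u)
  have h2 : fr.Dx (a - e • (1 - fr.x ^ 2 - fr.y ^ 2)) = fr.Dx a + (2 * e) • fr.x := by
    simp only [map_sub, Derivation.map_smul, sq, Derivation.leibniz, fr.Dx_x, fr.Dx_y,
      Derivation.map_one_eq_zero, smul_eq_mul, mul_one, mul_zero]
    module
  rw [h2] at h1
  exact h1.trans (by linarith [h.e_nonneg])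

theorem Near.Dy_a (h : Near e H fr a) (u : Om) :
    |(fr.Dy a).1 u + 2 * e * fr.y.1 u| ≤ e / 900 := by
  have h1 := h.Dy_le (h.ha.d1.le u) (h.ha.d2.le u)
  have h2 : fr.Dy (a - e • (1 - fr.x ^ 2 - fr.y ^ 2)) = fr.Dy a + (2 * e) • fr.y := by
    simp only [map_sub, Derivation.map_smul, sq, Derivation.leibniz, fr.Dy_x, fr.Dy_y,
      Derivation.map_one_eq_zero, smul_eq_mul, mul_one, mul_zero]
    module
  rw [h2] at h1
  exact h1.trans (by linarith [h.e_nonneg])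

theorem Near.grad_le (h : Near e H fr a) (w : S) (u : Om) :
    (d1 w).1 u ^ 2 + (d2 w).1 u ^ 2 ≤ 3 * (gr2 fr w).1 u := by
  have e1 : (d1 w).1 u = (d1 fr.x).1 u * (fr.Dx w).1 u + (d1 fr.y).1 u * (fr.Dy w).1 u :=
    congrArg (fun f : S => f.1 u) (fr.d1_eq w)
  have e2 : (d2 w).1 u = (d2 fr.x).1 u * (fr.Dx w).1 u + (d2 fr.y).1 u * (fr.Dy w).1 u :=
    congrArg (fun f : S => f.1 u) (fr.d2_eq w)
  have k : ∀ p q s t : ℝ, |p - 1| ≤ 1 / 100 → |q| ≤ 1 / 100 →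
      (p * s + q * t) ^ 2 ≤ 3 / 2 * (s ^ 2 + t ^ 2) := fun p q s t hp hq => by
    have h1 := abs_le.1 hp
    have h2 := abs_le.1 hq
    have h3 : p ^ 2 + q ^ 2 ≤ 3 / 2 := by nlinarith [h1.1, h1.2, h2.1, h2.2]
    nlinarith [sq_nonneg (p * t - q * s), mul_le_mul_of_nonneg_right h3
      (show 0 ≤ s ^ 2 + t ^ 2 by positivity)]
  have k1 := k _ _ ((fr.Dx w).1 u) ((fr.Dy w).1 u) (h.x1 u) (h.y1 u)
  have k2 := k _ _ ((fr.Dy w).1 u) ((fr.Dx w).1 u) (h.y2 u) (h.x2 u)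
  rw [gr2_apply, e1, e2, add_comm ((d2 fr.x).1 u * _)]
  linarith

end Vale.Agent.P229
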