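import Vale.Agent.P229.EnA

/-! The main multiplier inequality and the Caccioppoli inequality.

PLAN for `main_mult`. Write `D = fr.Dx`, `E = fr.Dy` (they commute: `fr.comm d_comm`). Take
`mult_id` (file `Alg`) with `m = χ ^ 2 * fr.x`, `n = χ ^ 2 * (hf S * fr.y)`, multiply by `fr.j`,
apply `I`; the two divergence terms vanish (`Frame.I_Dx`, `Frame.I_Dy`; the vector field has the
factor `χ`, use `IsCut.cs`, `Cs.mul_left/right/add/sub/neg`). With `D m = χ² + 2 χ (D χ) x`,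
`E n = χ²/2 + χ (E χ) y`, `D n = χ (D χ) y`, `E m = 2 χ (E χ) x` the quadratic form is
`χ² [ (E w)²/4 + (a/2 - x D a - y E a / 2) (D w)²/2 ] + χ R` where
`R = (2 (Dχ) x - (Eχ) y)((E w)² + a (D w)²)/2 + (a (Dχ) y - 2 (Eχ) x) D w E w`.
By `a_sub, Dx_a, Dy_a, x_le, y_le`: `a/2 - x D a - y E a/2 ≥ 0.49 e`, and `j ≥ 0.97`.
`|j χ R| ≤ (A/d) η² gr2` pointwise: if `‖u‖ < r` or `r + d < ‖u‖` then `Dχ = Eχ = 0`
(`IsCut.d1_in` etc., `Dx_le` with `M = 0`), otherwise `η = 1` and `|Dχ|, |Eχ| ≤ 1.1 K/d`.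
Conclude with `I_mono`. Evaluate ring expressions at a point with
`simp only [Subalgebra.coe_add, Subalgebra.coe_mul, Pi.add_apply, ...]` or `show`; `(hf S).1 u = 1/2`
holds by `rfl`.

PLAN for `cacc`. `weak_id` with `ψ = η ^ 2 * w`, multiply by `fr.j`, integrate: the left side is
`0` (`η * f = 0`), divergence terms vanish, so
`I (j η² (-a (Dw)² + (Ew)²)) = I (2 j η w (a Dw Dη - Ew Eη))`. Where `η ≠ 0` we have `-a ≥ e`
(`a_out`), and `|2 η w a Dw Dη| ≤ η² |a| (Dw)²/2 + 2 |a| w² (Dη)²`, similarly for the other term;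
`|a| ≤ 35`, `|Dη|, |Eη| ≤ 1.1 L`, and `w² (Dη)² ≤ (1.1 L)² χ'² w²` in both cases. It is easiest to
prove one pointwise inequality
`(e/3) η² gr2 ≤ -j (a Dw D ψ - Ew E ψ) + A L² χ'² w²` and apply `I_mono`. -/

namespace Vale.Agent.P229

theorem abs_mul_le' {a b A B : ℝ} (ha : |a| ≤ A) (hb : |b| ≤ B) : |a * b| ≤ A * B := by
  rw [abs_mul]
  exact mul_le_mul ha hb (abs_nonneg _) ((abs_nonneg _).trans ha)

theorem I_mult (fr : Frame d1 d2) (a w : S) {m n : S} (hm : Cs m) (hn : Cs n) :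
    I (fr.j * (fr.Dy (fr.Dy w) - fr.Dx (a * fr.Dx w)) * (m * fr.Dx w + n * fr.Dy w)) =
      I (fr.j * (hf S * (fr.Dx m - fr.Dy n) * fr.Dy w ^ 2 +
        hf S * (a * (fr.Dx m - fr.Dy n) - m * fr.Dx a - n * fr.Dy a) * fr.Dx w ^ 2 +
        (a * fr.Dx n - fr.Dy m) * (fr.Dx w * fr.Dy w))) := by
  rw [mul_assoc, mult_id (fr.comm d_comm), mul_add, mul_add, map_add, map_add,
    fr.I_Dx ((((hm.mul_left _).mul_right _).neg.sub ((hm.mul_left _).mul_right _)).sub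
      ((hn.mul_left _).mul_right _)),
    fr.I_Dy (((hm.mul_right _).add ((hn.mul_left _).mul_right _)).add
      ((hn.mul_left _).mul_right _)), add_zero, add_zero]

theorem I_weak (fr : Frame d1 d2) (a w : S) {ψ : S} (hψ : Cs ψ) :
    I (fr.j * (fr.Dy (fr.Dy w) - fr.Dx (a * fr.Dx w)) * ψ) =
      I (fr.j * (a * fr.Dx w * fr.Dx ψ - fr.Dy w * fr.Dy ψ)) := by
  rw [mul_assoc, weak_id, mul_add, mul_add, map_add, map_add, fr.I_Dx (hψ.mul_left _).neg,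
    fr.I_Dy (hψ.mul_left _), add_zero, add_zero]

theorem enB_main {e j c p q x y a ax ay s t M : ℝ} (he0 : 0 ≤ e) (he : e ≤ 1)
    (hj : 97 / 100 ≤ j) (hj' : j ≤ 103 / 100) (hc : 0 ≤ c) (hc' : c ≤ 1) (hp : |p| ≤ M)
    (hq : |q| ≤ M) (hx : |x| ≤ 5) (hy : |y| ≤ 5) (ha : |a| ≤ 35 * e)
    (h0 : |a - e * (1 - x ^ 2 - y ^ 2)| ≤ e / 1000) (h1 : |ax + 2 * e * x| ≤ e / 900)
    (h2 : |ay + 2 * e * y| ≤ e / 900) :
    e / 6 * (c ^ 2 * (s ^ 2 + t ^ 2)) ≤ 710 * M * (s ^ 2 + t ^ 2) +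
      j * (1 / 2 * (c ^ 2 + 2 * c * p * x - (1 / 2 * c ^ 2 + c * q * y)) * t ^ 2 +
        1 / 2 * (a * (c ^ 2 + 2 * c * p * x - (1 / 2 * c ^ 2 + c * q * y)) - c ^ 2 * x * ax -
          c ^ 2 * (1 / 2 * y) * ay) * s ^ 2 + (a * (c * p * y) - 2 * c * q * x) * (s * t)) := by
  have ha' : |a| ≤ 35 := by linarith
  have k1 : 49 / 100 * e ≤ a / 2 - x * ax - y * ay / 2 := by
    have k2 := (abs_le.1 (abs_mul_le' hx h1)).2
    have k3 := (abs_le.1 (abs_mul_le' hy h2)).2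
    have k4 := (abs_le.1 h0).1
    nlinarith [mul_nonneg he0 (sq_nonneg x), mul_nonneg he0 (sq_nonneg y)]
  have k5 : |2 * p * x - q * y| ≤ 15 * M := by
    refine (abs_sub _ _).trans ?_
    have := abs_mul_le' (abs_mul_le' (abs_two (α := ℝ)).le hp) hx
    linarith [abs_mul_le' hq hy]
  have k6 : |t ^ 2 + a * s ^ 2| ≤ 35 * (s ^ 2 + t ^ 2) := by
    refine (abs_add_le _ _).trans ?_
    have := abs_mul_le' ha' (abs_sq s).le
    rw [abs_sq]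
    nlinarith [sq_nonneg t]
  have k7 : |a * p * y - 2 * q * x| ≤ 185 * M := by
    refine (abs_sub _ _).trans ?_
    have := abs_mul_le' (abs_mul_le' (abs_two (α := ℝ)).le hq) hx
    linarith [abs_mul_le' (abs_mul_le' ha' hp) hy]
  have k8 : |s * t| ≤ (s ^ 2 + t ^ 2) / 2 :=
    abs_le.2 ⟨by nlinarith [sq_nonneg (s + t)], by nlinarith [sq_nonneg (s - t)]⟩
  have k9 : |j * c| ≤ 2 := by
    rw [abs_of_nonneg (by positivity)]; nlinarith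
  have k10 := (abs_le.1 (abs_mul_le' k9 (abs_mul_le' k5 k6))).1
  have k11 := (abs_le.1 (abs_mul_le' k9 (abs_mul_le' k7 k8))).1
  have k12 : e / 6 * (s ^ 2 + t ^ 2) ≤ j * (t ^ 2 / 4 + (a / 2 - x * ax - y * ay / 2) * s ^ 2 / 2) := by
    have k13 : e / 5 * (s ^ 2 + t ^ 2) ≤ t ^ 2 / 4 + (a / 2 - x * ax - y * ay / 2) * s ^ 2 / 2 := by
      nlinarith [mul_le_mul_of_nonneg_right k1 (sq_nonneg s),
        mul_le_mul_of_nonneg_right he (sq_nonneg t), mul_nonneg he0 (sq_nonneg s), sq_nonneg t]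
    have k14 : 0 ≤ e / 5 * (s ^ 2 + t ^ 2) := by positivity
    nlinarith [mul_le_mul hj k13 k14 (by linarith)]
  nlinarith [mul_le_mul_of_nonneg_left k12 (sq_nonneg c)]

theorem enB_cacc {e j c p q a s t w M : ℝ} (he0 : 0 ≤ e) (he : e ≤ 1)
    (hj : 97 / 100 ≤ j) (hj' : j ≤ 103 / 100) (hp : |p| ≤ M) (hq : |q| ≤ M) (ha : |a| ≤ 35 * e)
    (h0 : c ≠ 0 → a ≤ -e) :
    e * (c ^ 2 * (s ^ 2 + t ^ 2)) + 3 * (j * (a * s * (c ^ 2 * s + 2 * c * p * w) -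
      t * (c ^ 2 * t + 2 * c * q * w))) ≤ 300 * M ^ 2 * w ^ 2 := by
  by_cases hc : c = 0
  · simp only [hc]
    nlinarith [mul_nonneg (sq_nonneg M) (sq_nonneg w)]
  have h1 := h0 hc
  have h2 := (abs_le.1 ha).1
  have hp2 : p ^ 2 ≤ M ^ 2 := sq_le_sq' (abs_le.1 hp).1 (abs_le.1 hp).2
  have hq2 : q ^ 2 ≤ M ^ 2 := sq_le_sq' (abs_le.1 hq).1 (abs_le.1 hq).2
  have k1 : a * s * (c ^ 2 * s + 2 * c * p * w) - t * (c ^ 2 * t + 2 * c * q * w) ≤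
      72 * M ^ 2 * w ^ 2 - e / 2 * (c ^ 2 * (s ^ 2 + t ^ 2)) := by
    have k2 : 0 ≤ -a * (c * s + 2 * p * w) ^ 2 := mul_nonneg (by linarith) (sq_nonneg _)
    have k3 := sq_nonneg (c * t + 2 * q * w)
    have k4 : -a * (p ^ 2 * w ^ 2) ≤ 35 * (M ^ 2 * w ^ 2) :=
      mul_le_mul (by linarith) (by gcongr) (by positivity) (by norm_num)
    have k5 : q ^ 2 * w ^ 2 ≤ M ^ 2 * w ^ 2 := by gcongr
    have k6 : e * (c ^ 2 * s ^ 2) ≤ -a * (c ^ 2 * s ^ 2) := by gcongr; linarith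
    have k7 : e * (c ^ 2 * t ^ 2) ≤ 1 * (c ^ 2 * t ^ 2) := by gcongr
    nlinarith
  have k8 := mul_le_mul_of_nonneg_left k1 (show 0 ≤ j by linarith)
  have k9 : 0 ≤ e * (c ^ 2 * (s ^ 2 + t ^ 2)) := by positivity
  have k10 : 0 ≤ M ^ 2 * w ^ 2 := by positivity
  nlinarith [mul_le_mul_of_nonneg_right hj k9, mul_le_mul_of_nonneg_right hj' k10]

theorem main_mult (K : ℝ) (hK : 1 ≤ K) : ∃ A : ℝ, 1 ≤ A ∧ ∀ (e H r d : ℝ) (fr : Frame d1 d2)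
    (a w f χ η : S), e ≤ 1 → Near e H fr a → fr.Dy (fr.Dy w) - fr.Dx (a * fr.Dx w) = f →
    0 < d → r + d ≤ 7 / 2 → IsCut K r d χ →
    (∀ u : Om, r ≤ ‖u.1‖ → ‖u.1‖ ≤ r + d → η.1 u = 1) →
    e / 6 * I (χ ^ 2 * gr2 fr w) ≤ A / d * I (η ^ 2 * gr2 fr w) +
      I (fr.j * f * (χ ^ 2 * fr.x * fr.Dx w + χ ^ 2 * (hf S * fr.y) * fr.Dy w)) := by
  refine ⟨800 * K, by linarith, fun e H r d fr a w f χ η he hN hf' hd hr hχ hη => ?_⟩
  have hc : Cs (χ ^ 2) := by rw [sq]; exact (hχ.cs hr).mul_left _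
  have e1 : fr.Dx (χ ^ 2 * fr.x) = χ ^ 2 + 2 * χ * fr.Dx χ * fr.x := by
    simp only [sq, Derivation.leibniz, fr.Dx_x, smul_eq_mul]; ring
  have e2 : fr.Dy (χ ^ 2 * fr.x) = 2 * χ * fr.Dy χ * fr.x := by
    simp only [sq, Derivation.leibniz, fr.Dy_x, smul_eq_mul]; ring
  have e3 : fr.Dx (χ ^ 2 * (hf S * fr.y)) = χ * fr.Dx χ * fr.y := by
    simp only [sq, Derivation.leibniz, fr.Dx_y, smul_eq_mul, der_hf]
    linear_combination (χ * fr.Dx χ * fr.y) * two_hf (R := S)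
  have e4 : fr.Dy (χ ^ 2 * (hf S * fr.y)) = hf S * χ ^ 2 + χ * fr.Dy χ * fr.y := by
    simp only [sq, Derivation.leibniz, fr.Dy_y, smul_eq_mul, der_hf]
    linear_combination (χ * fr.Dy χ * fr.y) * two_hf (R := S)
  rw [← hf', I_mult fr a w (hc.mul_right _) (hc.mul_right _), e1, e2, e3, e4, ← smul_eq_mul,
    ← smul_eq_mul (800 * K / d), ← map_smul, ← map_smul, ← map_add]
  refine I_mono fun u => ?_
  have hu := mem_Om.1 u.2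
  have key := fun M hp hq => enB_main (M := M) (p := (fr.Dx χ).1 u) (q := (fr.Dy χ).1 u)
    (s := (fr.Dx w).1 u) (t := (fr.Dy w).1 u) hN.e_nonneg he (hN.j_lo u) (hN.j_hi u)
    (hχ.nonneg u) (hχ.le_one u) hp hq ((hN.x_le u).trans (by linarith))
    ((hN.y_le u).trans (by linarith)) (hN.a_abs u) (hN.a_sub u) (hN.Dx_a u) (hN.Dy_a u)
  have h0 : 0 ≤ (fr.Dx w).1 u ^ 2 + (fr.Dy w).1 u ^ 2 := by positivity
  have h1 : ∃ M, |(d1 χ).1 u| ≤ M ∧ |(d2 χ).1 u| ≤ M ∧ M ≤ K / d * η.1 u ^ 2 := by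
    by_cases h2 : ‖u.1‖ < r
    · exact ⟨0, by simp [hχ.d1_in u h2], by simp [hχ.d2_in u h2], by positivity⟩
    by_cases h3 : r + d < ‖u.1‖
    · exact ⟨0, by simp [hχ.d1_out u h3], by simp [hχ.d2_out u h3], by positivity⟩
    exact ⟨K / d, hχ.b1 u, hχ.b2 u, by simp [hη u (not_lt.1 h2) (not_lt.1 h3)]⟩
  obtain ⟨M, h2, h3, h4⟩ := h1
  refine (key _ (hN.Dx_le h2 h3) (hN.Dy_le h2 h3)).trans (add_le_add ?_ le_rfl)
  change _ ≤ 800 * K / d * (η.1 u ^ 2 * ((fr.Dx w).1 u ^ 2 + (fr.Dy w).1 u ^ 2))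
  have h5 := (abs_nonneg _).trans h2
  calc _ ≤ 800 * (K / d * η.1 u ^ 2) * ((fr.Dx w).1 u ^ 2 + (fr.Dy w).1 u ^ 2) := by
        gcongr ?_ * _
        linarith
    _ = _ := by ring

theorem cacc : ∃ A : ℝ, 1 ≤ A ∧ ∀ (e H L : ℝ) (fr : Frame d1 d2) (a w f η χ' : S), e ≤ 1 →
    Near e H fr a → fr.Dy (fr.Dy w) - fr.Dx (a * fr.Dx w) = f → Cs η →
    (∀ u : Om, ‖u.1‖ < 3 / 2 → η.1 u = 0) → η * f = 0 →
    (∀ u, |(d1 η).1 u| ≤ L) → (∀ u, |(d2 η).1 u| ≤ L) →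
    (∀ u, (d1 η).1 u ≠ 0 ∨ (d2 η).1 u ≠ 0 → χ'.1 u = 1) →
    e * I (η ^ 2 * gr2 fr w) ≤ A * L ^ 2 * I (χ' ^ 2 * w ^ 2) := by
  refine ⟨400, by norm_num, fun e H L fr a w f η χ' he hN hf' hc hη hηf h1 h2 h3 => ?_⟩
  have h4 := I_weak fr a w (ψ := η ^ 2 * w) (by rw [sq]; exact (hc.mul_left _).mul_right _)
  have e0 : fr.j * f * (η ^ 2 * w) = 0 := by linear_combination (fr.j * η * w) * hηf
  have e1 : ∀ D : Derivation ℝ S S, D (η ^ 2 * w) = η ^ 2 * D w + 2 * η * D η * w := fun D => by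
    simp only [sq, Derivation.leibniz, smul_eq_mul]; ring
  rw [hf', e0, map_zero, e1, e1] at h4
  rw [← add_zero (e * _), ← mul_zero (3 : ℝ), h4, ← smul_eq_mul e, ← smul_eq_mul (3 : ℝ),
    ← smul_eq_mul (400 * L ^ 2), ← map_smul, ← map_smul, ← map_smul, ← map_add]
  refine I_mono fun u => ?_
  have h5 : ∃ M, |(d1 η).1 u| ≤ M ∧ |(d2 η).1 u| ≤ M ∧ M ^ 2 ≤ L ^ 2 * χ'.1 u ^ 2 := by
    by_cases h6 : (d1 η).1 u ≠ 0 ∨ (d2 η).1 u ≠ 0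
    · exact ⟨L, h1 u, h2 u, by simp [h3 u h6]⟩
    · push Not at h6
      exact ⟨0, by simp [h6.1], by simp [h6.2], by rw [zero_pow two_ne_zero]; positivity⟩
  obtain ⟨M, h6, h7, h8⟩ := h5
  refine (enB_cacc (c := η.1 u) (s := (fr.Dx w).1 u) (t := (fr.Dy w).1 u) (w := w.1 u)
    hN.e_nonneg he (hN.j_lo u) (hN.j_hi u) (hN.Dx_le h6 h7) (hN.Dy_le h6 h7) (hN.a_abs u)
    fun h => hN.a_out u (not_lt.1 fun h' => h (hη u h'))).trans ?_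
  change _ ≤ 400 * L ^ 2 * (χ'.1 u ^ 2 * w.1 u ^ 2)
  nlinarith [mul_le_mul_of_nonneg_right h8 (sq_nonneg (w.1 u)),
    mul_nonneg (sq_nonneg M) (sq_nonneg (w.1 u))]

end Vale.Agent.P229
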