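import Vale.Agent.P229.EnB

/-! The local multiplier inequality (energy in a thin strip) and the detection inequality.

PLAN for `local_mult`. `D = fr.Dx`, `E = fr.Dy`. `mult_id` (file `Alg`, `hc := fr.comm d_comm`)
with `m = Sg * χ0 ^ 2`, `n = 0`; multiply by `fr.j`, integrate (`Frame.I_Dx`, `Frame.I_Dy`,
`IsCut.cs`). `D Sg = ji * d2 y * wd⁻¹ θ²`, `E Sg = - ji * d2 x * wd⁻¹ θ²` (`Frame.Dx_apply`), and
`j * ji = 1`, so the part with derivatives of `Sg` is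
`χ0² θ² wd⁻¹ [ y2 ((Ew)² + a (Dw)²)/2 + x2 Dw Ew ]`, and where `χ0 ≠ 0` we have `‖u‖ < H ≤ 1/4`, so
`a ≥ 4e/5` (`a_in`), `x2² ≤ e/100` (`tl`), `|x2 Dw Ew| ≤ 5 x2² (Dw)² + (Ew)²/20`: bracket
`≥ (e/4) gr2`. The rest is `j Sg [ χ0 Dχ0 ((Ew)² + a (Dw)²) - χ0² (D a)(Dw)²/2 - 2 χ0 Eχ0 Dw Ew ]`,
it has the factor `χ0`, so it vanishes unless `‖u‖ < H` where `χ = 1`; bounded by `A χ² gr2` with
`|Dχ0|, |Eχ0| ≤ 1.1 K/(H/2)`, `|a| ≤ 35`, `|D a| ≤ 10` (`Dx_a`, `x_le`). One pointwise inequality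
and `I_mono`.

PLAN for `detect`. `weak_id` with `ψ`; `j (a Dw Dψ - Ew Eψ) =
(a y2 Dw + x2 Ew) d1 ψ - (a y1 Dw + x1 Ew) d2 ψ`; both brackets are at most `40 (|Dw| + |Ew|)`;
`(|p| + |q|) c ≤ l (p² + q²) + c² / (2 l)` with `p, q = χ0 thp Dw / √wd ...`: pointwise
`(|Dw| + |Ew|) |thp| |g2| ≤ l wd⁻¹ χ0² thp² gr2 + wd g2² / (2 l)` using `g2 = χ0 g2`, and
`wd (|Dw| + |Ew|) |th| |g3| ≤ l' wd⁻¹ χ0² th² gr2 + wd³ g3² / (2 l')`. -/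

namespace Vale.Agent.P229

theorem enD_loc {e j c p q P Q W g x2 y2 a ax s t M B : ℝ} (he0 : 0 ≤ e) (he : e ≤ 1)
    (hj : 97 / 100 ≤ j) (hj' : j ≤ 103 / 100) (hc : 0 ≤ c) (hc' : c ≤ 1) (hp : |p| ≤ M)
    (hq : |q| ≤ M) (hg : |g| ≤ B) (ha : |a| ≤ 35 * e) (ha' : 4 / 5 * e ≤ a) (hax : |ax| ≤ 10)
    (hx : x2 ^ 2 ≤ e / 100) (hy : |y2 - 1| ≤ 1 / 100) (hW : 0 ≤ W) (hP : j * P = y2 * W)
    (hQ : j * Q = -(x2 * W)) :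
    e / 4 * (W * (c ^ 2 * (s ^ 2 + t ^ 2))) ≤ 2 * B * (36 * M + 5) * (s ^ 2 + t ^ 2) +
      j * (1 / 2 * (c ^ 2 * P + 2 * g * c * p - 0) * t ^ 2 +
        1 / 2 * (a * (c ^ 2 * P + 2 * g * c * p - 0) - g * c ^ 2 * ax - 0) * s ^ 2 +
        (0 - (c ^ 2 * Q + 2 * g * c * q)) * (s * t)) := by
  have ha'' : |a| ≤ 35 := by linarith
  have hc1 : |c| ≤ 1 := by rwa [abs_of_nonneg hc]
  have k1 : e / 4 * (s ^ 2 + t ^ 2) ≤ y2 * (t ^ 2 + a * s ^ 2) / 2 + x2 * (s * t) := by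
    have k2 : t ^ 2 + 4 / 5 * e * s ^ 2 ≤ t ^ 2 + a * s ^ 2 := by gcongr
    have k3 := mul_le_mul (show 99 / 100 ≤ y2 by linarith [(abs_le.1 hy).1]) k2 (by positivity)
      (by linarith [(abs_le.1 hy).1])
    nlinarith [sq_nonneg (10 * x2 * s + t), mul_le_mul_of_nonneg_right hx (sq_nonneg s),
      mul_le_mul_of_nonneg_right he (sq_nonneg t), mul_nonneg he0 (sq_nonneg s), sq_nonneg t]
  have k6 : |t ^ 2 + a * s ^ 2| ≤ 35 * (s ^ 2 + t ^ 2) := by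
    refine (abs_add_le _ _).trans ?_
    have := abs_mul_le' ha'' (abs_sq s).le
    rw [abs_sq]
    nlinarith [sq_nonneg t]
  have k7 : |s ^ 2| ≤ s ^ 2 + t ^ 2 := by rw [abs_sq]; nlinarith [sq_nonneg t]
  have k8 : |s * t| ≤ (s ^ 2 + t ^ 2) / 2 :=
    abs_le.2 ⟨by nlinarith [sq_nonneg (s + t)], by nlinarith [sq_nonneg (s - t)]⟩
  have k9 : |j * g| ≤ 2 * B := abs_mul_le' (abs_le.2 ⟨by linarith, by linarith⟩) hg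
  have k10 := (abs_le.1 (abs_mul_le' k9 (abs_mul_le' (abs_mul_le' hc1 hp) k6))).1
  have k11 := (abs_le.1 (abs_mul_le' k9 (abs_mul_le' (abs_mul_le' hc1 hq) k8))).2
  have k12 := (abs_le.1 (abs_mul_le' k9
    (abs_mul_le' (abs_mul_le' (abs_mul_le' hc1 hc1) hax) k7))).2
  have k13 := mul_le_mul_of_nonneg_left k1 (mul_nonneg hW (sq_nonneg c))
  have k14 : j * (1 / 2 * (c ^ 2 * P + 2 * g * c * p - 0) * t ^ 2 +
        1 / 2 * (a * (c ^ 2 * P + 2 * g * c * p - 0) - g * c ^ 2 * ax - 0) * s ^ 2 +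
        (0 - (c ^ 2 * Q + 2 * g * c * q)) * (s * t)) =
      W * c ^ 2 * (y2 * (t ^ 2 + a * s ^ 2) / 2 + x2 * (s * t)) +
        j * g * (c * p * (t ^ 2 + a * s ^ 2)) - j * g * (c * c * ax * s ^ 2) / 2 -
        2 * (j * g * (c * q * (s * t))) := by
    linear_combination (c ^ 2 * (t ^ 2 + a * s ^ 2) / 2) * hP - c ^ 2 * (s * t) * hQ
  rw [k14]
  linarith

theorem enD_am {α β s t k g l : ℝ} (hα : |α| ≤ 40) (hβ : |β| ≤ 40) (hl : 0 < l) :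
    |(α * s + β * t) * (k * g)| ≤ 40 * (l * (k ^ 2 * (s ^ 2 + t ^ 2)) + g ^ 2 / (2 * l)) := by
  have h1 : α ^ 2 + β ^ 2 ≤ 3200 := by
    nlinarith [sq_abs α, sq_abs β, abs_nonneg α, abs_nonneg β]
  have h2 : (α * s + β * t) ^ 2 ≤ 3200 * (s ^ 2 + t ^ 2) := by
    nlinarith [sq_nonneg (α * t - β * s),
      mul_le_mul_of_nonneg_right h1 (show 0 ≤ s ^ 2 + t ^ 2 by positivity)]
  have h3 := mul_le_mul_of_nonneg_left (mul_le_mul_of_nonneg_left h2 (sq_nonneg k)) hl.le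
  obtain ⟨v, rfl⟩ : ∃ v, g = l * v := ⟨g / l, by field_simp⟩
  have h4 : (l * v) ^ 2 / (2 * l) = l * v ^ 2 / 2 := by field_simp
  rw [h4, abs_le]
  constructor
  · nlinarith [mul_nonneg hl.le (sq_nonneg ((α * s + β * t) * k + 40 * v))]
  · nlinarith [mul_nonneg hl.le (sq_nonneg ((α * s + β * t) * k - 40 * v))]

theorem local_mult (K B H : ℝ) (hK : 1 ≤ K) (hB : 1 ≤ B) (hH : 0 < H) (hH' : H ≤ 1 / 4) :
    ∃ A : ℝ, 1 ≤ A ∧ ∀ (e wd : ℝ) (fr : Frame d1 d2) (a w f χ0 χ Sg θ : S), e ≤ 1 →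
    Near e H fr a → fr.Dy (fr.Dy w) - fr.Dx (a * fr.Dx w) = f → IsCut K (H / 2) (H / 2) χ0 →
    (∀ u : Om, ‖u.1‖ ≤ H → χ.1 u = 1) → 0 < wd → d1 Sg = wd⁻¹ • θ ^ 2 → d2 Sg = 0 →
    (∀ u, |Sg.1 u| ≤ B) →
    e / 4 * (wd⁻¹ * I (χ0 ^ 2 * θ ^ 2 * gr2 fr w)) ≤ A * I (χ ^ 2 * gr2 fr w) +
      I (fr.j * f * (Sg * χ0 ^ 2 * fr.Dx w)) := by
  have hM : 0 ≤ 11 / 10 * (K / (H / 2)) := by positivity
  refine ⟨2 * B * (36 * (11 / 10 * (K / (H / 2))) + 5), by nlinarith,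
    fun e wd fr a w f χ0 χ Sg θ he hN hf' hχ0 hχ hwd h1 h2 hS => ?_⟩
  have hc : Cs (Sg * χ0 ^ 2) := by
    rw [sq]; exact ((hχ0.cs (by linarith)).mul_left _).mul_left _
  have e1 : ∀ D : Derivation ℝ S S, D (Sg * χ0 ^ 2) = χ0 ^ 2 * D Sg + 2 * Sg * χ0 * D χ0 :=
    fun D => by simp only [sq, Derivation.leibniz, smul_eq_mul]; ring
  have h3 := I_mult fr a w hc (n := 0) fun _ _ => rfl
  simp only [map_zero, zero_mul, mul_zero, add_zero] at h3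
  rw [← hf', h3, e1, e1, ← smul_eq_mul wd⁻¹, ← map_smul, ← smul_eq_mul (e / 4),
    ← smul_eq_mul (2 * B * _), ← map_smul, ← map_smul, ← map_add]
  refine I_mono fun u => ?_
  have hu := mem_Om.1 u.2
  have hji := fr.j_ji_apply u
  have h4 : (d1 Sg).1 u = wd⁻¹ * θ.1 u ^ 2 := by rw [h1]; rfl
  have h5 : (d2 Sg).1 u = 0 := by rw [h2]; rfl
  by_cases h0 : χ0.1 u = 0
  · have h6 : 0 ≤ 2 * B * (36 * (11 / 10 * (K / (H / 2))) + 5) *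
        (χ.1 u ^ 2 * ((fr.Dx w).1 u ^ 2 + (fr.Dy w).1 u ^ 2)) := by positivity
    simpa [h0, gr2_apply] using h6
  have h6 : ‖u.1‖ ≤ H := le_of_not_gt fun h => h0 (hχ0.zero u (by linarith))
  have h7 : |(fr.Dx a).1 u| ≤ 10 := by
    have k1 := abs_le.1 (hN.Dx_a u)
    have k2 := abs_le.1 (abs_mul_le' (abs_le.2 ⟨by linarith [hN.e_nonneg], he⟩) (hN.x_le u))
    rw [abs_le]
    constructor <;> linarith [k1.1, k1.2, k2.1, k2.2]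
  have key := enD_loc (P := (fr.Dx Sg).1 u) (Q := (fr.Dy Sg).1 u) (s := (fr.Dx w).1 u)
    (t := (fr.Dy w).1 u) (W := wd⁻¹ * θ.1 u ^ 2) hN.e_nonneg he (hN.j_lo u) (hN.j_hi u)
    (hχ0.nonneg u) (hχ0.le_one u) (hN.Dx_le (hχ0.b1 u) (hχ0.b2 u))
    (hN.Dy_le (hχ0.b1 u) (hχ0.b2 u)) (hS u) (hN.a_abs u) (hN.a_in u (h6.trans hH')) h7
    (hN.tl u h6) (hN.y2 u) (by positivity)
    (by rw [fr.Dx_ap, h4, h5]; linear_combination ((d2 fr.y).1 u * (wd⁻¹ * θ.1 u ^ 2)) * hji)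
    (by rw [fr.Dy_ap, h4, h5]; linear_combination (-(d2 fr.x).1 u * (wd⁻¹ * θ.1 u ^ 2)) * hji)
  refine le_trans (le_of_eq ?_) (key.trans (add_le_add (le_of_eq ?_) le_rfl))
  · change e / 4 * (wd⁻¹ * (χ0.1 u ^ 2 * θ.1 u ^ 2 *
      ((fr.Dx w).1 u ^ 2 + (fr.Dy w).1 u ^ 2))) = _
    ring
  · change _ = _ * (χ.1 u ^ 2 * ((fr.Dx w).1 u ^ 2 + (fr.Dy w).1 u ^ 2))
    rw [hχ u h6, one_pow, one_mul]

theorem detect {e H wd l l' : ℝ} {fr : Frame d1 d2} {a w f ψ χ0 th thp g2 g3 : S} (he : e ≤ 1)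
    (hN : Near e H fr a) (hP : fr.Dy (fr.Dy w) - fr.Dx (a * fr.Dx w) = f) (hψ : Cs ψ)
    (hwd : 0 < wd) (h1 : d1 ψ = wd⁻¹ • (thp * g2)) (h2 : d2 ψ = th * g3) (h3 : χ0 * g2 = g2)
    (h4 : χ0 * g3 = g3) (hl : 0 < l) (hl' : 0 < l') :
    wd * I (-(fr.j * f * ψ)) ≤ 40 * (l * (wd⁻¹ * I (χ0 ^ 2 * thp ^ 2 * gr2 fr w)) +
      wd * I (g2 ^ 2) / (2 * l) + l' * (wd⁻¹ * I (χ0 ^ 2 * th ^ 2 * gr2 fr w)) +
      wd ^ 3 * I (g3 ^ 2) / (2 * l')) := by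
  have h5 : wd * I (-(fr.j * f * ψ)) =
      I (-(wd • (fr.j * (a * fr.Dx w * fr.Dx ψ - fr.Dy w * fr.Dy ψ)))) := by
    rw [← hP, map_neg, I_weak fr a w hψ, map_neg, map_smul, smul_eq_mul, mul_neg]
  have h6 : 40 * (l * (wd⁻¹ * I (χ0 ^ 2 * thp ^ 2 * gr2 fr w)) +
      wd * I (g2 ^ 2) / (2 * l) + l' * (wd⁻¹ * I (χ0 ^ 2 * th ^ 2 * gr2 fr w)) +
      wd ^ 3 * I (g3 ^ 2) / (2 * l')) = I ((40 : ℝ) • ((l / wd) • ((χ0 * thp) ^ 2 * gr2 fr w) +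
        (2 * (l / wd))⁻¹ • g2 ^ 2) + (40 : ℝ) • ((l' / wd) • ((χ0 * th) ^ 2 * gr2 fr w) +
        (2 * (l' / wd))⁻¹ • (wd • g3) ^ 2)) := by
    simp only [map_add, map_smul, smul_eq_mul, mul_pow, smul_pow]
    field_simp
    ring
  rw [h5, h6]
  refine I_mono fun u => ?_
  have hji := fr.j_ji_apply u
  have k1 : wd * (d1 ψ).1 u = χ0.1 u * thp.1 u * g2.1 u := by
    rw [h1, ← h3]
    change wd * (wd⁻¹ * (thp.1 u * (χ0.1 u * g2.1 u))) = χ0.1 u * thp.1 u * (χ0 * g2).1 u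
    rw [h3]
    field_simp
  have k2 : (d2 ψ).1 u = χ0.1 u * th.1 u * g3.1 u := by
    rw [h2, ← h4]
    change th.1 u * (χ0.1 u * g3.1 u) = χ0.1 u * th.1 u * (χ0 * g3).1 u
    rw [h4]
    ring
  have ha : |a.1 u| ≤ 35 := by linarith [hN.a_abs u]
  have b : ∀ p : ℝ, |p - 1| ≤ 1 / 100 → |p| ≤ 8 / 7 := fun p hp =>
    abs_le.2 ⟨by linarith [(abs_le.1 hp).1], by linarith [(abs_le.1 hp).2]⟩
  have k3 := enD_am (s := (fr.Dx w).1 u) (t := (fr.Dy w).1 u) (k := χ0.1 u * thp.1 u)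
    (g := g2.1 u) ((abs_mul_le' ha (b _ (hN.y2 u))).trans (by norm_num))
    ((hN.x2 u).trans (by norm_num)) (div_pos hl hwd)
  have k4 := enD_am (s := (fr.Dx w).1 u) (t := (fr.Dy w).1 u) (k := χ0.1 u * th.1 u)
    (g := wd * g3.1 u) ((abs_mul_le' ha (hN.y1 u)).trans (by norm_num))
    ((b _ (hN.x1 u)).trans (by norm_num)) (div_pos hl' hwd)
  rw [div_eq_inv_mul (_ ^ 2)] at k3 k4
  refine le_trans (le_of_eq ?_) (add_le_add (neg_le.1 (abs_le.1 k3).1) (abs_le.1 k4).2)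
  change -(wd * (fr.j.1 u * (a.1 u * (fr.Dx w).1 u * (fr.Dx ψ).1 u -
    (fr.Dy w).1 u * (fr.Dy ψ).1 u))) = _
  rw [← k1, fr.Dx_ap ψ, fr.Dy_ap ψ, k2]
  linear_combination (-wd * ((a.1 u * (d2 fr.y).1 u * (fr.Dx w).1 u + (d2 fr.x).1 u *
    (fr.Dy w).1 u) * (d1 ψ).1 u - (a.1 u * (d1 fr.y).1 u * (fr.Dx w).1 u + (d1 fr.x).1 u *
    (fr.Dy w).1 u) * (χ0.1 u * th.1 u * g3.1 u))) * hji

end Vale.Agent.P229
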