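import Vale.Agent.P229.EnB
import Vale.Agent.P229.EnD

/-! The energy estimate: a reverse Poincare inequality which also sees the source.

PLAN. Write `G = I (χ² gr2)`, `N = I (χ'² w²)`, `χ0` from `hcut (H/2) (H/2)`,
`X = wd⁻¹ I (χ0² th² gr2)`, `Y = wd⁻¹ I (χ0² thp² gr2)`; take `h0 ≤ H/2`, so `χ0 = 1` on the supports
of `f, g2, g3` (`χ0 * f = f` etc. by `S.ext'` and cases on `h < ‖u‖`), `χ = 1` on `‖u‖ ≤ H`.
`0 ≤ φ` from `If`. Note `d ≤ 1/3`.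
1. `η = c₁ * (1 - c₂)`, `c₁` from `hcut (r + d) d`, `c₂` from `hcut (3/2) (1/4)`: `η = 1` on
   `r ≤ ‖u‖ ≤ r + d`, `η = 0` for `‖u‖ < 3/2`, `η * f = 0`, `|d η| ≤ K/d + 4K ≤ 3K/d`, and if
   `r + 2d < ‖u‖` then `d η = 0` (`der_out`), else `χ' = 1`. `cacc` bounds `I (η² gr2)` by
   `A (3K/d)² N / e0`.
2. `local_mult` with `Sout`: the source term is `0` (`outf`), so `Y ≤ A G`.
3. `local_mult` with `Sin`: `|j f Sin χ0² Dw| ≤ (e0/8) wd⁻¹ χ0² th² gr2 + (3 B²/e0) wd f²` using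
   `f = th f`, `0 ≤ χ0 ≤ 1`, `j ≤ 1.03`; so `X ≤ A (G + φ)`.
4. `det` and `detect` with `l = 80 B²`, `l' = s`:
   `φ ≤ φ/4 + A Y + 40 B s (X + B φ/2)`, so for `s ≤ s0` (and `s0 ≤ 1`): `φ ≤ A G`.
5. `main_mult`; its source term is at most `2 h (wd f² + wd⁻¹ χ0² th² gr2)` pointwise (on the
   support of `f`: `|x|, |y| ≤ 1.02 h`, `χ = χ0 = 1`, `f = th f`), so
   `(e0/6) G ≤ A N / d³ + 2 h (B φ + X) ≤ A N / d³ + h A G`; absorb for `h ≤ h0`.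
6. `grad_le`. It is convenient to isolate the real-number bookkeeping of steps 2-5 in a lemma about
   reals `G N X Y φ`. -/

namespace Vale.Agent.P229

theorem en_am {l : ℝ} (hl : 0 < l) (x y : ℝ) : x * y ≤ l * x ^ 2 + y ^ 2 / (4 * l) := by
  obtain ⟨v, rfl⟩ : ∃ v, y = l * v := ⟨y / l, by field_simp⟩
  have h : (l * v) ^ 2 / (4 * l) = l * v ^ 2 / 4 := by field_simp
  rw [h]
  nlinarith [mul_nonneg hl.le (sq_nonneg (2 * x - v))]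

theorem en_real {c s h G N X Y φ : ℝ} (hc : 1 ≤ c) (hs : 0 ≤ s) (hs' : s ≤ 1 / (8 * c ^ 2))
    (hh' : h ≤ 1 / (14 * c ^ 4)) (hG0 : 0 ≤ G) (hφ0 : 0 ≤ φ) (hX0 : 0 ≤ X)
    (hY : Y ≤ c * G) (hX : X ≤ c * (G + φ)) (hφ : φ ≤ φ / 4 + c * Y + c * (s * (X + φ)))
    (hG : G ≤ c * N + c * (h * (φ + X))) : 3 * G + φ ≤ 12 * c ^ 3 * N := by
  have c0 : 0 < c := by linarith
  have c2 : 1 ≤ c ^ 2 := one_le_pow₀ hc
  rw [le_div_iff₀ (by positivity)] at hs'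
  have k1 : X + φ ≤ c * (G + 2 * φ) := by nlinarith
  have k2 : c * (s * (X + φ)) ≤ G / 8 + φ / 4 := by
    have := mul_le_mul_of_nonneg_left k1 (mul_nonneg c0.le hs)
    nlinarith [mul_le_mul_of_nonneg_right hs' (show 0 ≤ G + 2 * φ by positivity)]
  have k3 : φ ≤ 3 * c ^ 2 * G := by
    nlinarith [mul_le_mul_of_nonneg_left hY c0.le, mul_le_mul_of_nonneg_right c2 hG0]
  have k4 : φ + X ≤ 7 * c ^ 3 * G := by
    have := mul_le_mul_of_nonneg_left k3 c0.le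
    nlinarith [mul_le_mul_of_nonneg_right c2 (mul_nonneg c0.le hG0),
      mul_le_mul_of_nonneg_right hc hφ0]
  have k5 : c * (h * (φ + X)) ≤ G / 2 := by
    calc c * (h * (φ + X)) ≤ c * (1 / (14 * c ^ 4) * (7 * c ^ 3 * G)) := by gcongr
      _ = G / 2 := by field_simp; ring
  have k6 : G ≤ 2 * c * N := by linarith
  nlinarith [mul_le_mul_of_nonneg_right c2 hG0, mul_le_mul_of_nonneg_left k6 (sq_nonneg c)]

theorem en_real2 {c e0 e A1 A2 A3 B K d s h G N X Y J φ F F2 F3 Dt : ℝ} (hB : 1 ≤ B)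
    (he0 : 0 < e0) (he : e0 ≤ e) (hd : 0 < d) (hs : 0 < s) (hh : 0 < h) (hA1 : 1 ≤ A1)
    (hA3 : 1 ≤ A3) (hc : 1 ≤ c) (hc1 : 8 * A3 ≤ c * e0) (hc2 : 24 * B ^ 3 ≤ c * e0 ^ 2)
    (hc3 : 3200 * B ^ 3 ≤ c) (hc4 : 54 * A1 * A2 * K ^ 2 ≤ c * e0 ^ 2) (hc5 : 12 * B ≤ c * e0)
    (hs0 : s ≤ 1 / (8 * c ^ 2)) (hh0 : h ≤ 1 / (14 * c ^ 4)) (hG0 : 0 ≤ G) (hN0 : 0 ≤ N)
    (hX0 : 0 ≤ X) (hY0 : 0 ≤ Y) (hJ0 : 0 ≤ J) (hF0 : 0 ≤ F) (hF : F ≤ B * φ) (hF2 : F2 ≤ B * φ)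
    (hF3 : F3 ≤ B * s ^ 2 * φ) (hdet : φ ≤ B * Dt) (k1 : e * J ≤ A2 * (3 * K / d) ^ 2 * N)
    (k2 : e / 4 * Y ≤ A3 * G) (k3 : e / 4 * X ≤ A3 * G + (e0 / 8 * X + 3 * B ^ 2 / e0 * F))
    (k4 : Dt ≤ 40 * (80 * B ^ 2 * Y + F2 / (2 * (80 * B ^ 2)) + s * X + F3 / (2 * s)))
    (k5 : e / 6 * G ≤ A1 / d * J + 2 * h * (F + X)) :
    3 * G + φ ≤ 12 * c ^ 3 / d ^ 3 * N := by
  have hφ0 : 0 ≤ φ := nonneg_of_mul_nonneg_right (hF0.trans hF) (by linarith)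
  have hB2 : B ≤ B ^ 2 := le_self_pow₀ hB two_ne_zero
  have hB3 : B ^ 2 ≤ B ^ 3 := pow_le_pow_right₀ hB (by norm_num)
  refine (en_real (N := N / d ^ 3) (Y := Y) hc hs.le hs0 hh0 hG0 hφ0 hX0 ?_ ?_ ?_ ?_).trans
    (le_of_eq (by ring))
  · refine le_of_mul_le_mul_left ?_ he0
    linarith [mul_le_mul_of_nonneg_right he hY0, mul_le_mul_of_nonneg_right hc1 hG0,
      mul_nonneg (show 0 ≤ A3 by linarith) hG0]
  · refine le_of_mul_le_mul_left ?_ he0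
    have l1 : 3 * B ^ 2 / e0 * F ≤ c * e0 / 8 * φ := by
      calc _ ≤ 3 * B ^ 2 / e0 * (B * φ) := by gcongr
        _ = 24 * B ^ 3 / (8 * e0) * φ := by field_simp; ring
        _ ≤ c * e0 ^ 2 / (8 * e0) * φ := by gcongr
        _ = _ := by field_simp
    linarith [mul_le_mul_of_nonneg_right he hX0, mul_le_mul_of_nonneg_right hc1 hG0]
  · have l1 : F2 / (2 * (80 * B ^ 2)) ≤ B * φ / (2 * (80 * B ^ 2)) := by gcongr
    have l2 : F3 / (2 * s) ≤ B * s ^ 2 * φ / (2 * s) := by gcongr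
    have l3 : φ ≤ B * (40 * (80 * B ^ 2 * Y + B * φ / (2 * (80 * B ^ 2)) + s * X +
        B * s ^ 2 * φ / (2 * s))) := by
      exact hdet.trans <| mul_le_mul_of_nonneg_left (k4.trans (by linarith)) (by linarith)
    have l4 : B * (40 * (80 * B ^ 2 * Y + B * φ / (2 * (80 * B ^ 2)) + s * X +
        B * s ^ 2 * φ / (2 * s))) = φ / 4 + 3200 * B ^ 3 * Y + 40 * B * (s * X) +
          20 * B ^ 2 * (s * φ) := by
      field_simp; ring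
    have l5 : 40 * B * (s * X) ≤ c * (s * X) := by gcongr; linarith
    have l6 : 20 * B ^ 2 * (s * φ) ≤ c * (s * φ) := by gcongr; linarith
    have l7 : 3200 * B ^ 3 * Y ≤ c * Y := by gcongr
    linarith
  · refine le_of_mul_le_mul_left ?_ he0
    have l1 : 6 * (A1 / d * J) ≤ e0 * (c * (N / d ^ 3)) := by
      refine le_of_mul_le_mul_left ?_ he0
      calc e0 * (6 * (A1 / d * J)) = 6 * A1 / d * (e0 * J) := by ring
        _ ≤ 6 * A1 / d * (A2 * (3 * K / d) ^ 2 * N) :=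
          mul_le_mul_of_nonneg_left ((mul_le_mul_of_nonneg_right he hJ0).trans k1) (by positivity)
        _ = 54 * A1 * A2 * K ^ 2 * (N / d ^ 3) := by field_simp; ring
        _ ≤ c * e0 ^ 2 * (N / d ^ 3) := by gcongr
        _ = _ := by ring
    have l2 : F + X ≤ B * (φ + X) := by linarith [mul_le_mul_of_nonneg_right hB hX0]
    have l3 : 12 * B * (h * (φ + X)) ≤ c * e0 * (h * (φ + X)) := by gcongr
    linarith [mul_le_mul_of_nonneg_right he hG0, mul_le_mul_of_nonneg_left l2 hh.le]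

theorem en_p3 {e0 wd B j f g c θ s t : ℝ} (he0 : 0 < e0) (hwd : 0 < wd) (hj : 97 / 100 ≤ j)
    (hj' : j ≤ 103 / 100) (hc : 0 ≤ c) (hc' : c ≤ 1) (hg : |g| ≤ B) (hf : θ * f = f) :
    j * f * (g * c ^ 2 * s) ≤ e0 / 8 * (wd⁻¹ * (c ^ 2 * θ ^ 2 * (s ^ 2 + t ^ 2))) +
      3 * B ^ 2 / e0 * (wd * f ^ 2) := by
  have h1 := en_am (l := e0 / 8 * wd⁻¹) (by positivity) (c * θ * s) (j * g * c * f)
  have h2 : |j * g * c| ≤ 103 / 100 * B * 1 :=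
    abs_mul_le' (abs_mul_le' (abs_le.2 ⟨by linarith, hj'⟩) hg) (by rwa [abs_of_nonneg hc])
  have h3 : (j * g * c) ^ 2 ≤ 3 / 2 * B ^ 2 := by
    have := pow_le_pow_left₀ (abs_nonneg _) h2 2
    rw [sq_abs] at this
    nlinarith [sq_nonneg B]
  have h4 : (j * g * c * f) ^ 2 / (4 * (e0 / 8 * wd⁻¹)) ≤ 3 * B ^ 2 / e0 * (wd * f ^ 2) := by
    calc _ ≤ 3 / 2 * B ^ 2 * f ^ 2 / (4 * (e0 / 8 * wd⁻¹)) := by rw [mul_pow _ f]; gcongr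
      _ = _ := by field_simp; ring
  have h5 : 0 ≤ e0 / 8 * (wd⁻¹ * (c ^ 2 * θ ^ 2 * t ^ 2)) := by positivity
  have h6 : j * f * (g * c ^ 2 * s) = c * θ * s * (j * g * c * f) := by
    linear_combination (-(j * g * c ^ 2 * s)) * hf
  rw [h6]
  nlinarith

theorem en_p5 {h wd j f x y θ s t : ℝ} (hh : 0 < h) (hwd : 0 < wd) (hj : 97 / 100 ≤ j)
    (hj' : j ≤ 103 / 100) (hx : |x| ≤ 51 / 50 * h) (hy : |y| ≤ 51 / 50 * h) (hf : θ * f = f) :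
    j * f * (1 ^ 2 * x * s + 1 ^ 2 * (1 / 2 * y) * t) ≤
      2 * h * (wd * f ^ 2 + wd⁻¹ * (1 ^ 2 * θ ^ 2 * (s ^ 2 + t ^ 2))) := by
  have h1 := en_am (l := h⁻¹ * wd⁻¹) (by positivity) (θ * (j * x * s + j * y / 2 * t)) f
  have hj1 : |j| ≤ 103 / 100 := abs_le.2 ⟨by linarith, hj'⟩
  have h2 := pow_le_pow_left₀ (abs_nonneg _) (abs_mul_le' hj1 hx) 2
  have h3 := pow_le_pow_left₀ (abs_nonneg _) (abs_mul_le' hj1 hy) 2
  rw [sq_abs] at h2 h3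
  have h4 : (j * x) ^ 2 + (j * y / 2) ^ 2 ≤ 2 * h ^ 2 := by nlinarith [sq_nonneg h]
  have h5 : (j * x * s + j * y / 2 * t) ^ 2 ≤ 2 * h ^ 2 * (s ^ 2 + t ^ 2) := by
    nlinarith [sq_nonneg (j * x * t - j * y / 2 * s),
      mul_le_mul_of_nonneg_right h4 (show 0 ≤ s ^ 2 + t ^ 2 by positivity)]
  have h6 : h⁻¹ * wd⁻¹ * (θ * (j * x * s + j * y / 2 * t)) ^ 2 ≤
      2 * h * (wd⁻¹ * (1 ^ 2 * θ ^ 2 * (s ^ 2 + t ^ 2))) := by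
    calc _ ≤ h⁻¹ * wd⁻¹ * (θ ^ 2 * (2 * h ^ 2 * (s ^ 2 + t ^ 2))) := by rw [mul_pow θ]; gcongr
      _ = _ := by field_simp
  have h7 : f ^ 2 / (4 * (h⁻¹ * wd⁻¹)) = h * (wd * f ^ 2) / 4 := by field_simp
  have h8 : 0 ≤ h * (wd * f ^ 2) := by positivity
  have h9 : j * f * (1 ^ 2 * x * s + 1 ^ 2 * (1 / 2 * y) * t) =
      θ * (j * x * s + j * y / 2 * t) * f := by
    linear_combination (-(j * x * s + j * y / 2 * t)) * hf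
  rw [h9]
  linarith

theorem en_eta {K r d : ℝ} (hK : 1 ≤ K) (hcut : ∀ r d : ℝ, 0 < d → ∃ χ : S, IsCut K r d χ)
    (hd : 0 < d) (hr : 2 ≤ r) (hrd : r + 3 * d ≤ 3) :
    ∃ η : S, Cs η ∧ (∀ u : Om, ‖u.1‖ < 3 / 2 → η.1 u = 0) ∧
      (∀ u : Om, r ≤ ‖u.1‖ → ‖u.1‖ ≤ r + d → η.1 u = 1) ∧
      (∀ u, |(d1 η).1 u| ≤ 3 * K / d) ∧ (∀ u, |(d2 η).1 u| ≤ 3 * K / d) ∧
      ∀ u, (d1 η).1 u ≠ 0 ∨ (d2 η).1 u ≠ 0 → ‖u.1‖ ≤ r + 2 * d := by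
  obtain ⟨c₁, h₁⟩ := hcut (r + d) d hd
  obtain ⟨c₂, h₂⟩ := hcut (3 / 2) (1 / 4) (by norm_num)
  have h0 : ∀ u, (c₁ * (1 - c₂)).1 u = c₁.1 u * (1 - c₂.1 u) := fun u => rfl
  have key : ∀ D : Derivation ℝ S S, (∀ u, |(D c₁).1 u| ≤ K / d) →
      (∀ u, |(D c₂).1 u| ≤ K / (1 / 4)) → ∀ u, |(D (c₁ * (1 - c₂))).1 u| ≤ 3 * K / d := by
    intro D k1 k2 u
    have e : D (c₁ * (1 - c₂)) = (1 - c₂) * D c₁ - c₁ * D c₂ := by
      simp only [Derivation.leibniz, map_sub, Derivation.map_one_eq_zero, smul_eq_mul]; ring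
    have k3 : |1 - c₂.1 u| ≤ 1 := abs_le.2 ⟨by linarith [h₂.le_one u], by linarith [h₂.nonneg u]⟩
    have k4 : |c₁.1 u| ≤ 1 := abs_le.2 ⟨by linarith [h₁.nonneg u], h₁.le_one u⟩
    have k5 : K / (1 / 4) ≤ 2 * (K / d) := by
      rw [← mul_div_assoc, div_le_div_iff₀ (by norm_num) hd]; nlinarith
    rw [e, mul_div_assoc]
    refine (abs_sub ((1 - c₂.1 u) * (D c₁).1 u) (c₁.1 u * (D c₂).1 u)).trans ?_
    linarith [abs_mul_le' k3 (k1 u), abs_mul_le' k4 (k2 u)]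
  have hz : ∀ u : Om, r + 2 * d < ‖u.1‖ → (c₁ * (1 - c₂)).1 u = 0 := fun u hu => by
    rw [h0, h₁.zero u (by linarith), zero_mul]
  refine ⟨c₁ * (1 - c₂), (h₁.cs (by linarith)).mul_right _, fun u hu => ?_, fun u hu hu' => ?_,
    key _ h₁.b1 h₂.b1, key _ h₁.b2 h₂.b2, fun u hu => le_of_not_gt fun h => ?_⟩
  · rw [h0, h₂.one u hu.le, sub_self, mul_zero]
  · rw [h0, h₁.one u hu', h₂.zero u (by linarith), sub_zero, mul_one]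
  · exact hu.elim (fun h' => h' (der_out hz _ u h)) fun h' => h' (der_out hz _ u h)

theorem energy (K B e0 H : ℝ) (hK : 1 ≤ K) (hcut : ∀ r d : ℝ, 0 < d → ∃ χ : S, IsCut K r d χ)
    (hB : 1 ≤ B) (he0 : 0 < e0) (hH : 0 < H) (hH' : H ≤ 1 / 4) :
    ∃ A s0 h0 : ℝ, 1 ≤ A ∧ 0 < s0 ∧ 0 < h0 ∧ ∀ (e h wd s φ r d : ℝ) (fr : Frame d1 d2)
      (a w f χ χ' : S), e0 ≤ e → e ≤ 1 → Near e H fr a →
      fr.Dy (fr.Dy w) - fr.Dx (a * fr.Dx w) = f → Nonempty (Src B h wd s φ fr.j f) →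
      0 < s → s ≤ s0 → 0 < h → h ≤ h0 → 0 < d → 2 ≤ r → r + 3 * d ≤ 3 →
      IsCut K r d χ → IsCut K (r + 2 * d) d χ' →
      I (χ ^ 2 * (d1 w ^ 2 + d2 w ^ 2)) + φ ≤ A / d ^ 3 * I (χ' ^ 2 * w ^ 2) := by
  obtain ⟨A1, hA1, H1⟩ := main_mult K hK
  obtain ⟨A2, hA2, H2⟩ := cacc
  obtain ⟨A3, hA3, H3⟩ := local_mult K B H hK hB hH hH'
  have ev : ∀ a b : ℝ, 0 < a → ∀ᶠ c in Filter.atTop, b ≤ c * a := fun a b ha =>
    (Filter.tendsto_id.atTop_mul_const ha).eventually_ge_atTop b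
  obtain ⟨c, hc, hc1, hc2, hc3, hc4, hc5⟩ := ((Filter.eventually_ge_atTop 1).and
    ((ev e0 (8 * A3) he0).and ((ev (e0 ^ 2) (24 * B ^ 3) (by positivity)).and
    ((Filter.eventually_ge_atTop (3200 * B ^ 3)).and
    ((ev (e0 ^ 2) (54 * A1 * A2 * K ^ 2) (by positivity)).and (ev e0 (12 * B) he0)))))).exists
  refine ⟨12 * c ^ 3, 1 / (8 * c ^ 2), min (H / 2) (1 / (14 * c ^ 4)),
    by linarith [one_le_pow₀ (n := 3) hc], by positivity, by positivity, ?_⟩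
  rintro e h wd s φ r d fr a w f χ χ' he he1 hN hP ⟨σ⟩ hs hs0 hh hh0 hd hr hrd hχ hχ'
  have hh1 := hh0.trans (min_le_left _ _)
  have hwd := σ.wd_pos
  obtain ⟨χ0, hχ0⟩ := hcut (H / 2) (H / 2) (by positivity)
  obtain ⟨η, η1, η2, η3, η4, η5, η6⟩ := en_eta hK hcut hd hr hrd
  have hχ1 : ∀ u : Om, ‖u.1‖ ≤ H → χ.1 u = 1 := fun u hu => hχ.one u (by linarith)
  have hfix : ∀ g : S, (∀ u : Om, h < ‖u.1‖ → g.1 u = 0) → χ0 * g = g := fun g hg =>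
    S.ext' fun u => by
      change χ0.1 u * g.1 u = g.1 u
      by_cases hu : h < ‖u.1‖
      · rw [hg u hu, mul_zero]
      · rw [hχ0.one u (by linarith), one_mul]
  have hth : ∀ u, σ.th.1 u * f.1 u = f.1 u := fun u => congrArg (fun g : S => g.1 u) σ.thf
  have hpos : ∀ g : S, 0 ≤ I (g ^ 2 * gr2 fr w) := fun g =>
    I_nonneg fun u => mul_nonneg (sq_nonneg (g.1 u)) (by rw [gr2_apply]; positivity)
  have k1 := H2 e H _ fr a w f η χ' he1 hN hP η1 η2 (S.ext' fun u => by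
    change η.1 u * f.1 u = 0
    by_cases hu : h < ‖u.1‖
    · rw [σ.f0 u hu, mul_zero]
    · rw [η2 u (by linarith), zero_mul]) η4 η5 fun u hu => hχ'.one u (η6 u hu)
  have k2 := H3 e wd fr a w f χ0 χ σ.Sout σ.thp he1 hN hP hχ0 hχ1 hwd σ.out1 σ.out2 σ.outB
  have k3 := H3 e wd fr a w f χ0 χ σ.Sin σ.th he1 hN hP hχ0 hχ1 hwd σ.in1 σ.in2 σ.inB
  have k4 := detect he1 hN hP (fun u hu => σ.ψ0 u (by linarith)) hwd σ.ψ1 σ.ψ2 (hfix _ σ.g20)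
    (hfix _ σ.g30) (l := 80 * B ^ 2) (by positivity) hs
  have k5 := H1 e H r d fr a w f χ η he1 hN hP hd (by linarith) hχ η3
  have k6 : I (χ ^ 2 * (d1 w ^ 2 + d2 w ^ 2)) ≤ 3 * I (χ ^ 2 * gr2 fr w) := by
    rw [← smul_eq_mul (3 : ℝ), ← map_smul]
    refine I_mono fun u => ?_
    change χ.1 u ^ 2 * ((d1 w).1 u ^ 2 + (d2 w).1 u ^ 2) ≤ 3 * (χ.1 u ^ 2 * (gr2 fr w).1 u)
    nlinarith [mul_le_mul_of_nonneg_left (hN.grad_le w u) (sq_nonneg (χ.1 u))]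
  rw [show fr.j * f * (σ.Sout * χ0 ^ 2 * fr.Dx w) = 0 by
    linear_combination (fr.j * χ0 ^ 2 * fr.Dx w) * σ.outf, map_zero, add_zero] at k2
  have k7 : I (fr.j * f * (σ.Sin * χ0 ^ 2 * fr.Dx w)) ≤
      e0 / 8 * (wd⁻¹ * I (χ0 ^ 2 * σ.th ^ 2 * gr2 fr w)) + 3 * B ^ 2 / e0 * (wd * I (f ^ 2)) := by
    rw [← smul_eq_mul wd⁻¹, ← smul_eq_mul wd, ← map_smul, ← map_smul, ← smul_eq_mul (e0 / 8),
      ← smul_eq_mul (3 * B ^ 2 / e0), ← map_smul, ← map_smul, ← map_add]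
    exact I_mono fun u => en_p3 he0 hwd (hN.j_lo u) (hN.j_hi u) (hχ0.nonneg u) (hχ0.le_one u)
      (σ.inB u) (hth u)
  have k8 : I (fr.j * f * (χ ^ 2 * fr.x * fr.Dx w + χ ^ 2 * (hf S * fr.y) * fr.Dy w)) ≤
      2 * h * (wd * I (f ^ 2) + wd⁻¹ * I (χ0 ^ 2 * σ.th ^ 2 * gr2 fr w)) := by
    rw [← smul_eq_mul wd⁻¹, ← smul_eq_mul wd, ← map_smul, ← map_smul, ← map_add,
      ← smul_eq_mul (2 * h), ← map_smul]
    refine I_mono fun u => ?_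
    change fr.j.1 u * f.1 u * (χ.1 u ^ 2 * fr.x.1 u * (fr.Dx w).1 u +
      χ.1 u ^ 2 * (1 / 2 * fr.y.1 u) * (fr.Dy w).1 u) ≤ 2 * h * (wd * f.1 u ^ 2 +
        wd⁻¹ * (χ0.1 u ^ 2 * σ.th.1 u ^ 2 * ((fr.Dx w).1 u ^ 2 + (fr.Dy w).1 u ^ 2)))
    by_cases hu : h < ‖u.1‖
    · rw [σ.f0 u hu, mul_zero, zero_mul]; positivity
    · rw [hχ0.one u (by linarith), hχ1 u (by linarith)]
      exact en_p5 hh hwd (hN.j_lo u) (hN.j_hi u) ((hN.x_le u).trans (by linarith))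
        ((hN.y_le u).trans (by linarith)) (hth u)
  have hF0 : 0 ≤ wd * I (f ^ 2) := mul_nonneg hwd.le (I_nonneg fun u => sq_nonneg (f.1 u))
  have hX0 : 0 ≤ wd⁻¹ * I (χ0 ^ 2 * σ.th ^ 2 * gr2 fr w) := by
    rw [← mul_pow]; exact mul_nonneg (by positivity) (hpos _)
  have hY0 : 0 ≤ wd⁻¹ * I (χ0 ^ 2 * σ.thp ^ 2 * gr2 fr w) := by
    rw [← mul_pow]; exact mul_nonneg (by positivity) (hpos _)
  have hN0 : 0 ≤ I (χ' ^ 2 * w ^ 2) :=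
    I_nonneg fun u => mul_nonneg (sq_nonneg (χ'.1 u)) (sq_nonneg (w.1 u))
  exact (add_le_add k6 le_rfl).trans (en_real2 hB he0 he hd hs hh hA1 hA3 hc hc1 hc2 hc3 hc4 hc5
    hs0 (hh0.trans (min_le_right _ _)) (hpos χ) hN0 hX0 hY0 (hpos η) hF0 σ.If σ.Ig2 σ.Ig3
    (σ.det.trans_eq (mul_assoc _ _ _)) k1 k2 (k3.trans (add_le_add le_rfl k7)) k4
    (k5.trans (add_le_add le_rfl k8)))

end Vale.Agent.P229
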