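import Vale.Agent.P229.Poin

/-! Entropy bound for families satisfying a chain of reverse Poincare inequalities.

PLAN for `entropy`. Write `N i t t' = I ((v i t - v i t')²)`. Prove by induction on `i ≤ j`: for
every finset `s` of `Z`, every `t₀` and `D'` with `N i t t₀ ≤ D'` for `t ∈ s` and
`D' / 2 ^ i ≤ D / 2 ^ j`, `s.card ≤ 5 ^ (n² i)` (for `i = 0`, `s ⊆ {t₀}` by `h4`). Step `i + 1`:
`π` from `exists_proj`; `δ = √D' / 2`; take `Y ⊆ s` maximal (largest card) with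
`δ ≤ ‖π (v i y) - π (v i y')‖` for `y ≠ y'` in `Y`. All `π (v i t)` are within `2 δ` of
`π (v i t₀)` (first claim of `exists_proj`, `h2`), so `Y.card ≤ 5 ^ (n²)` by
`Besicovitch.card_le_of_separated` applied to the points `δ⁻¹ • (π (v i y) - π (v i t₀))`
(if `D' = 0`, or `D' ≤ 0`, then `s ⊆ {t₀}` directly, note `0 ≤ D`). Every `t ∈ s` is within `δ` of
some `y ∈ Y`, and then `N i t y ≤ δ² + 256 A/n² N (i+1) t y ≤ D'/4 + (1/16) 4 D'`
(`N (i+1) t y ≤ 2 N (i+1) t t₀ + 2 N (i+1) y t₀` by `I_mono`), so apply the induction hypothesis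
with centre `y` and `D'/2`, and `Finset.card_biUnion_le`.

PLAN for `count`. `d = 1 / (5 j)`, `χ i` from `hcut (2 + 2 d i) d`, `v i t = χ (i + 1) * w t` for
`i ≤ j` (all radii stay `≤ 3`). `0 < φ`. Then `h1` holds with `A' = (2 A + 4 K²) 125 j³`
(`d1 (χ W) = χ d1 W + W d1 χ`, `|d χ| ≤ K/d`, and `d (χ i) ≠ 0 → χ (i+1) = 1` by `IsCut.d1_out`;
trivial when `t = t'`), `h2` since `χ i ≠ 0 → χ (i+1) = 1`, `h3` with `D' = I 1 * D²`
(no need to compute `I 1`), `h4` from the hypothesis for the pair `χ 0, χ 1`: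
`φ ≤ 125 A j³ N 0`, so `c ≥ 125 A D'` suffices. Choose `n = m j²` with
`4096 (2A + 4K²) 125 ≤ m²`, use `5 ≤ 2³`, `c ≥ 3 m²`. -/

namespace Vale.Agent.P229

theorem entropy_net {E Z : Type} [NormedAddCommGroup E] [NormedSpace ℝ E] [FiniteDimensional ℝ E]
    (s : Finset Z) (f : Z → E) (hf : ∀ t ∈ s, ‖f t‖ ≤ 2) :
    ∃ Y : Finset Z, Y ⊆ s ∧ Y.card ≤ 5 ^ Module.finrank ℝ E ∧
      ∀ t ∈ s, ∃ y ∈ Y, ‖f t - f y‖ < 1 := by
  classical
  obtain ⟨Y, ⟨hY1, hY2⟩, hmax⟩ := Set.exists_max_image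
    {Y : Finset Z | Y ⊆ s ∧ ∀ y ∈ Y, ∀ y' ∈ Y, y ≠ y' → 1 ≤ ‖f y - f y'‖} Finset.card
    (s.powerset.finite_toSet.subset fun Y hY => Finset.mem_powerset.2 hY.1) ⟨∅, by simp⟩
  refine ⟨Y, hY1, ?_, fun t ht => ?_⟩
  · have hinj : Set.InjOn f Y := fun y hy y' hy' h => by
      by_contra hne
      have := hY2 y hy y' hy' hne
      rw [h, sub_self, norm_zero] at this
      linarith
    rw [← Finset.card_image_of_injOn hinj]
    refine Besicovitch.card_le_of_separated _ (fun c hc => ?_) fun c hc c' hc' hne => ?_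
    · obtain ⟨y, hy, rfl⟩ := Finset.mem_image.1 hc
      exact hf y (hY1 hy)
    · obtain ⟨y, hy, rfl⟩ := Finset.mem_image.1 hc
      obtain ⟨y', hy', rfl⟩ := Finset.mem_image.1 hc'
      exact hY2 y hy y' hy' fun h => hne (by rw [h])
  · by_contra hcon
    push Not at hcon
    have htY : t ∉ Y := fun h => by
      have := hcon t h
      rw [sub_self, norm_zero] at this
      linarith
    have h1 := hmax (insert t Y) ⟨Finset.insert_subset ht hY1, fun y hy y' hy' hne => by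
        rcases Finset.mem_insert.1 hy with rfl | hy1
        · rcases Finset.mem_insert.1 hy' with rfl | hy1'
          · exact absurd rfl hne
          · exact hcon y' hy1'
        · rcases Finset.mem_insert.1 hy' with rfl | hy1'
          · rw [norm_sub_rev]; exact hcon y hy1
          · exact hY2 y hy1 y' hy1' hne⟩
    rw [Finset.card_insert_of_notMem htY] at h1
    omega

theorem entropy_tri (a b c : S) :
    I ((a - b) ^ 2) ≤ 2 * I ((a - c) ^ 2) + 2 * I ((b - c) ^ 2) := by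
  have h : I ((a - b) ^ 2) ≤ I ((2 : ℝ) • (a - c) ^ 2 + (2 : ℝ) • (b - c) ^ 2) :=
    I_mono fun u => by
      show (a.1 u - b.1 u) ^ 2 ≤ 2 * (a.1 u - c.1 u) ^ 2 + 2 * (b.1 u - c.1 u) ^ 2
      nlinarith [sq_nonneg (a.1 u + b.1 u - 2 * c.1 u)]
  simpa only [map_add, map_smul, smul_eq_mul] using h

theorem entropy (A D : ℝ) (n j : ℕ) (hA : 0 < A) (hn : 4096 * A ≤ (n : ℝ) ^ 2) (Z : Type)
    [Fintype Z] (v : ℕ → Z → S) (hc : ∀ i ≤ j, ∀ t, Cs (v i t))
    (h1 : ∀ i < j, ∀ t t', I (d1 (v i t - v i t') ^ 2 + d2 (v i t - v i t') ^ 2) ≤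
      A * I ((v (i + 1) t - v (i + 1) t') ^ 2))
    (h2 : ∀ i < j, ∀ t t', I ((v i t - v i t') ^ 2) ≤ I ((v (i + 1) t - v (i + 1) t') ^ 2))
    (h3 : ∀ t t', I ((v j t - v j t') ^ 2) ≤ D)
    (h4 : ∀ t t', t ≠ t' → D / 2 ^ j < I ((v 0 t - v 0 t') ^ 2)) :
    Fintype.card Z ≤ 5 ^ (n ^ 2 * j) := by
  classical
  have hn2 : (0 : ℝ) < (n : ℝ) ^ 2 := by linarith
  have hn0 : 0 < n := Nat.pos_of_ne_zero fun h => by simp [h] at hn2
  obtain ⟨π, hπ⟩ := exists_proj n hn0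
  have key : ∀ i ≤ j, ∀ (s : Finset Z) (t₀ : Z) (D' : ℝ),
      (∀ t ∈ s, I ((v i t - v i t₀) ^ 2) ≤ D') → D' / 2 ^ i ≤ D / 2 ^ j →
      s.card ≤ 5 ^ (n ^ 2 * i) := by
    intro i
    induction i with
    | zero =>
      intro _ s t₀ D' hs hD
      have : s ⊆ {t₀} := fun t ht => Finset.mem_singleton.2 (by
        by_contra hne
        have := h4 t t₀ hne
        have := hs t ht
        simp only [pow_zero, div_one] at hD
        linarith)
      simpa using Finset.card_le_card this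
    | succ i ih =>
      intro hi s t₀ D' hs hD
      have hD2 : D' / 2 / 2 ^ i ≤ D / 2 ^ j := by
        rwa [div_div, ← pow_succ']
      rcases le_or_gt D' 0 with hD0 | hD0
      · refine (ih (by omega) s t₀ (D' / 2) (fun t ht => ?_) hD2).trans
          (Nat.pow_le_pow_right (by norm_num) (Nat.mul_le_mul_left _ (by omega)))
        linarith [h2 i hi t t₀, hs t ht]
      have hδ : 0 < √D' / 2 := by positivity
      have hδ2 : (√D' / 2) ^ 2 = D' / 4 := by rw [div_pow, Real.sq_sqrt hD0.le]; norm_num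
      generalize √D' / 2 = δ at hδ hδ2
      have hcs : ∀ t t', Cs (v i t - v i t') := fun t t' =>
        (hc i (by omega) t).sub (hc i (by omega) t')
      obtain ⟨Y, hY, hcard, hnear⟩ := entropy_net s (fun t => δ⁻¹ • π (v i t - v i t₀))
        fun t ht => by
          rw [norm_smul, norm_inv, Real.norm_of_nonneg hδ.le, inv_mul_le_iff₀ hδ]
          refine le_of_sq_le_sq ?_ (by positivity)
          have := (hπ _ (hcs t t₀)).1
          have := h2 i hi t t₀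
          have := hs t ht
          nlinarith
      have hsub : s ⊆ Y.biUnion fun y => s.filter fun t => I ((v i t - v i y) ^ 2) ≤ D' / 2 := by
        intro t ht
        obtain ⟨y, hy, hty⟩ := hnear t ht
        refine Finset.mem_biUnion.2 ⟨y, hy, Finset.mem_filter.2 ⟨ht, ?_⟩⟩
        rw [← smul_sub, ← map_sub, sub_sub_sub_cancel_right, norm_smul, norm_inv,
          Real.norm_of_nonneg hδ.le, inv_mul_lt_iff₀ hδ, mul_one] at hty
        have e1 : ‖π (v i t - v i y)‖ ^ 2 ≤ δ ^ 2 := by gcongr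
        have e2 := (hπ _ (hcs t y)).2
        have e3 := h1 i hi t y
        have e4 := entropy_tri (v (i + 1) t) (v (i + 1) y) (v (i + 1) t₀)
        have e5 := hs t ht
        have e6 := hs y (hY hy)
        have e7 : 256 / (n : ℝ) ^ 2 * I (d1 (v i t - v i y) ^ 2 + d2 (v i t - v i y) ^ 2)
            ≤ 256 / (n : ℝ) ^ 2 * (A * (4 * D')) :=
          mul_le_mul_of_nonneg_left (e3.trans (mul_le_mul_of_nonneg_left (by linarith) hA.le))
            (by positivity)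
        have e8 : 256 / (n : ℝ) ^ 2 * (A * (4 * D')) ≤ D' / 4 := by
          rw [div_mul_eq_mul_div, div_le_iff₀ hn2]
          nlinarith
        linarith
      refine (Finset.card_le_card hsub).trans ((Finset.card_biUnion_le_card_mul _ _ _
        fun y _ => ih (by omega) _ y (D' / 2) (fun t ht => (Finset.mem_filter.1 ht).2) hD2).trans ?_)
      rw [finrank_euclideanSpace, Fintype.card_prod, Fintype.card_fin] at hcard
      rw [mul_add, mul_one, pow_add, mul_comm, sq]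
      exact Nat.mul_le_mul_left _ hcard
  rcases isEmpty_or_nonempty Z with hZ | ⟨⟨t₀⟩⟩
  · simp
  · exact key j le_rfl Finset.univ t₀ D (fun t _ => h3 t t₀) le_rfl

theorem entropy_sq {K r d : ℝ} {χ χ' : S} (hd : 0 < d) (h : IsCut K r d χ)
    (h' : IsCut K (r + 2 * d) d χ') (W : S) : I ((χ * W) ^ 2) ≤ I ((χ' * W) ^ 2) := by
  refine I_mono fun u => ?_
  show (χ.1 u * W.1 u) ^ 2 ≤ (χ'.1 u * W.1 u) ^ 2
  rcases le_or_gt ‖u.1‖ (r + 2 * d) with hu | hu
  · rw [h'.one u hu, mul_pow, mul_pow, one_pow]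
    exact mul_le_mul_of_nonneg_right (pow_le_one₀ (h.nonneg u) (h.le_one u)) (sq_nonneg _)
  · rw [h.zero u (by linarith), zero_mul, zero_pow two_ne_zero]
    exact sq_nonneg _

theorem entropy_grad {K r d : ℝ} {χ χ' : S} (hd : 0 < d) (h : IsCut K r d χ)
    (h' : IsCut K (r + 2 * d) d χ') (W : S) :
    I (d1 (χ * W) ^ 2 + d2 (χ * W) ^ 2) ≤
      2 * I (χ ^ 2 * (d1 W ^ 2 + d2 W ^ 2)) + 4 * (K / d) ^ 2 * I ((χ' * W) ^ 2) := by
  have h0 : I (d1 (χ * W) ^ 2 + d2 (χ * W) ^ 2) ≤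
      I ((2 : ℝ) • (χ ^ 2 * (d1 W ^ 2 + d2 W ^ 2)) + (4 * (K / d) ^ 2) • (χ' * W) ^ 2) := by
    refine I_mono fun u => ?_
    rw [Derivation.leibniz, Derivation.leibniz]
    show (χ.1 u * (d1 W).1 u + W.1 u * (d1 χ).1 u) ^ 2 + (χ.1 u * (d2 W).1 u + W.1 u * (d2 χ).1 u) ^ 2
      ≤ 2 * (χ.1 u ^ 2 * ((d1 W).1 u ^ 2 + (d2 W).1 u ^ 2)) + 4 * (K / d) ^ 2 * (χ'.1 u * W.1 u) ^ 2
    have key : ∀ x : ℝ, |x| ≤ K / d → (r + d < ‖u.1‖ → x = 0) →
        (W.1 u * x) ^ 2 ≤ (K / d) ^ 2 * (χ'.1 u * W.1 u) ^ 2 := by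
      intro x hx hx0
      rcases le_or_gt ‖u.1‖ (r + 2 * d) with hu | hu
      · rw [h'.one u hu, one_mul, mul_pow, mul_comm]
        exact mul_le_mul_of_nonneg_right (sq_le_sq' (abs_le.1 hx).1 (abs_le.1 hx).2) (sq_nonneg _)
      · rw [hx0 (by linarith), mul_zero, zero_pow two_ne_zero]
        positivity
    have k1 := key _ (h.b1 u) (h.d1_out u)
    have k2 := key _ (h.b2 u) (h.d2_out u)
    nlinarith [sq_nonneg (χ.1 u * (d1 W).1 u - W.1 u * (d1 χ).1 u),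
      sq_nonneg (χ.1 u * (d2 W).1 u - W.1 u * (d2 χ).1 u)]
  simpa only [map_add, map_smul, smul_eq_mul] using h0

theorem count (K A D : ℝ) (hK : 1 ≤ K) (hcut : ∀ r d : ℝ, 0 < d → ∃ χ : S, IsCut K r d χ)
    (hA : 1 ≤ A) : ∃ c : ℕ, ∀ (Z : Type) [Fintype Z] (w : Z → S) (φ : ℝ) (j : ℕ), 1 ≤ j →
      (∀ t t' u, |(w t - w t').1 u| ≤ D) →
      (∀ t t', t ≠ t' → ∀ (r d : ℝ) (χ χ' : S), 0 < d → 2 ≤ r → r + 3 * d ≤ 3 → IsCut K r d χ →
        IsCut K (r + 2 * d) d χ' →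
        I (χ ^ 2 * (d1 (w t - w t') ^ 2 + d2 (w t - w t') ^ 2)) + φ ≤
          A / d ^ 3 * I (χ' ^ 2 * (w t - w t') ^ 2)) →
      (c : ℝ) * (j : ℝ) ^ 3 < φ * 2 ^ j → Fintype.card Z ≤ 2 ^ (c * j ^ 5) := by
  obtain ⟨m, hm⟩ := exists_nat_ge (4096 * ((2 * A + 4 * K ^ 2) * 125))
  obtain ⟨c', hc'⟩ := exists_nat_ge (125 * A * (D ^ 2 * I 1))
  refine ⟨3 * m ^ 2 + c', fun Z _ w φ j hj hD hE hφ => ?_⟩
  have hj' : (1 : ℝ) ≤ j := by exact_mod_cast hj
  have hK2 : 1 ≤ K ^ 2 := one_le_pow₀ hK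
  have hφ0 : 0 < φ := by
    have : (0 : ℝ) < φ * 2 ^ j := lt_of_le_of_lt (by positivity) hφ
    exact (mul_pos_iff_of_pos_right (by positivity)).1 this
  obtain ⟨d, hd, hdj⟩ : ∃ d : ℝ, 0 < d ∧ 5 * j * d = 1 :=
    ⟨1 / (5 * j), by positivity, by field_simp⟩
  have hd1 : d ≤ 1 / 5 := by nlinarith
  have hd3 : ∀ x : ℝ, x / d ^ 3 = 125 * j ^ 3 * x := fun x => by
    rw [div_eq_iff (by positivity)]
    have : (5 * j * d) ^ 3 = 1 := by rw [hdj, one_pow]
    linear_combination (-x) * this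
  choose χ hχ using fun i : ℕ => hcut (2 + 2 * d * i) d hd
  have hχ' : ∀ i : ℕ, IsCut K (2 + 2 * d * i + 2 * d) d (χ (i + 1)) := fun i => by
    have := hχ (i + 1)
    rwa [Nat.cast_succ, mul_add, mul_one, ← add_assoc] at this
  have hrad : ∀ i ≤ j, 2 + 2 * d * (i : ℝ) + 3 * d ≤ 3 := fun i hi => by
    have : (i : ℝ) ≤ j := by exact_mod_cast hi
    nlinarith
  have hsq : ∀ W : S, 0 ≤ I (W ^ 2) := fun W => I_nonneg fun u => sq_nonneg (W.1 u)
  have h := entropy ((2 * A + 4 * K ^ 2) * (125 * j ^ 3)) (D ^ 2 * I 1) (m * j ^ 2) j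
    (by positivity) ?_ Z (fun i t => χ (i + 1) * w t) (fun i hi t => ?_) (fun i hi t t' => ?_)
    (fun i hi t t' => ?_) (fun t t' => ?_) fun t t' hne => ?_
  · refine h.trans ?_
    calc 5 ^ ((m * j ^ 2) ^ 2 * j) ≤ (2 ^ 3) ^ ((m * j ^ 2) ^ 2 * j) :=
          Nat.pow_le_pow_left (by norm_num) _
      _ = 2 ^ (3 * m ^ 2 * j ^ 5) := by rw [← pow_mul]; congr 1; ring
      _ ≤ _ := Nat.pow_le_pow_right (by norm_num) (Nat.mul_le_mul_right _ (by omega))
  · have h1 : (1 : ℝ) ≤ m := by nlinarith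
    have h2 : (j : ℝ) ^ 3 ≤ j ^ 4 := pow_le_pow_right₀ hj' (by norm_num)
    push_cast
    calc 4096 * ((2 * A + 4 * K ^ 2) * (125 * (j : ℝ) ^ 3))
        = 4096 * ((2 * A + 4 * K ^ 2) * 125) * j ^ 3 := by ring
      _ ≤ (m : ℝ) ^ 2 * j ^ 4 := by gcongr; nlinarith
      _ = _ := by ring
  · exact ((hχ' i).cs (by linarith [hrad i hi])).mul_right _
  · simp only [← mul_sub]
    by_cases hne : t = t'
    · simp [hne]
    have e1 := entropy_grad hd (hχ (i + 1)) (hχ' (i + 1)) (w t - w t')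
    have e2 := hE t t' hne _ d _ _ hd (le_add_of_nonneg_right (by positivity)) (hrad (i + 1) hi)
      (hχ (i + 1)) (hχ' (i + 1))
    rw [← mul_pow, hd3] at e2
    have e3 := hsq (χ (i + 1 + 1) * (w t - w t'))
    have e4 : (K / d) ^ 2 ≤ 125 * j ^ 3 * K ^ 2 := by
      rw [← hd3, div_pow]
      exact div_le_div_of_nonneg_left (by positivity) (by positivity)
        (pow_le_pow_of_le_one hd.le (by linarith) (by norm_num))
    have e5 := mul_le_mul_of_nonneg_right e4 e3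
    linarith
  · simp only [← mul_sub]
    exact entropy_sq hd (hχ (i + 1)) (hχ' (i + 1)) _
  · rw [← mul_sub, ← smul_eq_mul (D ^ 2), ← map_smul]
    refine I_mono fun u => ?_
    show ((χ (j + 1)).1 u * (w t - w t').1 u) ^ 2 ≤ D ^ 2 * 1
    have e1 := abs_le.1 (hD t t' u)
    rw [mul_pow, mul_comm]
    exact mul_le_mul (sq_le_sq' e1.1 e1.2)
      (pow_le_one₀ ((hχ _).nonneg u) ((hχ _).le_one u)) (sq_nonneg _) (sq_nonneg _)
  · simp only [← mul_sub]
    have e2 := hE t t' hne _ d _ _ hd (le_add_of_nonneg_right (by positivity))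
      (hrad 0 (Nat.zero_le _)) (hχ 0) (hχ' 0)
    rw [← mul_pow, hd3] at e2
    have e3 : 0 ≤ I (χ 0 ^ 2 * (d1 (w t - w t') ^ 2 + d2 (w t - w t') ^ 2)) :=
      I_nonneg fun u => mul_nonneg (sq_nonneg ((χ 0).1 u))
        (add_nonneg (sq_nonneg ((d1 (w t - w t')).1 u)) (sq_nonneg ((d2 (w t - w t')).1 u)))
    rw [div_lt_iff₀ (by positivity)]
    generalize I ((χ (0 + 1) * (w t - w t')) ^ 2) = N at *
    have e4 : φ * 2 ^ j ≤ 125 * j ^ 3 * A * N * 2 ^ j := by gcongr; linarith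
    have e5 : 125 * A * (D ^ 2 * I 1) * j ^ 3 ≤ ((3 * m ^ 2 + c' : ℕ) : ℝ) * j ^ 3 := by
      gcongr
      push_cast
      nlinarith [sq_nonneg (m : ℝ)]
    refine lt_of_mul_lt_mul_left (a := 125 * A * j ^ 3) ?_ (by positivity)
    linarith

end Vale.Agent.P229
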