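import Vale.Agent.P229.Defs

/-! Elementary lemmas for the final count. -/

open Filter Topology

namespace Vale.Agent.P229

theorem asym (c L P : ℕ) (a h s0 : ℝ) (ha : 0 < a) (hh : 0 < h) (hs0 : 0 < s0) :
    ∃ (s : ℝ) (n j : ℕ), 0 < s ∧ s ≤ s0 ∧ n * s ^ 2 ≤ h / 2 ∧ 4 * s ^ 3 ≤ h ∧ 1 ≤ j ∧
      (c : ℝ) * (j : ℝ) ^ 3 < (a * s ^ P) ^ 2 * 2 ^ j ∧ L * 2 ^ (c * j ^ 5) < 2 ^ n := by
  have t0 : Tendsto (fun k : ℕ => (1 / 2 : ℝ) ^ k) atTop (𝓝 0) :=
    tendsto_pow_atTop_nhds_zero_of_lt_one (by norm_num) (by norm_num)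
  have t1 := (tendsto_pow_const_div_const_pow_of_one_lt 3 (r := (2 : ℝ)) one_lt_two).const_mul
    ((c : ℝ) * (2 * P + 1) ^ 3)
  have t2 := (tendsto_pow_const_div_const_pow_of_one_lt 5 (r := (4 : ℝ)) (by norm_num)).const_mul
    ((c : ℝ) * (2 * P + 1) ^ 5 + (L + 1))
  rw [mul_zero] at t1 t2
  obtain ⟨k, k1, k2, k3, k4, k5⟩ := ((eventually_ge_atTop 1).and
    ((t0.eventually (ge_mem_nhds hs0)).and
    ((t0.eventually (ge_mem_nhds (show 0 < h / 4 by positivity))).and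
    ((t1.eventually (gt_mem_nhds (show 0 < a ^ 2 by positivity))).and
    (t2.eventually (gt_mem_nhds (show 0 < h / 2 by positivity))))))).exists
  have hs : (0 : ℝ) < (1 / 2) ^ k := by positivity
  have hs1 : (1 / 2 : ℝ) ^ k ≤ 1 := pow_le_one₀ (by norm_num) (by norm_num)
  have e4 : ((1 / 2 : ℝ) ^ k) ^ 2 * 4 ^ k = 1 := by
    rw [← pow_mul, mul_comm k, pow_mul, ← mul_pow]; norm_num
  have hk : (1 : ℝ) ≤ k := by exact_mod_cast k1
  refine ⟨(1 / 2) ^ k, ⌊h / 2 * 4 ^ k⌋₊, (2 * P + 1) * k, hs, k2, ?_, ?_, by nlinarith, ?_, ?_⟩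
  · have := Nat.floor_le (show 0 ≤ h / 2 * 4 ^ k by positivity)
    calc _ ≤ h / 2 * 4 ^ k * ((1 / 2 : ℝ) ^ k) ^ 2 := by gcongr
      _ = h / 2 := by rw [mul_assoc, mul_comm (4 ^ k), e4, mul_one]
  · have : ((1 / 2 : ℝ) ^ k) ^ 3 ≤ (1 / 2) ^ k := pow_le_of_le_one hs.le hs1 (by norm_num)
    linarith
  · have e : (a * ((1 / 2 : ℝ) ^ k) ^ P) ^ 2 * 2 ^ ((2 * P + 1) * k) = a ^ 2 * 2 ^ k := by
      have : ((1 / 2 : ℝ) ^ k) * 2 ^ k = 1 := by rw [← mul_pow]; norm_num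
      calc _ = a ^ 2 * 2 ^ k * ((1 / 2 : ℝ) ^ k * 2 ^ k) ^ (2 * P) := by ring
        _ = _ := by rw [this, one_pow, mul_one]
    rw [e, ← mul_div_assoc, div_lt_iff₀ (by positivity)] at *
    push_cast
    linarith [k4]
  · have h1 : L + c * ((2 * P + 1) * k) ^ 5 < ⌊h / 2 * 4 ^ k⌋₊ := by
      rw [← mul_div_assoc, div_lt_iff₀ (by positivity)] at k5
      rw [Nat.lt_iff_add_one_le]
      refine Nat.le_floor ?_
      push_cast
      have : (1 : ℝ) ≤ (k : ℝ) ^ 5 := one_le_pow₀ hk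
      have h2 : (L + 1 : ℝ) ≤ (L + 1) * (k : ℝ) ^ 5 := le_mul_of_one_le_right (by positivity) this
      nlinarith
    calc L * 2 ^ (c * ((2 * P + 1) * k) ^ 5) ≤ 2 ^ L * 2 ^ (c * ((2 * P + 1) * k) ^ 5) := by
          gcongr; exact Nat.lt_two_pow_self.le
      _ < _ := by rw [← pow_add]; exact Nat.pow_lt_pow_right one_lt_two h1

theorem pigeon {M n : ℕ} {X : Type} [Fintype X] [DecidableEq X]
    (m : (Fin M → Fin n → Bool) → Fin M) (lab : (Fin M → Fin n → Bool) → X) (b : ℕ)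
    (h : ∀ (m0 : Fin M) (x : X) (t0 : Fin M → Fin n → Bool),
      Fintype.card {t // m t = m0 ∧ lab t = x ∧ ∀ i, i ≠ m0 → t i = t0 i} ≤ b) :
    2 ^ n ≤ M * Fintype.card X * b := by
  have key := Finset.card_le_mul_card_image_of_maps_to
    (s := (Finset.univ : Finset ((Fin M → Fin n → Bool) × (Fin n → Bool))))
    (t := (Finset.univ : Finset (Fin M × X × (Fin M → Fin n → Bool))))
    (f := fun p => (m p.1, lab p.1, Function.update p.1 (m p.1) p.2))
    (fun _ _ => Finset.mem_univ _) b fun y _ => by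
      refine le_trans ?_ (h y.1 y.2.1 y.2.2)
      rw [Fintype.card_subtype]
      refine Finset.card_le_card_of_injOn (fun p => p.1) (fun p hp => ?_) fun p hp q hq e => ?_
      · simp only [Finset.coe_filter, Finset.mem_univ, true_and, Set.mem_ofPred_eq] at hp ⊢
        subst hp
        exact ⟨rfl, rfl, fun i hi => (Function.update_of_ne hi _ _).symm⟩
      · simp only [Finset.coe_filter, Finset.mem_univ, true_and, Set.mem_ofPred_eq] at hp hq e
        refine Prod.ext e ?_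
        have := congrArg (fun z => z.2.2 (m p.1)) (hp.trans hq.symm)
        simpa [e] using this
  simp only [Finset.card_univ, Fintype.card_prod, Fintype.card_fin] at key
  have h1 : Fintype.card (Fin n → Bool) = 2 ^ n := by simp
  rw [h1] at key
  have h2 : 0 < Fintype.card (Fin M → Fin n → Bool) := Fintype.card_pos
  refine Nat.le_of_mul_le_mul_left (key.trans (le_of_eq ?_)) h2
  ring

/-- the inverse of `rot` -/
theorem exists_rotinv (ρ θ : ℝ) (h0 : 0 < ρ) (h : ρ ≤ 1 / 2) :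
    ∃ L : (ℝ × ℝ) →L[ℝ] (ℝ × ℝ), ‖L‖ ≤ 2 / ρ ∧ (∀ u, L ((rot ρ θ h0 h).toFun u) = u) ∧
      ∀ v, ‖v‖ ≤ ‖L v‖ := by
  have k : ∀ a b x y m : ℝ, |a| ≤ 1 → |b| ≤ 1 → |x| ≤ m → |y| ≤ m → |a * x + b * y| ≤ 2 * m := by
    intro a b x y m ha hb hx hy
    refine (abs_add_le _ _).trans ?_
    rw [abs_mul, abs_mul]
    nlinarith [abs_nonneg a, abs_nonneg b, abs_nonneg x, abs_nonneg y]
  have hc := Real.abs_cos_le_one θ
  have hs := Real.abs_sin_le_one θ
  have hs' : |-Real.sin θ| ≤ 1 := by rwa [abs_neg]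
  have e := Real.sin_sq_add_cos_sq θ
  let L : (ℝ × ℝ) →L[ℝ] (ℝ × ℝ) := ρ⁻¹ • ((Real.cos θ • ContinuousLinearMap.fst ℝ ℝ ℝ +
    Real.sin θ • ContinuousLinearMap.snd ℝ ℝ ℝ).prod (-Real.sin θ • ContinuousLinearMap.fst ℝ ℝ ℝ +
    Real.cos θ • ContinuousLinearMap.snd ℝ ℝ ℝ))
  have hL : ∀ v, L v = (ρ⁻¹ * (Real.cos θ * v.1 + Real.sin θ * v.2),
      ρ⁻¹ * (-Real.sin θ * v.1 + Real.cos θ * v.2)) := fun v => rfl
  refine ⟨L, ContinuousLinearMap.opNorm_le_bound _ (by positivity) fun v => ?_, fun u => ?_,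
    fun v => ?_⟩
  · rw [hL, Prod.norm_def, max_le_iff, Real.norm_eq_abs, Real.norm_eq_abs, abs_mul, abs_mul,
      abs_of_pos (inv_pos.2 h0), div_eq_inv_mul, mul_assoc]
    constructor <;> gcongr
    exacts [k _ _ _ _ _ hc hs (norm_fst_le v) (norm_snd_le v),
      k _ _ _ _ _ hs' hc (norm_fst_le v) (norm_snd_le v)]
  · rw [hL]
    simp only [rot, Aff.toFun, Prod.fst_zero, Prod.snd_zero]
    ext
    · field_simp
      linear_combination ρ * u.1 * e
    · field_simp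
      linear_combination ρ * u.2 * e
  · have e1 : v.1 = ρ * (Real.cos θ * (L v).1 + -Real.sin θ * (L v).2) := by
      rw [hL]; field_simp; linear_combination (-v.1) * e
    have e2 : v.2 = ρ * (Real.sin θ * (L v).1 + Real.cos θ * (L v).2) := by
      rw [hL]; field_simp; linear_combination (-v.2) * e
    have k1 := k _ _ _ _ _ hc hs' (norm_fst_le (L v)) (norm_snd_le (L v))
    have k2 := k _ _ _ _ _ hs hc (norm_fst_le (L v)) (norm_snd_le (L v))
    rw [Prod.norm_def v, max_le_iff, Real.norm_eq_abs, Real.norm_eq_abs, e1, e2, abs_mul, abs_mul,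
      abs_of_pos h0]
    constructor <;> nlinarith [norm_nonneg (L v)]

end Vale.Agent.P229
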