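import Vale.Agent.P229.Defs

/-! Finitely many labels (Arzela-Ascoli in quantitative form).

PLAN. Induction on `k`. For `k = 0`: a finite set `Q` of points of `Om` such that every point of
`Om` is within `m` of `Q` (`Om` is totally bounded: `Metric.totallyBounded_iff` or
`finite_approx_of_totallyBounded`), `lab f q` = the integer `⌊f q / (δ/2)⌋` clamped to a finite
range (a value in `Fin n` or in a `Finset.Icc` of integers, arbitrary when `|f q| ≤ C` fails);
`Bk.lip` gives `|f u - f q| ≤ 2 C m`, choose `4 C m ≤ δ/2`. Step: the label of `f` is the triple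
(label of order `0` of `f`, labels of order `k` of `d1 f` and `d2 f`). -/

namespace Vale.Agent.P229

theorem Net_real (C δ : ℝ) (hδ : 0 < δ) :
    ∃ (Y : Type) (_ : Fintype Y) (lab : ℝ → Y), ∀ x y : ℝ, |x| ≤ C → |y| ≤ C →
      lab x = lab y → |x - y| ≤ δ := by
  classical
  obtain ⟨t, -, ht, hcov⟩ := Metric.finite_approx_of_totallyBounded
    (isCompact_Icc (a := -C) (b := C)).totallyBounded (δ / 2) (by positivity)
  refine ⟨Option ht.toFinset, inferInstance, fun x =>
    if h : ∃ q : ht.toFinset, |x - q.1| < δ / 2 then some h.choose else none,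
    fun x y hx hy h => ?_⟩
  have key : ∀ x : ℝ, |x| ≤ C → ∃ q : ht.toFinset, |x - q.1| < δ / 2 := fun x hx => by
    obtain ⟨q, hq, h1⟩ := Set.mem_iUnion₂.mp (hcov (abs_le.mp hx))
    exact ⟨⟨q, ht.mem_toFinset.mpr hq⟩, by simpa [Real.dist_eq] using h1⟩
  simp only [dif_pos (key x hx), dif_pos (key y hy), Option.some.injEq] at h
  have h1 := (key x hx).choose_spec
  have h2 := (key y hy).choose_spec
  rw [h] at h1
  rw [abs_lt] at h1 h2
  rw [abs_le]
  constructor <;> linarith [h1.1, h1.2, h2.1, h2.2]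

theorem Net_zero (C δ : ℝ) (hδ : 0 < δ) :
    ∃ (X : Type) (_ : Fintype X) (lab : S → X), ∀ f g : S, Bk 1 C f → Bk 1 C g →
      lab f = lab g → ∀ u, |(f - g).1 u| ≤ δ := by
  classical
  obtain ⟨Y, _, lab, hlab⟩ := Net_real C (δ / 2) (by positivity)
  have hm : 0 < δ / (8 * (|C| + 1)) := by positivity
  have hb : TotallyBounded Om :=
    (isCompact_closedBall (0 : ℝ × ℝ) 4).totallyBounded.subset Metric.ball_subset_closedBall
  obtain ⟨t, hts, ht, hcov⟩ := Metric.finite_approx_of_totallyBounded hb _ hm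
  refine ⟨ht.toFinset → Y, inferInstance,
    fun f q => lab (f.1 ⟨q.1, hts (ht.mem_toFinset.mp q.2)⟩), fun f g hf hg h u => ?_⟩
  obtain ⟨q, hq, h1⟩ := Set.mem_iUnion₂.mp (hcov u.2)
  have h2 := hlab _ _ (hf.le _) (hg.le _) (congrFun h ⟨q, ht.mem_toFinset.mpr hq⟩)
  have h3 := hf.d1.lip hf.d2 u ⟨q, hts hq⟩
  have h4 := hg.d1.lip hg.d2 u ⟨q, hts hq⟩
  rw [Metric.mem_ball, dist_eq_norm, lt_div_iff₀ (by positivity)] at h1
  have h5 : C * ‖u.1 - q‖ ≤ (|C| + 1) * ‖u.1 - q‖ :=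
    mul_le_mul_of_nonneg_right (by linarith [le_abs_self C]) (norm_nonneg _)
  change |f.1 u - g.1 u| ≤ δ
  rw [abs_le] at h2 h3 h4 ⊢
  constructor <;> linarith [h2.1, h2.2, h3.1, h3.2, h4.1, h4.2]

theorem exists_label (k : ℕ) (C δ : ℝ) (hδ : 0 < δ) :
    ∃ (X : Type) (_ : Fintype X) (lab : S → X), ∀ f g : S, Bk (k + 1) C f → Bk (k + 1) C g →
      lab f = lab g → Bk k δ (f - g) := by
  obtain ⟨X₀, _, lab₀, h₀⟩ := Net_zero C δ hδ
  induction k with
  | zero => exact ⟨X₀, inferInstance, lab₀, h₀⟩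
  | succ k ih =>
    obtain ⟨X, _, lab, h⟩ := ih
    refine ⟨X₀ × X × X, inferInstance, fun f => (lab₀ f, lab (d1 f), lab (d2 f)),
      fun f g hf hg e => ?_⟩
    simp only [Prod.mk.injEq] at e
    refine ⟨h₀ f g (hf.of_le (by omega)) (hg.of_le (by omega)) e.1, ?_, ?_⟩
    · rw [map_sub]
      exact h _ _ hf.d1 hg.d1 e.2.1
    · rw [map_sub]
      exact h _ _ hf.d2 hg.d2 e.2.2

end Vale.Agent.P229
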