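import Vale.Agent.P229.Low

/-! Rotation to an almost principal direction, zoom, and normalisation by a rigid motion.

PLAN. Take `μ, η, ρ1` from `low`, shrink `ρ1` so that `ρ⁵/4 ≤ η`. For `A = rot ρ θ`, `c = cos θ`,
`s = sin θ` and `z f = ρ⁻¹ • pull A f`: `d1 (z f) = c • pull (d1 f) + s • pull (d2 f)`,
`d2 (z f) = -s • pull (d1 f) + c • pull (d2 f)` (`d1_pull`, `d2_pull`); `A.map o = o`. For the triple
`t₁ = (z P, z Y, z Z)` the metric is `rE, rF, rG` of the pulled back metric, and at `o`: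
`L₁ = ρ (c² L + 2 c s M + s² N)`, `M₁ = ρ (c s (N - L) + (c² - s²) M)`. The first derivatives are
`Gr 4 (2C) (2ρ)` by `Bk.gr_pull`, `Gr.smul`, `Gr.add`. Normalise: `a₁, a₂` = the two first derivative
vectors of `t₁` at `o` (orthonormal, since the metric at `o` is the identity), `ν = ± a₁ × a₂`,
`t' = (a₁ · (t₁ - t₁ o), a₂ · (t₁ - t₁ o), ν · (t₁ - t₁ o))` (linear combinations with real
coefficients of absolute value `≤ 1`, resp. `≤ 2`); it has the same metric because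
`(a₁·v)(a₁·w) + (a₂·v)(a₂·w) + (ν·v)(ν·w) = v·w` (prove it for real numbers by
`linear_combination`/`nlinarith`-free algebra: `(a₁×a₂·v)(a₁×a₂·w)` is a Gram determinant), and
`d1 d1 Z' o = ± L₁ o`, `d2 d1 Z' o = ± M₁ o`. Angle: let the sign `±` be that of `(L + N) o`,
`ζ = ±((L - N)/2 + i M)` at `o`, `θ* = arg ζ / 2 ∈ [-2, 2]`; then
`±(c² L + 2 c s M + s² N) = |L + N|/2 + ‖ζ‖ cos (2θ - 2θ*)` and
`±(c s (N - L) + (c² - s²) M) = ‖ζ‖ sin (2θ* - 2θ)`; `‖ζ‖ ≤ A := 12 C³ + 1`. Net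
`θ m = -2 + m δ`, `δ = ρ²/(2A)`, `m = ⌊(θ* + 2)/δ⌋₊ < M := ⌊4/δ⌋₊ + 1`. The metric bounds:
`pull A (lam ε ρ) = lam (ε ρ⁴) 1`, `rE c s λ 0 λ = λ`, `Bk.pull`. -/

namespace Vale.Agent.P229

/-- first coefficient of a quadratic form in a rotated frame -/
noncomputable def rE (θ : ℝ) (A B C : S) : S :=
  Real.cos θ ^ 2 • A + (2 * Real.cos θ * Real.sin θ) • B + Real.sin θ ^ 2 • C

/-- second coefficient of a quadratic form in a rotated frame -/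
noncomputable def rF (θ : ℝ) (A B C : S) : S :=
  (Real.cos θ * Real.sin θ) • (C - A) + (Real.cos θ ^ 2 - Real.sin θ ^ 2) • B

/-- third coefficient of a quadratic form in a rotated frame -/
noncomputable def rG (θ : ℝ) (A B C : S) : S :=
  Real.sin θ ^ 2 • A - (2 * Real.cos θ * Real.sin θ) • B + Real.cos θ ^ 2 • C

theorem gram3 {a1 a2 a3 b1 b2 b3 σ : ℝ} (ha : a1 * a1 + a2 * a2 + a3 * a3 = 1)
    (hab : a1 * b1 + a2 * b2 + a3 * b3 = 0) (hb : b1 * b1 + b2 * b2 + b3 * b3 = 1) (hσ : σ * σ = 1)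
    (v1 v2 v3 w1 w2 w3 : ℝ) :
    (a1 * v1 + a2 * v2 + a3 * v3) * (a1 * w1 + a2 * w2 + a3 * w3) +
      (b1 * v1 + b2 * v2 + b3 * v3) * (b1 * w1 + b2 * w2 + b3 * w3) +
      (σ * (a2 * b3 - a3 * b2) * v1 + σ * (a3 * b1 - a1 * b3) * v2 + σ * (a1 * b2 - a2 * b1) * v3) *
      (σ * (a2 * b3 - a3 * b2) * w1 + σ * (a3 * b1 - a1 * b3) * w2 + σ * (a1 * b2 - a2 * b1) * w3) =
      v1 * w1 + v2 * w2 + v3 * w3 := by
  have g : (σ * (a2 * b3 - a3 * b2) * v1 + σ * (a3 * b1 - a1 * b3) * v2 +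
        σ * (a1 * b2 - a2 * b1) * v3) *
      (σ * (a2 * b3 - a3 * b2) * w1 + σ * (a3 * b1 - a1 * b3) * w2 + σ * (a1 * b2 - a2 * b1) * w3) =
      (σ * σ) * ((a1 * a1 + a2 * a2 + a3 * a3) * ((b1 * b1 + b2 * b2 + b3 * b3) *
        (v1 * w1 + v2 * w2 + v3 * w3) -
          (b1 * v1 + b2 * v2 + b3 * v3) * (b1 * w1 + b2 * w2 + b3 * w3)) -
        (a1 * b1 + a2 * b2 + a3 * b3) * ((a1 * b1 + a2 * b2 + a3 * b3) *
          (v1 * w1 + v2 * w2 + v3 * w3) -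
          (b1 * w1 + b2 * w2 + b3 * w3) * (a1 * v1 + a2 * v2 + a3 * v3)) +
        (a1 * w1 + a2 * w2 + a3 * w3) * ((a1 * b1 + a2 * b2 + a3 * b3) *
          (b1 * v1 + b2 * v2 + b3 * v3) -
          (b1 * b1 + b2 * b2 + b3 * b3) * (a1 * v1 + a2 * v2 + a3 * v3))) := by ring
  rw [g, ha, hab, hb, hσ]
  ring

/-- a linear combination of the components, vanishing at the origin -/
noncomputable def lc (x y w : ℝ) (t : Trip) : S :=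
  x • t.P + y • t.Y + w • t.Z - cst (x * t.P.1 o + y * t.Y.1 o + w * t.Z.1 o)

theorem lc_o (x y w : ℝ) (t : Trip) : (lc x y w t).1 o = 0 := by simp [lc]

theorem d1_lc (x y w : ℝ) (t : Trip) :
    d1 (lc x y w t) = x • d1 t.P + y • d1 t.Y + w • d1 t.Z := by simp [lc]

theorem d2_lc (x y w : ℝ) (t : Trip) :
    d2 (lc x y w t) = x • d2 t.P + y • d2 t.Y + w • d2 t.Z := by simp [lc]

theorem Bk_lc {C x y w : ℝ} {f g h : S} (hx : |x| ≤ 2) (hy : |y| ≤ 2) (hw : |w| ≤ 2)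
    (hf : Bk 4 C f) (hg : Bk 4 C g) (hh : Bk 4 C h) : Bk 4 (6 * C) (x • f + y • g + w • h) := by
  have := hf.nonneg
  exact (((hf.smul x).add (hg.smul y)).add (hh.smul w)).mono (by nlinarith)

theorem normal (t : Trip) (hE : t.E.1 o = 1) (hF : t.F.1 o = 0) (hG : t.G.1 o = 1) {σ : ℝ}
    (hσ : σ * σ = 1) {C : ℝ} (hC : t.All (Bk 4 C)) :
    ∃ t0 : Trip, t0.E = t.E ∧ t0.F = t.F ∧ t0.G = t.G ∧ t0.P.1 o = 0 ∧ t0.Y.1 o = 0 ∧
      t0.Z.1 o = 0 ∧ (d1 t0.P).1 o = 1 ∧ (d2 t0.P).1 o = 0 ∧ (d1 t0.Y).1 o = 0 ∧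
      (d2 t0.Y).1 o = 1 ∧ (d1 t0.Z).1 o = 0 ∧ (d2 t0.Z).1 o = 0 ∧ t0.All (Bk 4 (6 * C)) ∧
      (d1 (d1 t0.Z)).1 o + (d2 (d2 t0.Z)).1 o = σ * (t.L.1 o + t.N.1 o) := by
  have ha : (d1 t.P).1 o * (d1 t.P).1 o + (d1 t.Y).1 o * (d1 t.Y).1 o +
    (d1 t.Z).1 o * (d1 t.Z).1 o = 1 := hE
  have hab : (d1 t.P).1 o * (d2 t.P).1 o + (d1 t.Y).1 o * (d2 t.Y).1 o +
    (d1 t.Z).1 o * (d2 t.Z).1 o = 0 := hF
  have hb : (d2 t.P).1 o * (d2 t.P).1 o + (d2 t.Y).1 o * (d2 t.Y).1 o +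
    (d2 t.Z).1 o * (d2 t.Z).1 o = 1 := hG
  have hL : t.L.1 o = det3 ((d1 (d1 t.P)).1 o) ((d1 (d1 t.Y)).1 o) ((d1 (d1 t.Z)).1 o)
    ((d1 t.P).1 o) ((d1 t.Y).1 o) ((d1 t.Z).1 o) ((d2 t.P).1 o) ((d2 t.Y).1 o) ((d2 t.Z).1 o) := rfl
  have hN : t.N.1 o = det3 ((d2 (d2 t.P)).1 o) ((d2 (d2 t.Y)).1 o) ((d2 (d2 t.Z)).1 o)
    ((d1 t.P).1 o) ((d1 t.Y).1 o) ((d1 t.Z).1 o) ((d2 t.P).1 o) ((d2 t.Y).1 o) ((d2 t.Z).1 o) := rfl
  have e1 : ∀ x y w : ℝ, (d1 (lc x y w t)).1 o =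
      x * (d1 t.P).1 o + y * (d1 t.Y).1 o + w * (d1 t.Z).1 o := fun x y w => by
    rw [d1_lc]; rfl
  have e2 : ∀ x y w : ℝ, (d2 (lc x y w t)).1 o =
      x * (d2 t.P).1 o + y * (d2 t.Y).1 o + w * (d2 t.Z).1 o := fun x y w => by
    rw [d2_lc]; rfl
  have e11 : ∀ x y w : ℝ, (d1 (d1 (lc x y w t))).1 o =
      x * (d1 (d1 t.P)).1 o + y * (d1 (d1 t.Y)).1 o + w * (d1 (d1 t.Z)).1 o := fun x y w => by
    rw [d1_lc]; simp
  have e22 : ∀ x y w : ℝ, (d2 (d2 (lc x y w t))).1 o =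
      x * (d2 (d2 t.P)).1 o + y * (d2 (d2 t.Y)).1 o + w * (d2 (d2 t.Z)).1 o := fun x y w => by
    rw [d2_lc]; simp
  generalize (d1 t.P).1 o = a1 at *
  generalize (d1 t.Y).1 o = a2 at *
  generalize (d1 t.Z).1 o = a3 at *
  generalize (d2 t.P).1 o = b1 at *
  generalize (d2 t.Y).1 o = b2 at *
  generalize (d2 t.Z).1 o = b3 at *
  have sq2 : ∀ x : ℝ, x * x ≤ 1 → |x| ≤ 2 := fun x hx => by
    rw [abs_le]; constructor <;> nlinarith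
  have hn : (σ * (a2 * b3 - a3 * b2)) * (σ * (a2 * b3 - a3 * b2)) +
      (σ * (a3 * b1 - a1 * b3)) * (σ * (a3 * b1 - a1 * b3)) +
      (σ * (a1 * b2 - a2 * b1)) * (σ * (a1 * b2 - a2 * b1)) = 1 := by
    have : (σ * (a2 * b3 - a3 * b2)) * (σ * (a2 * b3 - a3 * b2)) +
      (σ * (a3 * b1 - a1 * b3)) * (σ * (a3 * b1 - a1 * b3)) +
      (σ * (a1 * b2 - a2 * b1)) * (σ * (a1 * b2 - a2 * b1)) =
      (σ * σ) * ((a1 * a1 + a2 * a2 + a3 * a3) * (b1 * b1 + b2 * b2 + b3 * b3) -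
        (a1 * b1 + a2 * b2 + a3 * b3) ^ 2) := by ring
    rw [this, ha, hab, hb, hσ]; ring
  have tri : ∀ x y w : ℝ, x * x + y * y + w * w = 1 → |x| ≤ 2 ∧ |y| ≤ 2 ∧ |w| ≤ 2 :=
    fun x y w h => ⟨sq2 _ (by nlinarith [mul_self_nonneg y, mul_self_nonneg w]),
      sq2 _ (by nlinarith [mul_self_nonneg x, mul_self_nonneg w]),
      sq2 _ (by nlinarith [mul_self_nonneg x, mul_self_nonneg y])⟩
  obtain ⟨p1, p2, p3⟩ := tri _ _ _ ha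
  obtain ⟨q1, q2, q3⟩ := tri _ _ _ hb
  obtain ⟨n1, n2, n3⟩ := tri _ _ _ hn
  obtain ⟨c1, c2, c3, c4, c5, c6⟩ := hC
  refine ⟨⟨lc a1 a2 a3 t, lc b1 b2 b3 t, lc (σ * (a2 * b3 - a3 * b2)) (σ * (a3 * b1 - a1 * b3))
    (σ * (a1 * b2 - a2 * b1)) t⟩, S.ext' fun u => ?_, S.ext' fun u => ?_, S.ext' fun u => ?_,
    lc_o _ _ _ _, lc_o _ _ _ _, lc_o _ _ _ _, ?_, ?_, ?_, ?_, ?_, ?_, ?_, ?_⟩
  · simp only [Trip.E, d1_lc]
    exact gram3 ha hab hb hσ _ _ _ _ _ _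
  · simp only [Trip.F, d1_lc, d2_lc]
    exact gram3 ha hab hb hσ _ _ _ _ _ _
  · simp only [Trip.G, d2_lc]
    exact gram3 ha hab hb hσ _ _ _ _ _ _
  · rw [e1]; exact ha
  · rw [e2]; exact hab
  · rw [e1]; linear_combination hab
  · rw [e2]; exact hb
  · rw [e1]; ring
  · rw [e2]; ring
  · simp only [Trip.All, d1_lc, d2_lc]
    exact ⟨Bk_lc p1 p2 p3 c1 c3 c5, Bk_lc p1 p2 p3 c2 c4 c6, Bk_lc q1 q2 q3 c1 c3 c5,
      Bk_lc q1 q2 q3 c2 c4 c6, Bk_lc n1 n2 n3 c1 c3 c5, Bk_lc n1 n2 n3 c2 c4 c6⟩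
  · rw [e11, e22, hL, hN]
    simp only [det3]
    ring

theorem angle {L M N B δ : ℝ} (hL : |L| ≤ B) (hM : |M| ≤ B) (hN : |N| ≤ B) (hδ : 0 < δ)
    (hδ1 : δ ≤ 1 / 2) : ∃ m : ℕ, m < ⌊4 / δ⌋₊ + 1 ∧
      (L + N) / 2 ≤ Real.cos (-2 + m * δ) ^ 2 * L +
        2 * Real.cos (-2 + m * δ) * Real.sin (-2 + m * δ) * M + Real.sin (-2 + m * δ) ^ 2 * N ∧
      |Real.cos (-2 + m * δ) * Real.sin (-2 + m * δ) * (N - L) +
        (Real.cos (-2 + m * δ) ^ 2 - Real.sin (-2 + m * δ) ^ 2) * M| ≤ 4 * B * δ := by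
  let ζ : ℂ := ⟨(L - N) / 2, M⟩
  have hR : ‖ζ‖ ≤ 2 * B := by
    refine (Complex.norm_le_abs_re_add_abs_im ζ).trans ?_
    have : |(L - N) / 2| ≤ B := by
      rw [abs_le] at hL hN ⊢
      constructor <;> linarith [hL.1, hL.2, hN.1, hN.2]
    show |(L - N) / 2| + |M| ≤ _
    linarith
  have hre : ‖ζ‖ * Real.cos ζ.arg = (L - N) / 2 := Complex.norm_mul_cos_arg ζ
  have him : ‖ζ‖ * Real.sin ζ.arg = M := Complex.norm_mul_sin_arg ζ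
  have h1 := Complex.neg_pi_lt_arg ζ
  have h2 := Complex.arg_le_pi ζ
  have h3 := Real.pi_le_four
  have h4 := Real.pi_gt_three
  have hR0 := norm_nonneg ζ
  generalize ζ.arg = φ at *
  generalize ‖ζ‖ = R at *
  have h5 : 0 ≤ (φ / 2 + 2) / δ := div_nonneg (by linarith) hδ.le
  have h6 := Nat.floor_le h5
  have h7 := Nat.lt_floor_add_one ((φ / 2 + 2) / δ)
  refine ⟨⌊(φ / 2 + 2) / δ⌋₊, Nat.lt_succ_of_le (Nat.floor_le_floor (by gcongr; linarith)), ?_⟩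
  rw [le_div_iff₀ hδ] at h6
  rw [div_lt_iff₀ hδ] at h7
  generalize (⌊(φ / 2 + 2) / δ⌋₊ : ℝ) = m at *
  have h8 : |φ - 2 * (-2 + m * δ)| ≤ 2 * δ := by
    rw [abs_le]; constructor <;> linarith
  generalize -2 + m * δ = θ at *
  have hc := Real.cos_sq_add_sin_sq θ
  have e1 : Real.cos θ ^ 2 * L + 2 * Real.cos θ * Real.sin θ * M + Real.sin θ ^ 2 * N =
      (L + N) / 2 + R * Real.cos (φ - 2 * θ) := by
    rw [Real.cos_sub, Real.cos_two_mul, Real.sin_two_mul]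
    linear_combination (-(2 * Real.cos θ ^ 2 - 1)) * hre - (2 * Real.sin θ * Real.cos θ) * him +
      N * hc
  have e2 : Real.cos θ * Real.sin θ * (N - L) + (Real.cos θ ^ 2 - Real.sin θ ^ 2) * M =
      R * Real.sin (φ - 2 * θ) := by
    rw [Real.sin_sub, Real.cos_two_mul, Real.sin_two_mul]
    linear_combination (2 * Real.sin θ * Real.cos θ) * hre - (2 * Real.cos θ ^ 2 - 1) * him -
      M * hc
  rw [e1, e2]
  constructor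
  · have := abs_le.1 h8
    have := Real.cos_nonneg_of_neg_pi_div_two_le_of_le (x := φ - 2 * θ) (by linarith) (by linarith)
    nlinarith
  · rw [abs_mul, abs_of_nonneg hR0]
    have := (Real.abs_sin_le_abs (x := φ - 2 * θ)).trans h8
    nlinarith [abs_nonneg (Real.sin (φ - 2 * θ))]

section zoom

variable {ρ : ℝ} (θ : ℝ) (h0 : 0 < ρ) (h : ρ ≤ 1 / 2)

theorem rot_o : (rot ρ θ h0 h).map o = o := by
  ext <;> simp [Aff.map, Aff.toFun, rot, o]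

theorem rot_col1 : |(rot ρ θ h0 h).a| + |(rot ρ θ h0 h).c| ≤ 2 * ρ := by
  simp only [rot, abs_mul, abs_of_pos h0]
  nlinarith [Real.abs_cos_le_one θ, Real.abs_sin_le_one θ]

theorem rot_col2 : |(rot ρ θ h0 h).b| + |(rot ρ θ h0 h).d| ≤ 2 * ρ := by
  simp only [rot, abs_mul, abs_neg, abs_of_pos h0]
  nlinarith [Real.abs_cos_le_one θ, Real.abs_sin_le_one θ]

theorem d1_zoom (f : S) : d1 (ρ⁻¹ • pull (rot ρ θ h0 h) f) =
    Real.cos θ • pull (rot ρ θ h0 h) (d1 f) + Real.sin θ • pull (rot ρ θ h0 h) (d2 f) := by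
  rw [Derivation.map_smul, d1_pull, smul_add, smul_smul, smul_smul]
  simp only [rot, inv_mul_cancel_left₀ h0.ne']

theorem d2_zoom (f : S) : d2 (ρ⁻¹ • pull (rot ρ θ h0 h) f) =
    (-Real.sin θ) • pull (rot ρ θ h0 h) (d1 f) + Real.cos θ • pull (rot ρ θ h0 h) (d2 f) := by
  rw [Derivation.map_smul, d2_pull, smul_add, smul_smul, smul_smul]
  simp only [rot, mul_neg, inv_mul_cancel_left₀ h0.ne']

theorem pull_lam (ε : ℝ) : pull (rot ρ θ h0 h) (lam ε ρ) = lam (ε * ρ ^ 4) 1 := by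
  refine S.ext' fun u => ?_
  have hq : qq.1 ((rot ρ θ h0 h).map u) = ρ ^ 2 * qq.1 u := by
    simp [qq, Aff.map, Aff.toFun, rot]
    linear_combination (ρ ^ 2 * (u.1.1 ^ 2 + u.1.2 ^ 2)) * Real.cos_sq_add_sin_sq θ
  simp [lam, hq]
  ring

theorem Gr_comb {B r x y : ℝ} {f g : S} (hr : 0 ≤ r) (hx : |x| ≤ 1) (hy : |y| ≤ 1)
    (hf : Gr 4 B r f) (hg : Gr 4 B r g) : Gr 4 (2 * B) r (x • f + y • g) := by
  have := hf.nonneg
  exact ((hf.smul x).add (hg.smul y)).mono hr (by nlinarith)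

/-- the rotated and zoomed triple -/
noncomputable def zoom (t : Trip) : Trip :=
  ⟨Real.cos θ • ρ⁻¹ • pull (rot ρ θ h0 h) t.P + Real.sin θ • ρ⁻¹ • pull (rot ρ θ h0 h) t.Y,
    (-Real.sin θ) • ρ⁻¹ • pull (rot ρ θ h0 h) t.P + Real.cos θ • ρ⁻¹ • pull (rot ρ θ h0 h) t.Y,
    ρ⁻¹ • pull (rot ρ θ h0 h) t.Z⟩

theorem d_zoomP (D : Derivation ℝ S S) (t : Trip) : D (zoom θ h0 h t).P =
    Real.cos θ • D (ρ⁻¹ • pull (rot ρ θ h0 h) t.P) +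
      Real.sin θ • D (ρ⁻¹ • pull (rot ρ θ h0 h) t.Y) := by
  rw [zoom, map_add, D.map_smul, D.map_smul (Real.sin θ)]

theorem d_zoomY (D : Derivation ℝ S S) (t : Trip) : D (zoom θ h0 h t).Y =
    (-Real.sin θ) • D (ρ⁻¹ • pull (rot ρ θ h0 h) t.P) +
      Real.cos θ • D (ρ⁻¹ • pull (rot ρ θ h0 h) t.Y) := by
  rw [zoom, map_add, D.map_smul, D.map_smul (Real.cos θ)]

theorem d_zoomZ (D : Derivation ℝ S S) (t : Trip) : D (zoom θ h0 h t).Z =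
    D (ρ⁻¹ • pull (rot ρ θ h0 h) t.Z) := rfl

theorem zoom_E (t : Trip) : (zoom θ h0 h t).E = pull (rot ρ θ h0 h) (rE θ t.E t.F t.G) := by
  refine S.ext' fun u => ?_
  simp only [Trip.E, d_zoomP, d_zoomY, d_zoomZ, d1_zoom]
  simp [rE, Trip.F, Trip.G]
  generalize (rot ρ θ h0 h).map u = v
  linear_combination ((Real.cos θ * (d1 t.P).1 v + Real.sin θ * (d2 t.P).1 v) ^ 2 +
    (Real.cos θ * (d1 t.Y).1 v + Real.sin θ * (d2 t.Y).1 v) ^ 2) * Real.cos_sq_add_sin_sq θ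

theorem zoom_F (t : Trip) : (zoom θ h0 h t).F = pull (rot ρ θ h0 h) (rF θ t.E t.F t.G) := by
  refine S.ext' fun u => ?_
  simp only [Trip.F, d_zoomP, d_zoomY, d_zoomZ, d1_zoom, d2_zoom]
  simp [rF, Trip.E, Trip.G]
  generalize (rot ρ θ h0 h).map u = v
  linear_combination ((Real.cos θ * (d1 t.P).1 v + Real.sin θ * (d2 t.P).1 v) *
    (-Real.sin θ * (d1 t.P).1 v + Real.cos θ * (d2 t.P).1 v) +
    (Real.cos θ * (d1 t.Y).1 v + Real.sin θ * (d2 t.Y).1 v) *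
    (-Real.sin θ * (d1 t.Y).1 v + Real.cos θ * (d2 t.Y).1 v)) * Real.cos_sq_add_sin_sq θ

theorem zoom_G (t : Trip) : (zoom θ h0 h t).G = pull (rot ρ θ h0 h) (rG θ t.E t.F t.G) := by
  refine S.ext' fun u => ?_
  simp only [Trip.G, d_zoomP, d_zoomY, d_zoomZ, d2_zoom]
  simp [rG, Trip.E, Trip.F]
  generalize (rot ρ θ h0 h).map u = v
  linear_combination ((-Real.sin θ * (d1 t.P).1 v + Real.cos θ * (d2 t.P).1 v) ^ 2 +
    (-Real.sin θ * (d1 t.Y).1 v + Real.cos θ * (d2 t.Y).1 v) ^ 2) * Real.cos_sq_add_sin_sq θ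

theorem zoom_gr {B : ℝ} {t : Trip} (ht : t.All (Bk 4 B)) :
    (zoom θ h0 h t).All (Gr 4 (4 * B) (2 * ρ)) := by
  obtain ⟨c1, c2, c3, c4, c5, c6⟩ := ht
  have hr : 0 ≤ 2 * ρ := by positivity
  have hc := Real.abs_cos_le_one θ
  have hs := Real.abs_sin_le_one θ
  have hs' : |-Real.sin θ| ≤ 1 := by rwa [abs_neg]
  have hB := c1.nonneg
  have g : ∀ {f : S}, Bk 4 B f → Gr 4 B (2 * ρ) (pull (rot ρ θ h0 h) f) := fun hf =>
    hf.gr_pull _ (rot_col1 θ h0 h) (rot_col2 θ h0 h)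
  have e : 4 * B = 2 * (2 * B) := by ring
  simp only [Trip.All, d_zoomP, d_zoomY, d_zoomZ, d1_zoom, d2_zoom, e]
  exact ⟨Gr_comb hr hc hs (Gr_comb hr hc hs (g c1) (g c2)) (Gr_comb hr hc hs (g c3) (g c4)),
    Gr_comb hr hc hs (Gr_comb hr hs' hc (g c1) (g c2)) (Gr_comb hr hs' hc (g c3) (g c4)),
    Gr_comb hr hs' hc (Gr_comb hr hc hs (g c1) (g c2)) (Gr_comb hr hc hs (g c3) (g c4)),
    Gr_comb hr hs' hc (Gr_comb hr hs' hc (g c1) (g c2)) (Gr_comb hr hs' hc (g c3) (g c4)),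
    (Gr_comb hr hc hs (g c5) (g c6)).mono hr (by linarith),
    (Gr_comb hr hs' hc (g c5) (g c6)).mono hr (by linarith)⟩

theorem metric_bounds {a : ℝ} {A B C l : S} (hA : Bk 3 (a / 4) (A - l)) (hB : Bk 3 (a / 4) B)
    (hC : Bk 3 (a / 4) (C - l)) : Bk 3 a (rE θ A B C - l) ∧ Bk 3 a (rF θ A B C) ∧
      Bk 3 a (rG θ A B C - l) := by
  have hcs := Real.cos_sq_add_sin_sq θ
  have ha := hA.nonneg
  have k1 : |Real.cos θ ^ 2| ≤ 1 := by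
    rw [abs_of_nonneg (sq_nonneg _)]; nlinarith [sq_nonneg (Real.sin θ)]
  have k2 : |Real.sin θ ^ 2| ≤ 1 := by
    rw [abs_of_nonneg (sq_nonneg _)]; nlinarith [sq_nonneg (Real.cos θ)]
  have k3 : |2 * Real.cos θ * Real.sin θ| ≤ 1 := by
    rw [abs_le]
    constructor <;> nlinarith [sq_nonneg (Real.cos θ + Real.sin θ),
      sq_nonneg (Real.cos θ - Real.sin θ)]
  have k4 : |Real.cos θ * Real.sin θ| ≤ 1 := by
    rw [abs_le]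
    constructor <;> nlinarith [sq_nonneg (Real.cos θ + Real.sin θ),
      sq_nonneg (Real.cos θ - Real.sin θ)]
  have k5 : |Real.cos θ ^ 2 - Real.sin θ ^ 2| ≤ 1 := by
    rw [abs_le]
    constructor <;> nlinarith [sq_nonneg (Real.cos θ), sq_nonneg (Real.sin θ)]
  have e1 : rE θ A B C - l = Real.cos θ ^ 2 • (A - l) + (2 * Real.cos θ * Real.sin θ) • B +
      Real.sin θ ^ 2 • (C - l) := S.ext' fun u => by
    simp [rE]
    linear_combination l.1 u * hcs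
  have e2 : rF θ A B C = (Real.cos θ * Real.sin θ) • ((C - l) - (A - l)) +
      (Real.cos θ ^ 2 - Real.sin θ ^ 2) • B := by
    rw [rF, sub_sub_sub_cancel_right]
  have e3 : rG θ A B C - l = Real.sin θ ^ 2 • (A - l) - (2 * Real.cos θ * Real.sin θ) • B +
      Real.cos θ ^ 2 • (C - l) := S.ext' fun u => by
    simp [rG]
    linear_combination l.1 u * hcs
  rw [e1, e2, e3]
  exact ⟨(((hA.smul _).add (hB.smul _)).add (hC.smul _)).mono (by nlinarith),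
    (((hC.sub hA).smul _).add (hB.smul _)).mono (by nlinarith),
    (((hA.smul _).sub (hB.smul _)).add (hC.smul _)).mono (by nlinarith)⟩

theorem zoom_Z11 (t0 : Trip) : (d1 (d1 (zoom θ h0 h t0).Z)).1 o =
    ρ * (Real.cos θ ^ 2 * (d1 (d1 t0.Z)).1 o + 2 * Real.cos θ * Real.sin θ * (d1 (d2 t0.Z)).1 o +
      Real.sin θ ^ 2 * (d2 (d2 t0.Z)).1 o) := by
  rw [d_zoomZ, d1_zoom, map_add, Derivation.map_smul, Derivation.map_smul, d1_pull, d1_pull,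
    ← d_comm]
  simp [rot_o]
  simp only [rot]
  ring

theorem zoom_Z12 (t0 : Trip) : (d2 (d1 (zoom θ h0 h t0).Z)).1 o = ρ * (Real.cos θ * Real.sin θ *
    ((d2 (d2 t0.Z)).1 o - (d1 (d1 t0.Z)).1 o) +
      (Real.cos θ ^ 2 - Real.sin θ ^ 2) * (d1 (d2 t0.Z)).1 o) := by
  rw [d_zoomZ, d1_zoom, map_add, Derivation.map_smul, Derivation.map_smul, d2_pull, d2_pull,
    ← d_comm]
  simp [rot_o]
  simp only [rot]
  ring

end zoom

theorem norm_trip (C ε : ℝ) (hε : 0 < ε) (hε1 : ε ≤ 1) : ∃ C' μ ρ1 : ℝ, 0 < C' ∧ 0 < μ ∧ 0 < ρ1 ∧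
    ∀ (ρ : ℝ) (h0 : 0 < ρ) (h : ρ ≤ 1 / 2), ρ ≤ ρ1 → ∃ (M : ℕ) (θ : Fin M → ℝ), ∀ t : Trip,
      t.All (Bk 4 C) → t.E.1 o = 1 → t.F.1 o = 0 → t.G.1 o = 1 →
      Bk 3 (ρ ^ 5 / 4) (t.E - lam ε ρ) → Bk 3 (ρ ^ 5 / 4) t.F → Bk 3 (ρ ^ 5 / 4) (t.G - lam ε ρ) →
      ∃ (m : Fin M) (t' : Trip), Good C' ε μ ρ t' ∧
        t'.E = pull (rot ρ (θ m) h0 h) (rE (θ m) t.E t.F t.G) ∧
        t'.F = pull (rot ρ (θ m) h0 h) (rF (θ m) t.E t.F t.G) ∧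
        t'.G = pull (rot ρ (θ m) h0 h) (rG (θ m) t.E t.F t.G) := by
  obtain ⟨μ, η, ρ1, hμ, hη, hρ1, hlow⟩ := low C ε hε hε1
  have hB : 0 < 6 * |C| + 1 := by positivity
  have hB1 : 1 ≤ 6 * |C| + 1 := by linarith [abs_nonneg C]
  have hCB : 6 * C ≤ 6 * |C| + 1 := by linarith [le_abs_self C]
  generalize 6 * |C| + 1 = B at hB hB1 hCB
  refine ⟨4 * B, μ, min ρ1 η, by positivity, hμ, lt_min hρ1 hη, fun ρ h0 h hρ => ?_⟩
  have hδ : 0 < ρ ^ 2 / (4 * B) := by positivity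
  have hδ1 : ρ ^ 2 / (4 * B) ≤ 1 / 2 := by
    rw [div_le_iff₀ (by positivity)]; nlinarith
  refine ⟨⌊4 / (ρ ^ 2 / (4 * B))⌋₊ + 1, fun m => -2 + (m : ℕ) * (ρ ^ 2 / (4 * B)),
    fun t ht hE hF hG mE mF mG => ?_⟩
  have hη' : ρ ^ 5 / 4 ≤ η := by
    have h1 : ρ ^ 4 ≤ 1 := pow_le_one₀ h0.le (by linarith)
    have h2 := hρ.trans (min_le_right _ _)
    nlinarith
  have hl := hlow ρ t (by rw [abs_of_pos h0]; exact hρ.trans (min_le_left _ _)) ht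
    (mE.down.mono hη') (mF.down.mono hη') (mG.down.mono hη')
  obtain ⟨σ, hσ, hσ'⟩ : ∃ σ : ℝ, σ * σ = 1 ∧ σ * (t.L.1 o + t.N.1 o) = |t.L.1 o + t.N.1 o| := by
    rcases le_total 0 (t.L.1 o + t.N.1 o) with h | h
    · exact ⟨1, by ring, by rw [abs_of_nonneg h]; ring⟩
    · exact ⟨-1, by ring, by rw [abs_of_nonpos h]; ring⟩
  obtain ⟨t0, e1, e2, e3, p0, y0, z0, p1, p2, y1, y2, z1, z2, hb, htr⟩ := normal t hE hF hG hσ ht
  have hb' : t0.All (Bk 4 B) := ⟨hb.1.mono hCB, hb.2.1.mono hCB, hb.2.2.1.mono hCB,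
    hb.2.2.2.1.mono hCB, hb.2.2.2.2.1.mono hCB, hb.2.2.2.2.2.mono hCB⟩
  obtain ⟨m, hm, a1, a2⟩ := angle (hb'.2.2.2.2.1.d1.le o) (hb'.2.2.2.2.2.d1.le o)
    (hb'.2.2.2.2.2.d2.le o) hδ hδ1
  refine ⟨⟨m, hm⟩, zoom _ h0 h t0, ?_, by rw [zoom_E, e1, e2, e3], by rw [zoom_F, e1, e2, e3],
    by rw [zoom_G, e1, e2, e3]⟩
  dsimp only
  generalize -2 + (m : ℝ) * (ρ ^ 2 / (4 * B)) = θ at a1 a2 ⊢
  have hcs := Real.cos_sq_add_sin_sq θ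
  obtain ⟨b1, b2, b3⟩ := metric_bounds θ mE mF mG
  have c1 : |(rot ρ θ h0 h).a| + |(rot ρ θ h0 h).c| ≤ 1 := (rot_col1 θ h0 h).trans (by linarith)
  have c2 : |(rot ρ θ h0 h).b| + |(rot ρ θ h0 h).d| ≤ 1 := (rot_col2 θ h0 h).trans (by linarith)
  refine ⟨?_, ?_, ?_, ?_, ?_, ?_, ?_, ?_, zoom_gr θ h0 h hb', ?_, ?_, ?_, ?_, ?_⟩
  · simp [zoom, rot_o, p0, y0]
  · simp [zoom, rot_o, z0]
  · rw [d_zoomP, d1_zoom, d1_zoom]
    simp [rot_o, p1, p2, y1, y2]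
    linear_combination hcs
  · rw [d_zoomP, d2_zoom, d2_zoom]
    simp [rot_o, p1, p2, y1, y2]
    ring
  · rw [d_zoomY, d1_zoom, d1_zoom]
    simp [rot_o, p1, p2, y1, y2]
    ring
  · rw [d_zoomY, d2_zoom, d2_zoom]
    simp [rot_o, p1, p2, y1, y2]
    linear_combination hcs
  · rw [d_zoomZ, d1_zoom]
    simp [rot_o, z1, z2]
  · rw [d_zoomZ, d2_zoom]
    simp [rot_o, z1, z2]
  · rw [zoom_Z11, mul_comm μ]
    exact mul_le_mul_of_nonneg_left (by linarith) h0.le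
  · rw [zoom_Z12, abs_mul, abs_of_pos h0]
    have : 4 * B * (ρ ^ 2 / (4 * B)) = ρ ^ 2 := by field_simp
    rw [this] at a2
    exact (mul_le_mul_of_nonneg_left a2 h0.le).trans (le_of_eq (by ring))
  · rw [zoom_E, e1, e2, e3, ← pull_lam θ h0 h, ← map_sub]
    exact b1.pull _ c1 c2
  · rw [zoom_F, e1, e2, e3]
    exact b2.pull _ c1 c2
  · rw [zoom_G, e1, e2, e3, ← pull_lam θ h0 h, ← map_sub]
    exact b3.pull _ c1 c2

end Vale.Agent.P229
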