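import Vale.Agent.P229.SmL

/-! One-dimensional profiles and product functions for `Source.lean`. -/

open scoped ContDiff
open MeasureTheory Set

namespace Vale.Agent.P229

theorem src_bump : ∃ b : ℝ → ℝ, ContDiff ℝ ∞ b ∧ (∀ x, 0 ≤ b x) ∧ (∀ x, b x ≤ 1) ∧
    (∀ x, |x| ≤ 1 → b x = 1) ∧ (∀ x, 2 ≤ |x| → b x = 0) := by
  let f : ContDiffBump (0 : ℝ) := ⟨1, 2, by norm_num, by norm_num⟩
  refine ⟨f, f.contDiff, fun x => f.nonneg, fun x => f.le_one, fun x hx => ?_, fun x hx => ?_⟩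
  · exact f.one_of_mem_closedBall (by simpa using hx)
  · exact f.zero_of_le_dist (by simpa using hx)

theorem src_int {p : ℝ → ℝ} (hp : Continuous p) (h : ∀ x, 2 ≤ |x| → p x = 0) : Integrable p := by
  refine hp.integrable_of_hasCompactSupport
    (HasCompactSupport.intro (isCompact_Icc (a := -2) (b := 2)) fun x hx => h x ?_)
  by_contra h1
  rw [not_le, abs_lt] at h1
  exact hx ⟨h1.1.le, h1.2.le⟩

theorem src_profile : ∃ C : ℕ → ℝ → ℝ, (∀ i, ContDiff ℝ ∞ (C i)) ∧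
    (∀ i x, HasDerivAt (C i) (C (i + 1) x) x) ∧ (∀ i t, t ∉ Icc (1 / 4 : ℝ) (3 / 4) → C i t = 0) ∧
    0 < ∫ t, C 2 t ^ 2 := by
  let f : ContDiffBump (1 / 2 : ℝ) := ⟨1 / 8, 1 / 4, by norm_num, by norm_num⟩
  let C : ℕ → ℝ → ℝ := fun i => deriv^[i] f
  have hs : ∀ i, C (i + 1) = deriv (C i) := fun i => Function.iterate_succ_apply' deriv i f
  have h1 : ∀ i, ContDiff ℝ ∞ (C i) := fun i => by
    induction i with
    | zero => exact f.contDiff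
    | succ i ih => rw [hs]; exact contDiff_deriv ih
  have h2 : ∀ i x, HasDerivAt (C i) (C (i + 1) x) x := fun i x => by
    rw [hs]
    exact ((h1 i).differentiable (by simp) x).hasDerivAt
  have h3 : ∀ i t, t ∉ Icc (1 / 4 : ℝ) (3 / 4) → C i t = 0 := fun i => by
    induction i with
    | zero =>
      intro t ht
      refine f.zero_of_le_dist ?_
      rw [Real.dist_eq]
      by_contra h
      rw [not_le, abs_lt] at h
      exact ht ⟨by linarith [h.1], by linarith [h.2]⟩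
    | succ i ih =>
      intro t ht
      have : C i =ᶠ[nhds t] fun _ => 0 :=
        Filter.eventuallyEq_of_mem (isClosed_Icc.isOpen_compl.mem_nhds ht) fun y hy => ih y hy
      rw [hs, this.deriv_eq]
      simp
  refine ⟨C, h1, h2, h3, ?_⟩
  have hc : Continuous fun t => C 2 t ^ 2 := (h1 2).continuous.pow 2
  have hi : Integrable fun t => C 2 t ^ 2 := src_int hc fun x hx => by
    rw [h3 2 x fun h => ?_]
    · simp
    · rw [abs_of_nonneg (by linarith [h.1])] at hx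
      linarith [h.2]
  by_contra h
  have h4 : ∫ t, C 2 t ^ 2 = 0 :=
    le_antisymm (not_lt.mp h) (integral_nonneg fun t => sq_nonneg _)
  rw [integral_eq_zero_iff_of_nonneg (fun t => sq_nonneg _) hi,
    hc.ae_eq_iff_eq volume continuous_zero] at h4
  have h5 : ∀ i, (∀ t, C (i + 1) t = 0) → ∀ t, C i t = 0 := fun i hi t => by
    rw [is_const_of_deriv_eq_zero ((h1 i).differentiable (by simp))
      (fun x => by rw [← hs]; exact hi x) t 0]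
    exact h3 i 0 fun h => by linarith [h.1]
  have h6 := h5 0 (h5 1 fun t => by simpa using congrFun h4 t) (1 / 2)
  have h7 : C 0 (1 / 2) = 1 := f.one_of_mem_closedBall (Metric.mem_closedBall_self (by norm_num))
  rw [h7] at h6
  exact one_ne_zero h6

theorem src_prim {p : ℝ → ℝ} (hp : ContDiff ℝ ∞ p) (hi : Integrable p) (h0 : ∀ x, 0 ≤ p x) :
    ∃ Φ : ℝ → ℝ, ContDiff ℝ ∞ Φ ∧ (∀ x, HasDerivAt Φ (p x) x) ∧ (∀ x, |Φ x| ≤ ∫ t, p t) ∧
      ((∀ x, |x| ≤ 1 → p x = 0) → ∀ x, |x| ≤ 1 → Φ x = 0) := by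
  have hd : ∀ x, HasDerivAt (fun x => ∫ t in (0 : ℝ)..x, p t) (p x) x := fun x =>
    (hp.continuous.integral_hasStrictDerivAt 0 x).hasDerivAt
  refine ⟨fun x => ∫ t in (0 : ℝ)..x, p t, ?_, hd, fun x => ?_, fun h x hx => ?_⟩
  · rw [contDiff_infty_iff_deriv]
    refine ⟨fun x => (hd x).differentiableAt, ?_⟩
    rwa [show deriv (fun x => ∫ t in (0 : ℝ)..x, p t) = p from funext fun x => (hd x).deriv]
  · refine (intervalIntegral.norm_integral_le_integral_norm_uIoc (f := p)).trans ?_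
    simp only [Real.norm_eq_abs, abs_of_nonneg (h0 _)]
    exact setIntegral_le_integral hi (Filter.Eventually.of_forall h0)
  · have : ∫ t in (0 : ℝ)..x, p t = ∫ _t in (0 : ℝ)..x, (0 : ℝ) := by
      refine intervalIntegral.integral_congr fun t ht => h t ?_
      rw [abs_le] at hx ⊢
      exact ⟨le_trans (le_min (by norm_num) hx.1) ht.1, ht.2.trans (max_le (by norm_num) hx.2)⟩
    simpa using this

/-- `g` is the product function `p x * q y` -/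
def IsP (g : S) (p q : ℝ → ℝ) : Prop := ∀ u : Om, g.1 u = p u.1.1 * q u.1.2

theorem exists_IsP {p q : ℝ → ℝ} (hp : ContDiff ℝ ∞ p) (hq : ContDiff ℝ ∞ q) : ∃ g, IsP g p q :=
  ⟨mk (fun u => p u.1 * q u.2)
    ((hp.comp contDiff_fst).mul (hq.comp contDiff_snd)).contDiffOn, fun _ => rfl⟩

theorem IsP.der {g : S} {p q p' q' : ℝ → ℝ} (h : IsP g p q) (hp : ∀ x, HasDerivAt p (p' x) x)
    (hq : ∀ x, HasDerivAt q (q' x) x) (e : ℝ × ℝ) (u : Om) :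
    (der e g).1 u = e.1 * (p' u.1.1 * q u.1.2) + e.2 * (p u.1.1 * q' u.1.2) := by
  have h1 := ((hp u.1.1).comp_hasFDerivAt (u : ℝ × ℝ) (hasFDerivAt_fst (𝕜 := ℝ))).mul
    ((hq u.1.2).comp_hasFDerivAt (u : ℝ × ℝ) (hasFDerivAt_snd (𝕜 := ℝ)))
  rw [der_apply, fderiv_ext (f := g) (F := (p ∘ Prod.fst) * (q ∘ Prod.snd)) fun v => h v,
    h1.fderiv]
  simp
  ring

theorem IsP.d1 {g : S} {p q p' q' : ℝ → ℝ} (h : IsP g p q) (hp : ∀ x, HasDerivAt p (p' x) x)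
    (hq : ∀ x, HasDerivAt q (q' x) x) : IsP (d1 g) p' q := fun u => by
  simpa [P229.d1] using h.der hp hq (1, 0) u

theorem IsP.d2 {g : S} {p q p' q' : ℝ → ℝ} (h : IsP g p q) (hp : ∀ x, HasDerivAt p (p' x) x)
    (hq : ∀ x, HasDerivAt q (q' x) x) : IsP (d2 g) p q' := fun u => by
  simpa [P229.d2] using h.der hp hq (0, 1) u

theorem IsP.zero {g : S} {p q : ℝ → ℝ} (h : IsP g p q) {r : ℝ} (hp : ∀ x, r < |x| → p x = 0)
    (hq : ∀ x, r < |x| → q x = 0) (u : Om) (hu : r < ‖u.1‖) : g.1 u = 0 := by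
  rw [h u]
  rcases lt_max_iff.1 (hu.trans_eq (Prod.norm_def u.1)) with h1 | h1
  · rw [hp _ h1, zero_mul]
  · rw [hq _ h1, mul_zero]

theorem IsP.I_sq {g : S} {p q : ℝ → ℝ} (h : IsP g p q) (hp : ∀ x, 1 < |x| → p x = 0)
    (hq : ∀ x, 1 < |x| → q x = 0) : I (g ^ 2) = (∫ x, p x ^ 2) * ∫ y, q y ^ 2 := by
  have c : Cs (g ^ 2) := fun u hu => by
    have := h.zero hp hq u (by linarith)
    simp [this]
  rw [c.I_eq, ← integral_prod_mul, ← Measure.volume_eq_prod]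
  congr 1
  funext u
  by_cases hu : u ∈ Om
  · rw [ext_of_mem _ hu, ← mul_pow]
    exact congrArg (· ^ 2) (h ⟨u, hu⟩)
  · rw [ext_of_not_mem _ hu]
    rw [mem_Om, not_lt] at hu
    rcases le_max_iff.1 (hu.trans_eq (Prod.norm_def u)) with h1 | h1
    · rw [hp _ (by rw [Real.norm_eq_abs] at h1; linarith)]
      simp
    · rw [hq _ (by rw [Real.norm_eq_abs] at h1; linarith)]
      simp

theorem src_scale (p : ℝ → ℝ) {a : ℝ} (ha : 0 < a) : ∫ x, p (x / a) ^ 2 = a * ∫ x, p x ^ 2 := by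
  rw [Measure.integral_comp_div (fun x => p x ^ 2) a, abs_of_pos ha, smul_eq_mul]

/-- the oscillating profile -/
noncomputable def osc (C : ℕ → ℝ → ℝ) {n : ℕ} (σ : Fin n → ℝ) (h l : ℝ) (i : ℕ) (y : ℝ) : ℝ :=
  l⁻¹ ^ i * ∑ k, σ k * C i ((y - (h / 2 + (k : ℝ) * l)) / l)

section osc

variable {C : ℕ → ℝ → ℝ} {n : ℕ} (σ : Fin n → ℝ) {h l : ℝ}

theorem osc_contDiff (h1 : ∀ i, ContDiff ℝ ∞ (C i)) (i : ℕ) : ContDiff ℝ ∞ (osc C σ h l i) := by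
  unfold osc
  refine contDiff_const.mul (ContDiff.sum fun k _ => contDiff_const.mul ((h1 i).comp ?_))
  exact (contDiff_id.sub contDiff_const).div_const l

theorem osc_deriv (h2 : ∀ i x, HasDerivAt (C i) (C (i + 1) x) x) (i : ℕ) (y : ℝ) :
    HasDerivAt (osc C σ h l i) (osc C σ h l (i + 1) y) y := by
  have k1 : ∀ k : Fin n, HasDerivAt (fun y => σ k * C i ((y - (h / 2 + (k : ℝ) * l)) / l))
      (σ k * (C (i + 1) ((y - (h / 2 + (k : ℝ) * l)) / l) * (1 / l))) y := fun k =>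
    ((h2 i _).comp y (((hasDerivAt_id y).sub_const (h / 2 + (k : ℝ) * l)).div_const l)).const_mul _
  refine HasDerivAt.congr_deriv
    ((HasDerivAt.fun_sum fun k (_ : k ∈ Finset.univ) => k1 k).const_mul (l⁻¹ ^ i)) ?_
  unfold osc
  rw [Finset.mul_sum, Finset.mul_sum]
  refine Finset.sum_congr rfl fun k _ => ?_
  ring

theorem osc_zero (h3 : ∀ i t, t ∉ Icc (1 / 4 : ℝ) (3 / 4) → C i t = 0) (hl : 0 < l)
    (hn : n * l ≤ h / 2) (i : ℕ) {y : ℝ} (hy : y ≤ h / 2 ∨ h ≤ y) : osc C σ h l i y = 0 := by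
  unfold osc
  rw [Finset.sum_eq_zero, mul_zero]
  intro k _
  rw [h3, mul_zero]
  rintro ⟨k1, k2⟩
  rw [le_div_iff₀ hl] at k1
  rw [div_le_iff₀ hl] at k2
  have k3 : (0 : ℝ) ≤ k * l := by positivity
  have k4 : ((k : ℕ) : ℝ) + 1 ≤ n := by exact_mod_cast k.2
  have k5 := mul_le_mul_of_nonneg_right k4 hl.le
  rcases hy with hy | hy <;> linarith

theorem osc_sq (h1 : ∀ i, ContDiff ℝ ∞ (C i))
    (h3 : ∀ i t, t ∉ Icc (1 / 4 : ℝ) (3 / 4) → C i t = 0) (hl : 0 < l) (i : ℕ) :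
    ∫ y, osc C σ h l i y ^ 2 = (l⁻¹ ^ i) ^ 2 * l * (∫ t, C i t ^ 2) * ∑ k, σ k ^ 2 := by
  have e : ∀ y, osc C σ h l i y ^ 2 =
      (l⁻¹ ^ i) ^ 2 * ∑ k, σ k ^ 2 * C i ((y - (h / 2 + (k : ℝ) * l)) / l) ^ 2 := by
    intro y
    unfold osc
    rw [mul_pow, sq (∑ k, _), Finset.sum_mul_sum]
    congr 1
    refine Finset.sum_congr rfl fun k _ => ?_
    rw [Finset.sum_eq_single k, ← sq, mul_pow]
    · intro k' _ hk
      by_cases a1 : (y - (h / 2 + (k : ℝ) * l)) / l ∈ Icc (1 / 4 : ℝ) (3 / 4)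
      · rw [h3 i ((y - (h / 2 + (k' : ℝ) * l)) / l), mul_zero, mul_zero]
        rintro ⟨b1, b2⟩
        obtain ⟨a1, a2⟩ := a1
        rw [le_div_iff₀ hl] at a1 b1
        rw [div_le_iff₀ hl] at a2 b2
        have c1 : ((k : ℕ) : ℝ) < (k' : ℕ) + 1 := lt_of_mul_lt_mul_right (by linarith) hl.le
        have c2 : ((k' : ℕ) : ℝ) < (k : ℕ) + 1 := lt_of_mul_lt_mul_right (by linarith) hl.le
        have c3 : (k : ℕ) < k' + 1 := by exact_mod_cast c1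
        have c4 : (k' : ℕ) < k + 1 := by exact_mod_cast c2
        exact hk (Fin.ext (by omega))
      · rw [h3 i _ a1, mul_zero, zero_mul]
    · intro hk
      exact absurd (Finset.mem_univ k) hk
  have hi : Integrable fun t => C i t ^ 2 := src_int ((h1 i).continuous.pow 2) fun x hx => by
    rw [h3 i x fun h => ?_]
    · simp
    · rw [abs_of_nonneg (by linarith [h.1])] at hx
      linarith [h.2]
  simp only [e]
  rw [integral_const_mul, integral_finsetSum _ fun (k : Fin n) _ =>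
    ((hi.comp_div hl.ne').comp_sub_right (h / 2 + (k : ℝ) * l)).const_mul (σ k ^ 2)]
  simp only [integral_const_mul]
  have e2 : ∀ k : Fin n, ∫ y, C i ((y - (h / 2 + (k : ℝ) * l)) / l) ^ 2 = l * ∫ t, C i t ^ 2 :=
    fun k => by
      rw [integral_sub_right_eq_self (fun y => C i (y / l) ^ 2), src_scale _ hl]
  simp only [e2]
  rw [← Finset.sum_mul]
  ring

end osc

theorem src_sq_le {B0 c0 c1 c2 c3 x0 x1 x2 x3 : ℝ} (h0 : |c0| ≤ B0) (h1 : |c1| ≤ B0)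
    (h2 : |c2| ≤ B0) (h3 : |c3| ≤ B0) : (c0 * x0 + c1 * x1 + c2 * x2 + c3 * x3) ^ 2 ≤
      4 * B0 ^ 2 * (x0 ^ 2 + x1 ^ 2 + x2 ^ 2 + x3 ^ 2) := by
  have k : ∀ {c x : ℝ}, |c| ≤ B0 → (c * x) ^ 2 ≤ B0 ^ 2 * x ^ 2 := fun {c x} h => by
    rw [mul_pow]
    exact mul_le_mul_of_nonneg_right (sq_le_sq' (abs_le.mp h).1 (abs_le.mp h).2) (sq_nonneg _)
  have k0 := k (x := x0) h0
  have k1 := k (x := x1) h1
  have k2 := k (x := x2) h2
  have k3 := k (x := x3) h3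
  generalize c0 * x0 = y0 at *
  generalize c1 * x1 = y1 at *
  generalize c2 * x2 = y2 at *
  generalize c3 * x3 = y3 at *
  nlinarith [sq_nonneg (y0 - y1), sq_nonneg (y0 - y2), sq_nonneg (y0 - y3), sq_nonneg (y1 - y2),
    sq_nonneg (y1 - y3), sq_nonneg (y2 - y3)]

theorem src_cross {B0 s j c x y : ℝ} (hs : 0 < s) (hj : |j| ≤ B0) (hc : |c| ≤ B0) :
    j * (c * x) * y ≤ B0 ^ 2 * (s⁻¹ * x ^ 2 + s * y ^ 2) := by
  have h1 : |x * y| ≤ s⁻¹ * x ^ 2 + s * y ^ 2 := by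
    have e : s⁻¹ * x ^ 2 + s * y ^ 2 = s⁻¹ * (x ^ 2 + (s * y) ^ 2) := by field_simp
    rw [e, ← div_eq_inv_mul, le_div_iff₀ hs, abs_mul, ← sq_abs x, mul_pow, ← sq_abs y]
    nlinarith [sq_nonneg (|x| - s * |y|), sq_nonneg |x|, sq_nonneg (s * |y|)]
  have h2 : |j * c| ≤ B0 ^ 2 := by
    rw [abs_mul, sq]
    exact mul_le_mul hj hc (abs_nonneg _) ((abs_nonneg _).trans hj)
  calc j * (c * x) * y = (j * c) * (x * y) := by ring
    _ ≤ |j * c| * |x * y| := by rw [← abs_mul]; exact le_abs_self _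
    _ ≤ _ := mul_le_mul h2 h1 (abs_nonneg _) (sq_nonneg _)

theorem src_If {B0 : ℝ} {j c0 c1 c2 c3 : S} (hc : Coef B0 j c0 c1 c2 c3) (x0 x1 x2 x3 : S) :
    I ((c0 * x0 + c1 * x1 + c2 * x2 + c3 * x3) ^ 2) ≤
      4 * B0 ^ 2 * (I (x0 ^ 2) + I (x1 ^ 2) + I (x2 ^ 2) + I (x3 ^ 2)) := by
  rw [← map_add, ← map_add, ← map_add, ← smul_eq_mul (4 * B0 ^ 2), ← map_smul]
  exact I_mono fun u => src_sq_le (hc.b0 u) (hc.b1 u) (hc.b2 u) (hc.b3 u)

theorem src_det {B0 s : ℝ} (hB0 : 0 < B0) (hs : 0 < s) {j c0 c1 c2 c3 : S}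
    (hc : Coef B0 j c0 c1 c2 c3) (x0 x1 x2 x3 ψ : S) (h : ∀ u, x3.1 u ^ 2 ≤ x3.1 u * ψ.1 u) :
    1 / B0 * I (x3 ^ 2) -
        B0 ^ 2 * (s⁻¹ * (I (x0 ^ 2) + I (x1 ^ 2) + I (x2 ^ 2)) + 3 * s * I (ψ ^ 2)) ≤
      I (-(j * (c0 * x0 + c1 * x1 + c2 * x2 + c3 * x3) * ψ)) := by
  have e : 1 / B0 * I (x3 ^ 2) -
      B0 ^ 2 * (s⁻¹ * (I (x0 ^ 2) + I (x1 ^ 2) + I (x2 ^ 2)) + 3 * s * I (ψ ^ 2)) =
      I ((1 / B0) • x3 ^ 2 - B0 ^ 2 • (s⁻¹ • (x0 ^ 2 + x1 ^ 2 + x2 ^ 2) + (3 * s) • ψ ^ 2)) := by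
    simp only [map_sub, map_add, map_smul, smul_eq_mul]
  rw [e]
  refine I_mono fun u => ?_
  have k0 := src_cross (x := x0.1 u) (y := ψ.1 u) hs (hc.bj u) (hc.b0 u)
  have k1 := src_cross (x := x1.1 u) (y := ψ.1 u) hs (hc.bj u) (hc.b1 u)
  have k2 := src_cross (x := x2.1 u) (y := ψ.1 u) hs (hc.bj u) (hc.b2 u)
  have k3 : 1 / B0 * x3.1 u ^ 2 ≤ -(j.1 u * c3.1 u) * (x3.1 u * ψ.1 u) :=
    mul_le_mul (hc.lo u) (h u) (sq_nonneg _) (le_trans (by positivity) (hc.lo u))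
  show 1 / B0 * x3.1 u ^ 2 - B0 ^ 2 * (s⁻¹ * (x0.1 u ^ 2 + x1.1 u ^ 2 + x2.1 u ^ 2) +
      3 * s * ψ.1 u ^ 2) ≤
    -(j.1 u * (c0.1 u * x0.1 u + c1.1 u * x1.1 u + c2.1 u * x2.1 u + c3.1 u * x3.1 u) * ψ.1 u)
  linarith

end Vale.Agent.P229
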