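import Vale.Agent.P229.SmL
import Vale.Agent.P229.SourceAux

/-! The family of thin oscillating strains and the data `Src` of the sources they produce.

PLAN. Fix once and for all smooth `b0 c : ℝ → ℝ` (e.g. `ContDiffBump`): `0 ≤ b0 ≤ 1`, `b0 = 1` on
`[-1, 1]`, `b0 = 0` outside `(-2, 2)`; `c = 0` outside `[1/4, 3/4]`, `c (1/2) = 1` (so
`0 < ∫ (c'')²`: otherwise `c'' = 0`, `c'` constant `= 0`, `c` constant). Put `ℓ = s²`, `w = s³`,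
`cc i σ y = ∑ k, σ k * (iteratedDeriv i c) ((y - h/2)/ℓ - k)`, so `deriv (cc i σ) = ℓ⁻¹ cc (i+1) σ`,
and `β σ u = b0 (2 u.1 / w) * cc 0 σ u.2`. Everything is a product `p (T/w) * cc i σ (Sc)`; use
`comp`, `d1_comp`, `d2_comp`. Data: `th = b0 (T/w)`, `thp = b0' (T/w)`, `ψ = th * γ''` with
`γ'' = ℓ⁻² cc 2 σ`, `g2 = b0 (T/(2w)) γ''`, `g3 = b0 (T/(2w)) ℓ⁻³ cc 3 σ`, `Sin = Φ (T/w)`,
`Sout = Ψ (T/w)` with `Φ x = ∫ t in 0..x, b0 t ^ 2`, `Ψ x = ∫ t in 0..x, b0' t ^ 2` (smooth by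
`contDiff_infty_iff_deriv`, bounded since the integrands are compactly supported, `Ψ = 0` on
`[-1, 1]`, while `b, d1 b, d2 b, d2 (d2 b)` vanish for `w ≤ |T|`).
Key integral lemma: for continuous `p` vanishing outside `[-4, 4]` and `g ∈ S` with
`g u = p (u.1/w) * (cc i σ u.2)²`, `I g = w ℓ (∫ p) (∫ (c⁽ⁱ⁾)²) ∑ σ²` (the translates have disjoint
supports so the square of the sum is the sum of squares pointwise; `Cs.I_eq`, `integral_prod_mul`,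
`integral_comp_div`/`integral_sub_right_eq_self`). With `Σ = ∑ σ²`: `w I (b²) ≲ s⁸ Σ`,
`w I ((d1 b)²) ≲ s² Σ`, `w I ((d2 b)²) ≲ s⁴ Σ`, `w I ((d2 d2 b)²) ≲ Σ`, `w I (ψ²) ≲ Σ`,
`w I (g2²) ≲ Σ`, `w³ I (g3²) ≲ s² Σ`, and `-(j c3) (d2 d2 b) ψ ≥ B0⁻¹ b0 (2T/w) (γ'')²` pointwise
gives the lower bound `w I ≥ κ Σ / B0`, `κ > 0`; the other three terms are absorbed for small `s`
by `|j c b ψ| ≤ B0² (b²/s + s ψ²)/2` (each of `w I (b²)/s`, .. is `≲ s Σ`).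
`Sm`: `β σ = ∑ k, σ k * Φ₀ (p_k + L u)`, `Φ₀ u = b0 (2 u.1) c u.2`, `‖L‖ ≤ s⁻³`: use `exists_Sm`,
`Sm.comp_affine`, `Sm.smul`, `Sm.sum` (take `s1 ≤ 1`). -/

open scoped ContDiff
open MeasureTheory Set

namespace Vale.Agent.P229

theorem src_sc_deriv {p p' : ℝ → ℝ} (hp : ∀ x, HasDerivAt p (p' x) x) (a x : ℝ) :
    HasDerivAt (fun x => p (x / a)) (a⁻¹ * p' (x / a)) x :=
  HasDerivAt.congr_deriv ((hp (x / a)).comp x ((hasDerivAt_id x).div_const a)) (by ring)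

theorem src_sc_ge {a x c : ℝ} (ha : 0 < a) (h : c * a ≤ |x|) : c ≤ |x / a| := by
  rwa [abs_div, abs_of_pos ha, le_div_iff₀ ha]

theorem src_sc_le {a x c : ℝ} (ha : 0 < a) (h : |x| ≤ c * a) : |x / a| ≤ c := by
  rwa [abs_div, abs_of_pos ha, div_le_iff₀ ha]

theorem src_num_det {B0 B K κ s w φ i0 i1 i2 i3 i4 J : ℝ} (hB0 : 1 ≤ B0) (hκ : 0 < κ)
    (hs : 0 < s) (hw : 0 < w) (hφ : 0 ≤ φ) (hB : 2 * B0 / κ ≤ B)
    (hs1 : s ≤ κ / (2 * B0 * (6 * B0 ^ 2 * K + 1))) (hK : 0 ≤ K) (h0 : w * i0 ≤ K * s ^ 2 * φ)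
    (h1 : w * i1 ≤ K * s ^ 2 * φ) (h2 : w * i2 ≤ K * s ^ 2 * φ) (h3 : κ * φ ≤ w * i3)
    (h4 : w * i4 ≤ K * φ) (hJ : 1 / B0 * i3 - B0 ^ 2 * (s⁻¹ * (i0 + i1 + i2) + 3 * s * i4) ≤ J) :
    φ ≤ B * w * J := by
  have p0 : 0 < B0 := by linarith
  have a1 : s⁻¹ * (w * i0 + w * i1 + w * i2) ≤ s⁻¹ * (3 * K * s ^ 2 * φ) :=
    mul_le_mul_of_nonneg_left (by linarith) (by positivity)
  have a2 : s⁻¹ * (3 * K * s ^ 2 * φ) = 3 * s * (K * φ) := by field_simp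
  have a3 : 3 * s * (w * i4) ≤ 3 * s * (K * φ) := mul_le_mul_of_nonneg_left h4 (by positivity)
  have a4 : B0 ^ 2 * (s⁻¹ * (w * i0 + w * i1 + w * i2) + 3 * s * (w * i4)) ≤
      B0 ^ 2 * (6 * s * (K * φ)) := mul_le_mul_of_nonneg_left (by linarith) (by positivity)
  have a5 : 1 / B0 * (κ * φ) ≤ 1 / B0 * (w * i3) := mul_le_mul_of_nonneg_left h3 (by positivity)
  have a6 := mul_le_mul_of_nonneg_left hJ hw.le
  rw [le_div_iff₀ (by positivity)] at hs1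
  have a7 : s * (6 * B0 ^ 2 * K) ≤ κ / (2 * B0) := by
    rw [le_div_iff₀ (by positivity)]
    have : 0 ≤ s * B0 := by positivity
    nlinarith
  have a8 := mul_le_mul_of_nonneg_right a7 hφ
  have a9 : κ / (2 * B0) * φ ≤ w * J := by
    have e : 1 / B0 * (κ * φ) = 2 * (κ / (2 * B0) * φ) := by field_simp
    nlinarith
  have b1 : 0 ≤ κ / (2 * B0) * φ := by positivity
  calc φ = 2 * B0 / κ * (κ / (2 * B0) * φ) := by field_simp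
    _ ≤ B * (w * J) := mul_le_mul hB a9 b1 (le_trans (by positivity) hB)
    _ = _ := by ring

theorem src_Sm {b0 c : ℝ → ℝ} {N : ℕ} {M s : ℝ} (hM : Sm N M fun u => b0 (2 * u.1) * c u.2)
    (hs : 0 < s) (hs1 : s ≤ 1) (t : ℝ) :
    Sm N (M / s ^ (3 * N)) fun u => b0 (u.1 / (s ^ 3 / 2)) * c ((u.2 - t) / s ^ 2) := by
  have h1 : 1 ≤ (s ^ 3)⁻¹ := (one_le_inv₀ (by positivity)).mpr (pow_le_one₀ hs.le hs1)
  have h2 : (s ^ 2)⁻¹ ≤ (s ^ 3)⁻¹ :=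
    inv_anti₀ (by positivity) (pow_le_pow_of_le_one hs.le hs1 (by norm_num))
  have h := hM.comp_affine (0, -t / s ^ 2)
    (((s ^ 3)⁻¹ • ContinuousLinearMap.fst ℝ ℝ ℝ).prod ((s ^ 2)⁻¹ • ContinuousLinearMap.snd ℝ ℝ ℝ))
    h1 (ContinuousLinearMap.opNorm_le_bound _ (by positivity) fun u => ?_)
  · rw [inv_pow, ← pow_mul, ← div_eq_mul_inv] at h
    convert h using 3 with u u
    · simp
      field_simp
    · simp
      field_simp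
      ring_nf
  · rw [Prod.norm_def]
    simp only [ContinuousLinearMap.prod_apply, smul_apply,
      ContinuousLinearMap.coe_fst', ContinuousLinearMap.coe_snd', norm_smul, Real.norm_eq_abs]
    rw [abs_of_pos (by positivity), abs_of_pos (show 0 < (s ^ 2)⁻¹ by positivity)]
    exact max_le (mul_le_mul_of_nonneg_left (norm_fst_le u) (by positivity))
      (mul_le_mul h2 (norm_snd_le u) (abs_nonneg _) (by positivity))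

/-- the horizontal profiles -/
structure SrcBump (b0 b1 Φ Ψ : ℝ → ℝ) : Prop where
  hb : ContDiff ℝ ∞ b0
  hb1 : ContDiff ℝ ∞ b1
  hΦ : ContDiff ℝ ∞ Φ
  hΨ : ContDiff ℝ ∞ Ψ
  hbd : ∀ x, HasDerivAt b0 (b1 x) x
  hΦd : ∀ x, HasDerivAt Φ (b0 x ^ 2) x
  hΨd : ∀ x, HasDerivAt Ψ (b1 x ^ 2) x
  b0n : ∀ x, 0 ≤ b0 x
  b01 : ∀ x, b0 x ≤ 1
  bone : ∀ x, |x| ≤ 1 → b0 x = 1
  bzero : ∀ x, 2 ≤ |x| → b0 x = 0
  b1out : ∀ x, 2 ≤ |x| → b1 x = 0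
  hΦb : ∀ x, |Φ x| ≤ ∫ x, b0 x ^ 2
  hΨb : ∀ x, |Ψ x| ≤ ∫ x, b1 x ^ 2
  hΨ0 : ∀ x, |x| ≤ 1 → Ψ x = 0
  pos : 0 < ∫ x, b0 x ^ 2

theorem exists_srcBump : ∃ b0 b1 Φ Ψ, SrcBump b0 b1 Φ Ψ := by
  obtain ⟨b0, hb, b0n, b01, bone, bzero⟩ := src_bump
  obtain ⟨b1, hb1, hbd⟩ : ∃ b1 : ℝ → ℝ, ContDiff ℝ ∞ b1 ∧ ∀ x, HasDerivAt b0 (b1 x) x :=
    ⟨deriv b0, contDiff_deriv hb, fun x => (hb.differentiable (by simp) x).hasDerivAt⟩
  have b1in : ∀ x, |x| ≤ 1 → b1 x = 0 := fun x hx =>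
    IsLocalMax.hasDerivAt_eq_zero (Filter.Eventually.of_forall fun y => by
      rw [bone x hx]; exact b01 y) (hbd x)
  have b1out : ∀ x, 2 ≤ |x| → b1 x = 0 := fun x hx =>
    IsLocalMin.hasDerivAt_eq_zero (Filter.Eventually.of_forall fun y => by
      rw [bzero x hx]; exact b0n y) (hbd x)
  have i0 : Integrable fun x => b0 x ^ 2 :=
    src_int (hb.continuous.pow 2) fun x hx => by simp [bzero x hx]
  have i1 : Integrable fun x => b1 x ^ 2 :=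
    src_int (hb1.continuous.pow 2) fun x hx => by simp [b1out x hx]
  obtain ⟨Φ, hΦ, hΦd, hΦb, -⟩ := src_prim (hb.pow 2) i0 fun x => sq_nonneg _
  obtain ⟨Ψ, hΨ, hΨd, hΨb, hΨ0⟩ := src_prim (hb1.pow 2) i1 fun x => sq_nonneg _
  exact ⟨b0, b1, Φ, Ψ, hb, hb1, hΦ, hΨ, hbd, hΦd, hΨd, b0n, b01, bone, bzero, b1out, hΦb, hΨb,
    hΨ0 fun x hx => by simp [b1in x hx],
    integral_pos_of_integrable_nonneg_nonzero (x := 0) (hb.continuous.pow 2) i0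
      (fun x => sq_nonneg _) (by simp [bone 0 (by simp)])⟩

theorem src_nums {s a0 a1 m0 m1 m2 m3 K φ : ℝ} (hs : 0 < s) (hs1 : s ≤ 1) (hφ : 0 ≤ φ)
    (hK : 0 ≤ K) (k0 : 2 * a0 * m0 ≤ K) (k1 : 2 * a0 * m1 ≤ K) (k2 : 2 * a0 * m2 ≤ K)
    (k3 : 2 * a0 * m3 ≤ K) (k4 : 2 * a1 * m0 ≤ K) :
    s ^ 3 * (s ^ 3 / 2 * a0 * (((s ^ 2)⁻¹ ^ 0) ^ 2 * s ^ 2 * m0 * φ)) ≤ K * s ^ 2 * φ ∧
    s ^ 3 * (s ^ 3 / 2 * ((s ^ 3 / 2)⁻¹ ^ 2 * a1) * (((s ^ 2)⁻¹ ^ 0) ^ 2 * s ^ 2 * m0 * φ)) ≤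
      K * s ^ 2 * φ ∧
    s ^ 3 * (s ^ 3 / 2 * a0 * (((s ^ 2)⁻¹ ^ 1) ^ 2 * s ^ 2 * m1 * φ)) ≤ K * s ^ 2 * φ ∧
    s ^ 3 * (s ^ 3 / 2 * a0 * (((s ^ 2)⁻¹ ^ 2) ^ 2 * s ^ 2 * m2 * φ)) = a0 * m2 / 2 * φ ∧
    a0 * m2 / 2 * φ ≤ K * φ ∧
    s ^ 3 * (s ^ 3 * a0 * (((s ^ 2)⁻¹ ^ 2) ^ 2 * s ^ 2 * m2 * φ)) ≤ K * φ ∧
    s ^ 3 * (2 * s ^ 3 * a0 * (((s ^ 2)⁻¹ ^ 2) ^ 2 * s ^ 2 * m2 * φ)) ≤ K * φ ∧
    (s ^ 3) ^ 3 * (2 * s ^ 3 * a0 * (((s ^ 2)⁻¹ ^ 3) ^ 2 * s ^ 2 * m3 * φ)) ≤ K * s ^ 2 * φ := by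
  have p6 := pow_le_one₀ (n := 6) hs.le hs1
  have p2 := pow_le_one₀ (n := 2) hs.le hs1
  refine ⟨?_, ?_, ?_, ?_, ?_, ?_, ?_, ?_⟩
  · have h1 : 2 * a0 * m0 * (s ^ 6 / 4) ≤ K * 1 := mul_le_mul k0 (by linarith) (by positivity) hK
    calc _ = 2 * a0 * m0 * (s ^ 6 / 4) * s ^ 2 * φ := by ring
      _ ≤ _ := by gcongr; linarith
  · calc _ = 2 * a1 * m0 * s ^ 2 * φ := by field_simp
      _ ≤ _ := by gcongr
  · have h1 : 2 * a0 * m1 * (s ^ 2 / 4) ≤ K * 1 := mul_le_mul k1 (by linarith) (by positivity) hK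
    calc _ = 2 * a0 * m1 * (s ^ 2 / 4) * s ^ 2 * φ := by field_simp; ring
      _ ≤ _ := by gcongr; linarith
  · field_simp
  · gcongr
    linarith
  · calc _ = a0 * m2 * φ := by field_simp
      _ ≤ _ := by gcongr; linarith
  · calc _ = 2 * a0 * m2 * φ := by field_simp
      _ ≤ _ := by gcongr
  · calc _ = 2 * a0 * m3 * s ^ 2 * φ := by field_simp
      _ ≤ _ := by gcongr

theorem src_core {b0 b1 Φ Ψ : ℝ → ℝ} (H : SrcBump b0 b1 Φ Ψ) {γ : ℕ → ℝ → ℝ} {m : ℕ → ℝ}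
    {B0 B K h s φ : ℝ} (hγ : ∀ i, ContDiff ℝ ∞ (γ i))
    (hγd : ∀ i y, HasDerivAt (γ i) (γ (i + 1) y) y) (hγ0 : ∀ i y, h ≤ |y| → γ i y = 0)
    (hγI : ∀ i, ∫ y, γ i y ^ 2 = ((s ^ 2)⁻¹ ^ i) ^ 2 * s ^ 2 * m i * φ) (hB0 : 1 ≤ B0)
    (hs : 0 < s) (hs2 : s ≤ 1) (hh : h ≤ 1) (h4 : 4 * s ^ 3 ≤ h) (hφ : 0 ≤ φ) (hK0 : 0 ≤ K)
    (hKa : ∀ i ≤ 3, 2 * (∫ x, b0 x ^ 2) * m i ≤ K) (hKb : 2 * (∫ x, b1 x ^ 2) * m 0 ≤ K)
    (hm2 : 0 < m 2) (hs1 : s ≤ (∫ x, b0 x ^ 2) * m 2 / 2 / (2 * B0 * (6 * B0 ^ 2 * K + 1)))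
    (hB1 : ∫ x, b0 x ^ 2 ≤ B) (hB2 : ∫ x, b1 x ^ 2 ≤ B) (hB3 : 16 * B0 ^ 2 * K ≤ B)
    (hB4 : 2 * B0 / ((∫ x, b0 x ^ 2) * m 2 / 2) ≤ B) {b j c0 c1 c2 c3 : S}
    (pb : IsP b (fun x => b0 (x / (s ^ 3 / 2))) (γ 0)) (hc : Coef B0 j c0 c1 c2 c3) :
    Nonempty (Src B h (s ^ 3) s φ j (c0 * b + c1 * d1 b + c2 * d2 b + c3 * d2 (d2 b))) := by
  have hw : 0 < s ^ 3 := by positivity
  have sc : ∀ {p : ℝ → ℝ}, ContDiff ℝ ∞ p → ∀ a : ℝ, ContDiff ℝ ∞ fun x => p (x / a) :=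
    fun hp a => hp.comp (contDiff_id.div_const a)
  have one' : ∀ y : ℝ, HasDerivAt (fun _ : ℝ => (1 : ℝ)) ((fun _ => 0) y) y :=
    fun y => hasDerivAt_const _ _
  have pb1 := pb.d1 (src_sc_deriv H.hbd _) (hγd 0)
  have pb2 : IsP (d2 b) _ (γ 1) := pb.d2 (src_sc_deriv H.hbd _) (hγd 0)
  have pb3 : IsP (d2 (d2 b)) _ (γ 2) := pb2.d2 (src_sc_deriv H.hbd _) (hγd 1)
  obtain ⟨Sin, pSin⟩ := exists_IsP (sc H.hΦ (s ^ 3)) (contDiff_const (c := (1 : ℝ)))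
  obtain ⟨Sout, pSout⟩ := exists_IsP (sc H.hΨ (s ^ 3)) (contDiff_const (c := (1 : ℝ)))
  obtain ⟨th, pth⟩ := exists_IsP (sc H.hb (s ^ 3)) (contDiff_const (c := (1 : ℝ)))
  obtain ⟨thp, pthp⟩ := exists_IsP (sc H.hb1 (s ^ 3)) (contDiff_const (c := (1 : ℝ)))
  obtain ⟨ψ, pψ⟩ := exists_IsP (sc H.hb (s ^ 3)) (hγ 2)
  obtain ⟨g2, pg2⟩ := exists_IsP (sc H.hb (2 * s ^ 3)) (hγ 2)
  obtain ⟨g3, pg3⟩ := exists_IsP (sc H.hb (2 * s ^ 3)) (hγ 3)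
  have kIf := mul_le_mul_of_nonneg_left (src_If hc b (d1 b) (d2 b) (d2 (d2 b))) hw.le
  have kdet := src_det (by linarith) hs hc b (d1 b) (d2 b) (d2 (d2 b)) ψ fun u => by
    rw [pb3 u, pψ u]
    rcases le_total (s ^ 3) |u.1.1| with h1 | h1
    · have : b0 (u.1.1 / (s ^ 3 / 2)) = 0 := H.bzero _ (src_sc_ge (by positivity) (by linarith))
      simp [this]
    · have : b0 (u.1.1 / s ^ 3) = 1 := H.bone _ (src_sc_le hw (by linarith))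
      simp only [this]
      have k3 := mul_nonneg (mul_nonneg (H.b0n (u.1.1 / (s ^ 3 / 2)))
        (sub_nonneg.mpr (H.b01 (u.1.1 / (s ^ 3 / 2))))) (sq_nonneg (γ 2 u.1.2))
      linarith
  obtain ⟨f, ef⟩ : ∃ f, f = c0 * b + c1 * d1 b + c2 * d2 b + c3 * d2 (d2 b) := ⟨_, rfl⟩
  have fv : ∀ u : Om, f.1 u = c0.1 u * b.1 u + c1.1 u * (d1 b).1 u + c2.1 u * (d2 b).1 u +
      c3.1 u * (d2 (d2 b)).1 u := fun _ => by rw [ef]; rfl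
  rw [← ef] at kIf kdet ⊢
  have fx : ∀ u : Om, s ^ 3 ≤ |u.1.1| → f.1 u = 0 := fun u hu => by
    have h1 : 2 ≤ |u.1.1 / (s ^ 3 / 2)| := src_sc_ge (by positivity) (by linarith)
    rw [fv, pb u, pb1 u, pb2 u, pb3 u]
    simp [H.bzero _ h1, H.b1out _ h1]
  have z0 : ∀ {p : ℝ → ℝ}, (∀ x, 2 ≤ |x| → p x = 0) → ∀ a : ℝ, 0 < a → a ≤ 2 * s ^ 3 →
      ∀ r, h ≤ r → ∀ x, r < |x| → p (x / a) = 0 := fun hp a ha ha2 r hr x hx =>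
    hp _ (src_sc_ge ha (by linarith))
  have zγ : ∀ i r, h ≤ r → ∀ y, r < |y| → γ i y = 0 := fun i r hr y hy =>
    hγ0 i y (by linarith)
  have key : ∀ {g : S} {p : ℝ → ℝ} {a : ℝ} {i : ℕ}, IsP g (fun x => p (x / a)) (γ i) →
      (∀ x, 2 ≤ |x| → p x = 0) → 0 < a → a ≤ 2 * s ^ 3 →
      I (g ^ 2) = a * (∫ x, p x ^ 2) * (((s ^ 2)⁻¹ ^ i) ^ 2 * s ^ 2 * m i * φ) := by
    intro g p a i hg hp ha ha2
    rw [hg.I_sq (z0 hp a ha ha2 1 hh) (zγ i 1 hh), src_scale p ha, hγI]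
  have hw2 : s ^ 3 / 2 ≤ 2 * s ^ 3 := by linarith
  have hw3 : 0 < s ^ 3 / 2 := by positivity
  have q1 := key (p := fun x => (s ^ 3 / 2)⁻¹ * b1 x) pb1
    (fun x hx => by rw [H.b1out x hx, mul_zero]) hw3 hw2
  simp only [mul_pow _ (b1 _), integral_const_mul] at q1
  obtain ⟨r0, r1, r2, q3, r3, r4, r5, r6⟩ := src_nums hs hs2 hφ hK0 (hKa 0 (by norm_num))
    (hKa 1 (by norm_num)) (hKa 2 (by norm_num)) (hKa 3 le_rfl) hKb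
  rw [← key pb H.bzero hw3 hw2] at r0
  rw [← q1] at r1
  rw [← key pb2 H.bzero hw3 hw2] at r2
  rw [← key pb3 H.bzero hw3 hw2] at q3
  rw [← key pψ H.bzero hw (by linarith)] at r4
  rw [← key pg2 H.bzero (by positivity) le_rfl] at r5
  rw [← key pg3 H.bzero (by positivity) le_rfl] at r6
  have hKB : K ≤ B := (le_mul_of_one_le_left hK0 (by nlinarith)).trans hB3
  have half : ∀ x : ℝ, |x / s ^ 3| ≤ 2 → b0 (x / (2 * s ^ 3)) = 1 := fun x hx => by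
    refine H.bone _ (src_sc_le (by positivity) ?_)
    rw [abs_div, abs_of_pos hw, div_le_iff₀ hw] at hx
    linarith
  refine ⟨⟨Sin, Sout, th, thp, ψ, g2, g3, hw, S.ext' fun u => ?_, S.ext' fun u => ?_, fun u => ?_,
    S.ext' fun u => ?_, S.ext' fun u => ?_, fun u => ?_, S.ext' fun u => ?_, S.ext' fun u => ?_,
    fun u hu => ?_, pψ.zero (z0 H.bzero _ hw (by linarith) h le_rfl) (zγ 2 h le_rfl),
    pg2.zero (z0 H.bzero _ (by positivity) le_rfl h le_rfl) (zγ 2 h le_rfl),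
    pg3.zero (z0 H.bzero _ (by positivity) le_rfl h le_rfl) (zγ 3 h le_rfl),
    S.ext' fun u => ?_, S.ext' fun u => ?_, ?_, r5.trans (by gcongr), r6.trans (by gcongr),
    src_num_det hB0 (half_pos (mul_pos H.pos hm2)) hs hw hφ hB4 hs1 hK0 r0 r1 r2 q3.ge r4 kdet⟩⟩
  · rw [pSin.d1 (src_sc_deriv H.hΦd _) one' u]
    show _ = (s ^ 3)⁻¹ * th.1 u ^ 2
    rw [pth u]
    ring
  · rw [pSin.d2 (src_sc_deriv H.hΦd _) one' u]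
    simp
  · rw [pSin u, mul_one]
    exact (H.hΦb _).trans hB1
  · rw [pSout.d1 (src_sc_deriv H.hΨd _) one' u]
    show _ = (s ^ 3)⁻¹ * thp.1 u ^ 2
    rw [pthp u]
    ring
  · rw [pSout.d2 (src_sc_deriv H.hΨd _) one' u]
    simp
  · rw [pSout u, mul_one]
    exact (H.hΨb _).trans hB2
  · show Sout.1 u * f.1 u = 0
    rcases le_total (s ^ 3) |u.1.1| with h1 | h1
    · rw [fx u h1, mul_zero]
    · have : Ψ (u.1.1 / s ^ 3) = 0 := H.hΨ0 _ (src_sc_le hw (by linarith))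
      rw [pSout u]
      simp [this]
  · show th.1 u * f.1 u = f.1 u
    rcases le_total (s ^ 3) |u.1.1| with h1 | h1
    · rw [fx u h1, mul_zero]
    · have : b0 (u.1.1 / s ^ 3) = 1 := H.bone _ (src_sc_le hw (by linarith))
      rw [pth u]
      simp [this]
  · rcases lt_max_iff.1 (hu.trans_eq (Prod.norm_def u.1)) with h1 | h1
    · exact fx u (by rw [Real.norm_eq_abs] at h1; linarith)
    · rw [fv, pb u, pb1 u, pb2 u, pb3 u]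
      simp [zγ _ h le_rfl _ h1]
  · rw [pψ.d1 (src_sc_deriv H.hbd _) (hγd 2) u]
    show _ = (s ^ 3)⁻¹ * (thp.1 u * g2.1 u)
    rw [pthp u, pg2 u]
    rcases le_total 2 |u.1.1 / s ^ 3| with h1 | h1
    · simp [H.b1out _ h1]
    · simp only [half _ h1]
      ring
  · rw [pψ.d2 (src_sc_deriv H.hbd _) (hγd 2) u]
    show _ = th.1 u * g3.1 u
    rw [pth u, pg3 u]
    rcases le_total 2 |u.1.1 / s ^ 3| with h1 | h1
    · simp [H.bzero _ h1]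
    · simp only [half _ h1]
      ring
  · have h2 : K * s ^ 2 * φ ≤ K * 1 * φ := by
      have := pow_le_one₀ (n := 2) hs.le hs2
      gcongr
    have h3 : 4 * B0 ^ 2 * (s ^ 3 * I (b ^ 2) + s ^ 3 * I (d1 b ^ 2) + s ^ 3 * I (d2 b ^ 2) +
        s ^ 3 * I (d2 (d2 b) ^ 2)) ≤ 4 * B0 ^ 2 * (4 * (K * φ)) :=
      mul_le_mul_of_nonneg_left (by linarith) (by positivity)
    have h5 : 16 * B0 ^ 2 * K * φ ≤ B * φ := mul_le_mul_of_nonneg_right hB3 hφ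
    linarith

theorem source (B0 : ℝ) (hB0 : 1 ≤ B0) (N : ℕ) : ∃ B M s1 : ℝ, 1 ≤ B ∧ 0 ≤ M ∧ 0 < s1 ∧
    ∀ (h s : ℝ) (n : ℕ), 0 < s → s ≤ s1 → h ≤ 1 → n * s ^ 2 ≤ h / 2 → 4 * s ^ 3 ≤ h →
    ∃ β : (Fin n → ℝ) →ₗ[ℝ] (ℝ × ℝ → ℝ),
      (∀ (σ : Fin n → ℝ) (τ : ℝ), (∀ k, |σ k| ≤ τ) → Sm N (M * n * τ / s ^ (3 * N)) (β σ)) ∧
      (∀ σ, β σ 0 = 0) ∧ (∀ σ u, 1 ≤ ‖u‖ → β σ u = 0) ∧
      ∀ (σ : Fin n → ℝ) (b j c0 c1 c2 c3 : S), (∀ u : Om, b.1 u = β σ u) →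
        Coef B0 j c0 c1 c2 c3 →
        Nonempty (Src B h (s ^ 3) s (∑ k, σ k ^ 2) j
          (c0 * b + c1 * d1 b + c2 * d2 b + c3 * d2 (d2 b))) := by
  obtain ⟨b0, b1, Φ, Ψ, H⟩ := exists_srcBump
  obtain ⟨C, hC1, hC2, hC3, hm2⟩ := src_profile
  obtain ⟨M, hM⟩ := exists_Sm (φ := fun u : ℝ × ℝ => b0 (2 * u.1) * C 0 u.2) N
    ((H.hb.comp (contDiff_const.mul contDiff_fst)).mul ((hC1 0).comp contDiff_snd))
    (HasCompactSupport.intro (isCompact_closedBall 0 1) fun u hu => by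
      rw [mem_closedBall_zero_iff, not_le] at hu
      rcases lt_max_iff.1 (hu.trans_eq (Prod.norm_def u)) with h1 | h1
      · rw [H.bzero _ (by rw [abs_mul, abs_two]; rw [Real.norm_eq_abs] at h1; linarith), zero_mul]
      · rw [hC3 0 u.2 fun h2 => ?_, mul_zero]
        rw [Real.norm_eq_abs, abs_of_nonneg (by linarith [h2.1])] at h1
        linarith [h2.2])
  have ha0 := H.pos
  have ha1 : 0 ≤ ∫ x, b1 x ^ 2 := integral_nonneg fun x => sq_nonneg _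
  obtain ⟨m, em⟩ : ∃ m : ℕ → ℝ, ∀ i, ∫ t, C i t ^ 2 = m i := ⟨_, fun _ => rfl⟩
  have hm : ∀ i, 0 ≤ m i := fun i => em i ▸ integral_nonneg fun x => sq_nonneg _
  rw [em] at hm2
  obtain ⟨K, hK0, hKa, hKb⟩ : ∃ K : ℝ, 0 ≤ K ∧ (∀ i ≤ 3, 2 * (∫ x, b0 x ^ 2) * m i ≤ K) ∧
      2 * (∫ x, b1 x ^ 2) * m 0 ≤ K := by
    have := hm 0
    have := hm 1
    have := hm 2
    have := hm 3
    refine ⟨2 * (∫ x, b0 x ^ 2) * (m 0 + m 1 + m 2 + m 3) + 2 * (∫ x, b1 x ^ 2) * m 0,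
      by positivity, fun i hi => ?_, le_add_of_nonneg_left (by positivity)⟩
    refine le_add_of_le_of_nonneg (mul_le_mul_of_nonneg_left ?_ (by positivity)) (by positivity)
    interval_cases i <;> linarith
  have hB2 : 0 ≤ 16 * B0 ^ 2 * K := by positivity
  have hB3 : 0 ≤ 2 * B0 / ((∫ x, b0 x ^ 2) * m 2 / 2) := by positivity
  refine ⟨1 + (∫ x, b0 x ^ 2) + (∫ x, b1 x ^ 2) + 16 * B0 ^ 2 * K +
    2 * B0 / ((∫ x, b0 x ^ 2) * m 2 / 2), M,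
    min 1 ((∫ x, b0 x ^ 2) * m 2 / 2 / (2 * B0 * (6 * B0 ^ 2 * K + 1))), by linarith, hM.nonneg,
    lt_min one_pos (by positivity), fun h s n hs hs1 hh hn h4 => ?_⟩
  have hs2 : s ≤ 1 := hs1.trans (min_le_left _ _)
  have hw : 0 < s ^ 3 := by positivity
  have hl : 0 < s ^ 2 := by positivity
  have hγ0 : ∀ (σ : Fin n → ℝ) i y, h ≤ |y| → osc C σ h (s ^ 2) i y = 0 := fun σ i y hy => by
    refine osc_zero σ hC3 hl hn i ?_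
    rcases le_abs.mp hy with h1 | h1
    · exact Or.inr h1
    · exact Or.inl (by linarith)
  let β : (Fin n → ℝ) →ₗ[ℝ] (ℝ × ℝ → ℝ) :=
    { toFun := fun σ u => b0 (u.1 / (s ^ 3 / 2)) * osc C σ h (s ^ 2) 0 u.2
      map_add' := fun σ σ' => by
        funext u
        simp only [osc, Pi.add_apply, add_mul, Finset.sum_add_distrib, mul_add]
      map_smul' := fun c σ => by
        funext u
        simp only [osc, Pi.smul_apply, smul_eq_mul, RingHom.id_apply, mul_assoc,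
          ← Finset.mul_sum]
        ring }
  have hβ : ∀ σ u, β σ u = b0 (u.1 / (s ^ 3 / 2)) * osc C σ h (s ^ 2) 0 u.2 := fun _ _ => rfl
  refine ⟨β, fun σ τ hτ => ?_, fun σ => ?_, fun σ u hu => ?_, fun σ b j c0 c1 c2 c3 hb' hc => ?_⟩
  · have h1 := Sm.sum Finset.univ _ _ fun (k : Fin n) _ =>
      ((src_Sm hM hs hs2 (h / 2 + (k : ℝ) * s ^ 2)).smul (σ k)).mono
        (mul_le_mul_of_nonneg_right (hτ k) (div_nonneg hM.nonneg (by positivity)))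
    convert h1 using 1
    · simp only [Finset.sum_const, Finset.card_univ, Fintype.card_fin, nsmul_eq_mul]
      ring
    · funext u
      simp only [hβ, osc, pow_zero, one_mul, Finset.mul_sum]
      exact Finset.sum_congr rfl fun k _ => by ring
  · rw [hβ, osc_zero σ hC3 hl hn 0 (Or.inl (by simp; linarith)), mul_zero]
  · rw [hβ]
    rcases le_max_iff.1 (hu.trans_eq (Prod.norm_def u)) with h1 | h1
    · rw [H.bzero _ (src_sc_ge (by positivity) (by rw [Real.norm_eq_abs] at h1; linarith)),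
        zero_mul]
    · rw [hγ0 σ 0 _ (hh.trans h1), mul_zero]
  · exact src_core H (osc_contDiff σ hC1) (osc_deriv σ hC2) (hγ0 σ)
      (fun i => by rw [osc_sq σ hC1 hC3 hl, em]) hB0 hs hs2 hh h4
      (Finset.sum_nonneg fun k _ => sq_nonneg _) hK0 hKa hKb hm2 (hs1.trans (min_le_right _ _))
      (by linarith) (by linarith) (by linarith) (by linarith) hb' hc

end Vale.Agent.P229
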