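import Vale.Agent.P229.Geo
import Vale.Agent.P229.Norm
import Vale.Agent.P229.Source
import Vale.Agent.P229.Energy
import Vale.Agent.P229.Entropy
import Vale.Agent.P229.Net
import Vale.Agent.P229.GadA

/-! A small compactly supported perturbation of the flat metric without bounded realisation. -/

namespace Vale.Agent.P229

/-- few normalised maps can have metrics differing by the thin strains -/
theorem family_card (C ε μ : ℝ) (hC : 0 < C) (hε : 0 < ε) (hε1 : ε ≤ 1) (hμ : 0 < μ) (N : ℕ) :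
    ∃ ρ0 : ℝ, 0 < ρ0 ∧ ∀ ρ : ℝ, 0 < ρ → ρ ≤ ρ0 → ∃ (Ms s1 h : ℝ) (c : ℕ), 0 ≤ Ms ∧ 0 < s1 ∧
    0 < h ∧ h ≤ 1 ∧ ∀ (s : ℝ) (n : ℕ), 0 < s → s ≤ s1 → n * s ^ 2 ≤ h / 2 → 4 * s ^ 3 ≤ h →
    ∃ β : (Fin n → ℝ) →ₗ[ℝ] (ℝ × ℝ → ℝ),
      (∀ (σ : Fin n → ℝ) (τ : ℝ), (∀ k, |σ k| ≤ τ) → Sm N (Ms * n * τ / s ^ (3 * N)) (β σ)) ∧
      (∀ σ, β σ 0 = 0) ∧ (∀ σ u, 1 ≤ ‖u‖ → β σ u = 0) ∧
      ∀ (Z : Type) [Fintype Z] (t : Z → Trip) (φ : ℝ) (j : ℕ), 1 ≤ j → (∀ z, Good C ε μ ρ (t z)) →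
        (∀ z z', ((t z).sub (t z')).All (Bk 3 (ρ ^ 3))) → (∀ z z', (t z).F = (t z').F) →
        (∀ z z', (t z).G = (t z').G) →
        (∀ z z', z ≠ z' → ∃ σ : Fin n → ℝ, φ ≤ ∑ k, σ k ^ 2 ∧
          ∀ u : Om, ((t z).E - (t z').E).1 u = β σ u) →
        (c : ℝ) * (j : ℝ) ^ 3 < φ * 2 ^ j → Fintype.card Z ≤ 2 ^ (c * j ^ 5) := by
  obtain ⟨ρ0, hρ0, hg⟩ := geo C ε μ hC hε hε1 hμ
  refine ⟨ρ0, hρ0, fun ρ h0 h1 => ?_⟩
  obtain ⟨B0, H, e0, hB0, hH, hH', he0, hg⟩ := hg ρ h0 h1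
  obtain ⟨K, hK, hcut⟩ := exists_cut
  obtain ⟨B, Ms, s1, hB, hMs, hs1, hs⟩ := source B0 hB0 N
  obtain ⟨A, s0, h0', hA, hs0, hh0, he⟩ := energy K B e0 H hK hcut hB he0 hH hH'
  obtain ⟨c, hc⟩ := count K A (16 * C) hK hcut hA
  refine ⟨Ms, min s0 s1, min h0' 1, c, hMs, by positivity, by positivity, min_le_right _ _,
    fun s n k0 k1 k2 k3 => ?_⟩
  obtain ⟨β, b1, b2, b3, b4⟩ := hs (min h0' 1) s n k0 (k1.trans (min_le_right _ _))
    (min_le_right _ _) k2 k3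
  refine ⟨β, b1, b2, b3, fun Z _ t φ j hj good cl hF hG hE hφ =>
    hc Z (fun z => (t z).Z) φ j hj (fun z z' u => ?_) (fun z z' hz r d χ χ' d0 d1 d2 d3 d4 => ?_) hφ⟩
  · have k : ∀ z, |(t z).Z.1 u| ≤ 8 * C := fun z => by
      have := (Bk.up (k := 0) (a := 0) (by simp [(good z).Z0]) (good z).gr.2.2.2.2.1.le
        (good z).gr.2.2.2.2.2.le).le u
      simpa using this
    exact (abs_sub _ _).trans (by linarith [k z, k z'])
  · obtain ⟨σ, hσ, hb⟩ := hE z z' hz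
    obtain ⟨fr, a, c0, c1, c2, c3, e, e1, e2, hN, hco, pde⟩ :=
      hg _ _ (good z) (good z') (cl z z') (hF z z') (hG z z')
    have := he e _ _ s _ r d fr a _ _ χ χ' e1 e2 hN pde (b4 σ _ _ _ _ _ _ hb hco) k0
      (k1.trans (min_le_left _ _)) (by positivity) (min_le_left _ _) d0 d1 d2 d3 d4
    linarith

theorem rot_strain (θ : ℝ) (A B C A' B' C' δ : S) (hA : A - A' = Real.cos θ ^ 2 • δ)
    (hB : B - B' = (Real.cos θ * Real.sin θ) • δ) (hC : C - C' = Real.sin θ ^ 2 • δ) :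
    rE θ A B C - rE θ A' B' C' = δ ∧ rF θ A B C = rF θ A' B' C' ∧ rG θ A B C = rG θ A' B' C' := by
  have e : cst (Real.sin θ) ^ 2 + cst (Real.cos θ) ^ 2 = 1 := by
    rw [cst, cst, ← map_pow, ← map_pow, ← map_add, Real.sin_sq_add_cos_sq, map_one]
  have e2 : algebraMap ℝ S 2 = 2 := map_ofNat _ 2
  simp only [rE, rF, rG, smul_eq_cst, cst, map_pow, map_mul, map_sub, e2] at *
  generalize algebraMap ℝ S (Real.sin θ) = s at *
  generalize algebraMap ℝ S (Real.cos θ) = c at *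
  refine ⟨?_, ?_, ?_⟩
  · linear_combination c ^ 2 * hA + 2 * c * s * hB + s ^ 2 * hC + (s ^ 2 + c ^ 2 + 1) * δ * e
  · linear_combination c * s * (hC - hA) + (c ^ 2 - s ^ 2) * hB
  · linear_combination s ^ 2 * hA - 2 * c * s * hB + c ^ 2 * hC

theorem sum_sub_single {M : ℕ} (w : Fin M → ℝ) (f g : Fin M → S) (m : Fin M)
    (h : ∀ i, i ≠ m → f i = g i) : ∑ i, w i • f i - ∑ i, w i • g i = w m • (f m - g m) := by
  rw [← Finset.sum_sub_distrib, Finset.sum_eq_single m (fun i _ hi => by rw [h i hi, sub_self])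
    (by simp), smul_sub]

theorem w1 (θ : ℝ) : |Real.cos θ ^ 2| ≤ 1 := by
  rw [abs_of_nonneg (sq_nonneg _)]; exact Real.cos_sq_le_one _

theorem w2 (θ : ℝ) : |Real.cos θ * Real.sin θ| ≤ 1 := by
  rw [abs_mul]; exact mul_le_one₀ (Real.abs_cos_le_one _) (abs_nonneg _) (Real.abs_sin_le_one _)

theorem w3 (θ : ℝ) : |Real.sin θ ^ 2| ≤ 1 := by
  rw [abs_of_nonneg (sq_nonneg _)]; exact Real.sin_sq_le_one _

theorem no_all {C C' ε μ ρ : ℝ} (h0 : 0 < ρ) (h1 : ρ ≤ 1 / 2) {M n b : ℕ} (θ : Fin M → ℝ)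
    (hn : ∀ t : Trip, t.All (Bk 4 C) → t.E.1 o = 1 → t.F.1 o = 0 → t.G.1 o = 1 →
      Bk 3 (ρ ^ 5 / 4) (t.E - lam ε ρ) → Bk 3 (ρ ^ 5 / 4) t.F → Bk 3 (ρ ^ 5 / 4) (t.G - lam ε ρ) →
      ∃ (m : Fin M) (t' : Trip), Good C' ε μ ρ t' ∧
        t'.E = pull (rot ρ (θ m) h0 h1) (rE (θ m) t.E t.F t.G) ∧
        t'.F = pull (rot ρ (θ m) h0 h1) (rF (θ m) t.E t.F t.G) ∧
        t'.G = pull (rot ρ (θ m) h0 h1) (rG (θ m) t.E t.F t.G))
    {X : Type} [Fintype X] (lab : S → X)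
    (hl : ∀ f g : S, Bk 4 C' f → Bk 4 C' g → lab f = lab g → Bk 3 (ρ ^ 3) (f - g))
    (κ : (Fin n → Bool) → Fin M → S)
    (pb : ∀ (w : Fin M → ℝ) (t : Fin M → Fin n → Bool), (∀ m, |w m| ≤ 1) →
      Bk 3 (ρ ^ 5 / 4) (∑ m, w m • κ (t m) m))
    (p0 : ∀ (w : Fin M → ℝ) (t : Fin M → Fin n → Bool), (∑ m, w m • κ (t m) m).1 o = 0)
    (hfam : ∀ (m0 : Fin M) (Z : Type) [Fintype Z] (t : Z → Trip) (v : Z → Fin n → Bool),
      Function.Injective v → (∀ z, Good C' ε μ ρ (t z)) →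
      (∀ z z', ((t z).sub (t z')).All (Bk 3 (ρ ^ 3))) → (∀ z z', (t z).F = (t z').F) →
      (∀ z z', (t z).G = (t z').G) → (∀ z z', (t z).E - (t z').E =
        pull (rot ρ (θ m0) h0 h1) (κ (v z) m0 - κ (v z') m0)) → Fintype.card Z ≤ b)
    (hb : M * Fintype.card (X × X × X × X × X × X) * b < 2 ^ n) :
    ¬ ∀ t : Fin M → Fin n → Bool, ∃ tr : Trip, tr.All (Bk 4 C) ∧
      tr.E = lam ε ρ + ∑ m, Real.cos (θ m) ^ 2 • κ (t m) m ∧
      tr.F = ∑ m, (Real.cos (θ m) * Real.sin (θ m)) • κ (t m) m ∧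
      tr.G = lam ε ρ + ∑ m, Real.sin (θ m) ^ 2 • κ (t m) m := by
  classical
  intro hall
  choose tr tb tE tF tG using hall
  have lo : (lam ε ρ).1 o = 1 := by simp [lam, qq, o_val]
  choose m t' good hE hF hG using fun t => hn (tr t) (tb t)
    (by rw [tE, Subalgebra.coe_add, Pi.add_apply, p0, lo, add_zero]) (by rw [tF, p0])
    (by rw [tG, Subalgebra.coe_add, Pi.add_apply, p0, lo, add_zero])
    (by rw [tE, add_sub_cancel_left]; exact pb _ _ fun _ => w1 _)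
    (by rw [tF]; exact pb _ _ fun _ => w2 _)
    (by rw [tG, add_sub_cancel_left]; exact pb _ _ fun _ => w3 _)
  refine absurd (pigeon m (fun t => (lab (d1 (t' t).P), lab (d2 (t' t).P), lab (d1 (t' t).Y),
    lab (d2 (t' t).Y), lab (d1 (t' t).Z), lab (d2 (t' t).Z))) b fun m0 x t0 => ?_) (not_le.2 hb)
  have key : ∀ z z' : Fin M → Fin n → Bool, m z = m0 → m z' = m0 →
      (∀ i, i ≠ m0 → z i = t0 i) → (∀ i, i ≠ m0 → z' i = t0 i) →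
      (t' z).E - (t' z').E = pull (rot ρ (θ m0) h0 h1) (κ (z m0) m0 - κ (z' m0) m0) ∧
      (t' z).F = (t' z').F ∧ (t' z).G = (t' z').G := by
    intro z z' z1 z2 z3 z4
    have e : ∀ i, i ≠ m0 → κ (z i) i = κ (z' i) i := fun i hi => by rw [z3 i hi, z4 i hi]
    obtain ⟨r1, r2, r3⟩ := rot_strain (θ m0) (tr z).E (tr z).F (tr z).G (tr z').E
      (tr z').F (tr z').G (κ (z m0) m0 - κ (z' m0) m0)
      (by rw [tE, tE, add_sub_add_left_eq_sub]; exact sum_sub_single _ _ _ m0 e)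
      (by rw [tF, tF]; exact sum_sub_single _ _ _ m0 e)
      (by rw [tG, tG, add_sub_add_left_eq_sub]; exact sum_sub_single _ _ _ m0 e)
    rw [hE, hE, hF, hF, hG, hG, z1, z2, ← map_sub, r1, r2, r3]
    exact ⟨rfl, rfl, rfl⟩
  refine hfam m0 _ (fun z => t' z.1) (fun z => z.1 m0) (fun z z' hz => ?_) (fun z => good z.1)
    (fun z z' => ?_) (fun z z' => (key z.1 z'.1 z.2.1 z'.2.1 z.2.2.2 z'.2.2.2).2.1)
    (fun z z' => (key z.1 z'.1 z.2.1 z'.2.1 z.2.2.2 z'.2.2.2).2.2)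
    fun z z' => (key z.1 z'.1 z.2.1 z'.2.1 z.2.2.2 z'.2.2.2).1
  · refine Subtype.ext (funext fun i => ?_)
    by_cases hi : i = m0
    · subst hi; exact hz
    · rw [z.2.2.2 i hi, z'.2.2.2 i hi]
  · have e := z.2.2.1.trans z'.2.2.1.symm
    simp only [Prod.mk.injEq] at e
    have g : ∀ {f : S}, Gr 4 C' (2 * ρ) f → Bk 4 C' f := fun hf => hf.bk (by positivity) (by linarith)
    obtain ⟨g1, g2, g3, g4, g5, g6⟩ := (good z.1).gr
    obtain ⟨g1', g2', g3', g4', g5', g6'⟩ := (good z'.1).gr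
    simp only [Trip.All, Trip.sub, map_sub]
    exact ⟨hl _ _ (g g1) (g g1') e.1, hl _ _ (g g2) (g g2') e.2.1, hl _ _ (g g3) (g g3') e.2.2.1,
      hl _ _ (g g4) (g g4') e.2.2.2.1, hl _ _ (g g5) (g g5') e.2.2.2.2.1,
      hl _ _ (g g6) (g g6') e.2.2.2.2.2⟩

theorem gadget (C η : ℝ) (hη : 0 < η) (N : ℕ) : ∃ k11 k12 k22 : ℝ × ℝ → ℝ,
    Sm N η k11 ∧ Sm N η k12 ∧ Sm N η k22 ∧
    (∀ u, 6 ≤ ‖u‖ → k11 u = 0 ∧ k12 u = 0 ∧ k22 u = 0) ∧
    ∀ t : Trip, t.All (Bk 4 C) → ¬ ∀ u : Om,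
      t.E.1 u = 1 + k11 u ∧ t.F.1 u = k12 u ∧ t.G.1 u = 1 + k22 u := by
  classical
  obtain ⟨ε, hε, hε1, hb⟩ := exists_back N (η / 2) (by positivity)
  obtain ⟨C', μ, ρ1, hC', hμ, hρ1, hn⟩ := norm_trip C ε hε hε1
  obtain ⟨ρ0, hρ0, hf⟩ := family_card C' ε μ hC' hε hε1 hμ (N + 3)
  obtain ⟨ρ, h0, h1, h2, h3⟩ : ∃ ρ : ℝ, 0 < ρ ∧ ρ ≤ 1 / 2 ∧ ρ ≤ ρ1 ∧ ρ ≤ ρ0 :=
    ⟨min (1 / 2) (min ρ1 ρ0), by positivity, min_le_left _ _,
      (min_le_right _ _).trans (min_le_left _ _), (min_le_right _ _).trans (min_le_right _ _)⟩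
  obtain ⟨k0, s0, z0, l0⟩ := hb ρ (by rw [abs_of_pos h0]; linarith)
  obtain ⟨M, θ, hn⟩ := hn ρ h0 h1 h2
  obtain ⟨Ms, s1, h, c, hMs, hs1, hh, hh1, hf⟩ := hf ρ h0 h3
  obtain ⟨X, _, lab, hl⟩ := exists_label 3 C' (ρ ^ 3) (by positivity)
  obtain ⟨η', hη', η1, η2⟩ : ∃ η' : ℝ, 0 < η' ∧ η' ≤ η / 2 ∧ η' ≤ ρ ^ 5 / 4 :=
    ⟨min (η / 2) (ρ ^ 5 / 4), by positivity, min_le_left _ _, min_le_right _ _⟩
  obtain ⟨a, ha, ha'⟩ : ∃ a : ℝ, 0 < a ∧ M * (Ms * a * (2 / ρ) ^ (N + 3)) ≤ η' := by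
    refine ⟨η' / (M * (Ms * (2 / ρ) ^ (N + 3)) + 1), by positivity, ?_⟩
    rw [show ∀ x y z w : ℝ, x * (y * z * w) = z * (x * (y * w)) from fun _ _ _ _ => by ring,
      div_mul_eq_mul_div, div_le_iff₀ (by positivity)]
    gcongr
    linarith
  obtain ⟨s, n, j, a0, a1, a2, a3, a4, a5, a6⟩ :=
    asym c (M * Fintype.card (X × X × X × X × X × X)) (3 * (N + 3) + 2) a h s1 ha hh hs1
  obtain ⟨β, b1, b2, b3, b4⟩ := hf s n a0 a1 a2 a3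
  choose L L1 L2 L3 using fun m => exists_rotinv ρ (θ m) h0 h1
  obtain ⟨τ, hτ⟩ : ∃ τ, τ = a * s ^ (3 * (N + 3) + 2) := ⟨_, rfl⟩
  have τ0 : 0 < τ := by rw [hτ]; positivity
  rw [← hτ] at a5
  let σ : (Fin n → Bool) → Fin n → ℝ := fun v k => if v k then τ else 0
  have κs : ∀ v m, Sm (N + 3) (Ms * a * (2 / ρ) ^ (N + 3)) fun u => β (σ v) (L m u) := by
    intro v m
    have := (b1 (σ v) τ fun k => by
      simp only [σ]; split_ifs <;> simp [abs_of_pos τ0, τ0.le]).comp_affine 0 (L m)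
      (show 1 ≤ 2 / ρ by rw [le_div_iff₀ h0]; linarith) (L1 m)
    simp only [zero_add] at this
    refine this.mono (mul_le_mul_of_nonneg_right ?_ (by positivity))
    calc _ = Ms * a * (n * s ^ 2) := by rw [hτ]; field_simp; ring
      _ ≤ Ms * a * 1 := by gcongr; linarith
      _ = _ := mul_one _
  let pe : (Fin M → ℝ) → (Fin M → Fin n → Bool) → ℝ × ℝ → ℝ :=
    fun w t u => ∑ m, w m * β (σ (t m)) (L m u)
  have ps : ∀ w t, (∀ m, |w m| ≤ 1) → Sm (N + 3) η' (pe w t) := fun w t hw =>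
    (Sm.sum Finset.univ _ _ fun m _ => ((κs (t m) m).smul (w m)).mono
      (mul_le_of_le_one_left (κs (t m) m).nonneg (hw m))).mono (by simpa using ha')
  have pz : ∀ w t u, 6 ≤ ‖u‖ → pe w t u = 0 := fun w t u hu =>
    Finset.sum_eq_zero fun m _ => by rw [b3 _ _ (by linarith [L3 m u]), mul_zero]
  let κ : (Fin n → Bool) → Fin M → S := fun v m => mk _ (κs v m).1.contDiffOn
  have pb : ∀ (w : Fin M → ℝ) (t : Fin M → Fin n → Bool), (∀ m, |w m| ≤ 1) →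
      Bk 3 (ρ ^ 5 / 4) (∑ m, w m • κ (t m) m) := by
    intro w t hw
    convert (((ps w t hw).of_le (Nat.le_add_left 3 N)).mono η2).bk using 1
    exact S.ext' fun u => by simp [κ, pe]
  have p0 : ∀ (w : Fin M → ℝ) (t : Fin M → Fin n → Bool), (∑ m, w m • κ (t m) m).1 o = 0 :=
    fun w t => by simp [κ, o_val, b2]
  by_contra hcon
  refine no_all h0 h1 θ hn lab hl κ pb p0 (fun m0 Z _ t v hv g cl hF hG hE =>
    b4 Z t (τ ^ 2) j a4 g cl hF hG (fun z z' hz => ⟨σ (v z) - σ (v z'), ?_, fun u => ?_⟩) a5) a6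
    fun t => ?_
  · obtain ⟨k, hk⟩ := Function.ne_iff.1 (hv.ne hz)
    refine le_trans (le_of_eq ?_) (Finset.single_le_sum
      (f := fun k => (σ (v z) - σ (v z')) k ^ 2) (fun _ _ => sq_nonneg _) (Finset.mem_univ k))
    simp only [σ, Pi.sub_apply]
    revert hk
    cases v z k <;> cases v z' k <;> simp
  · rw [hE]
    simp [κ, Aff.map, L2]
  by_contra hno
  have q : ∀ w, (∀ m, |w m| ≤ 1) → Sm N η fun u => k0 u + pe w t u := fun w hw =>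
    (s0.add ((ps w t hw).of_le (Nat.le_add_right N 3))).mono (by linarith)
  refine hcon ⟨_, _, _, q _ fun m => w1 (θ m),
    ((ps _ t fun m => w2 (θ m)).of_le (Nat.le_add_right N 3)).mono (by linarith),
    q _ fun m => w3 (θ m), fun u hu => by simp [z0 u hu, pz _ _ u hu],
    fun tr hb hm => hno ⟨tr, hb, ?_, ?_, ?_⟩⟩
  · exact S.ext' fun u => by simp [(hm u).1, l0, κ, pe, add_assoc]
  · exact S.ext' fun u => by simp [(hm u).2.1, κ, pe]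
  · exact S.ext' fun u => by simp [(hm u).2.2, l0, κ, pe, add_assoc]

end Vale.Agent.P229
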