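import Vale.Agent.P229.GeoB

/-! The equation for the difference of the heights of two close normalised maps. -/

open Filter

namespace Vale.Agent.P229

section

variable {ι : Type} {fr : ι → Frame d1 d2} {k : ℕ} {ν : ι → ℝ} {f : ι → S}

theorem O_Dx (hj : O 2 (fun _ => 1) fun i => (fr i).ji) (h1 : O 2 (fun _ => 1) fun i => d1 (fr i).y)
    (h2 : O 2 (fun _ => 1) fun i => d2 (fr i).y) (hk : k ≤ 2) (h : O (k + 1) ν f) :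
    O k ν fun i => (fr i).Dx (f i) :=
  ((((hj.mul₁ h2).of_le hk).mul₁ h.d1).sub (((hj.mul₁ h1).of_le hk).mul₁ h.d2)).congr
    fun i => (fr i).Dx_apply _

theorem O_Dy (hj : O 2 (fun _ => 1) fun i => (fr i).ji) (h1 : O 2 (fun _ => 1) fun i => d1 (fr i).x)
    (h2 : O 2 (fun _ => 1) fun i => d2 (fr i).x) (hk : k ≤ 2) (h : O (k + 1) ν f) :
    O k ν fun i => (fr i).Dy (f i) :=
  ((((hj.mul₁ h1).of_le hk).mul₁ h.d2).sub (((hj.mul₁ h2).of_le hk).mul₁ h.d1)).congr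
    fun i => (fr i).Dy_apply _

end

theorem stage3 (A : ℝ) (hA : 0 ≤ A) : ∃ A' : ℝ, 1 ≤ A' ∧ ∀ (fr : Frame d1 d2) (P Ji : S),
    Bk 2 A (d1 fr.x) → Bk 2 A (d2 fr.x) → Bk 2 A (d1 fr.y) → Bk 2 A (d2 fr.y) → Bk 0 A fr.ji →
    Bk 2 A Ji → Bk 2 A (d1 P) → Bk 2 A (d2 P) →
    Bk 0 A' fr.j ∧ Bk 0 A' (fr.c0 P (fr.j * Ji)) ∧ Bk 0 A' (fr.c1 P (fr.j * Ji)) ∧
      Bk 0 A' (fr.c2 P (fr.j * Ji)) ∧ Bk 0 A' (fr.c3 (fr.j * Ji)) := by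
  let ι := {x : Frame d1 d2 × S × S // Bk 2 A (d1 x.1.x) ∧ Bk 2 A (d2 x.1.x) ∧
    Bk 2 A (d1 x.1.y) ∧ Bk 2 A (d2 x.1.y) ∧ Bk 0 A x.1.ji ∧ Bk 2 A x.2.2 ∧ Bk 2 A (d1 x.2.1) ∧
    Bk 2 A (d2 x.2.1)}
  let fr : ι → Frame d1 d2 := fun x => x.1.1
  let P : ι → S := fun x => x.1.2.1
  let Ji : ι → S := fun x => x.1.2.2
  have mk : ∀ {k : ℕ} {f : ι → S}, (∀ i, Bk k A (f i)) → O k (fun _ => 1) f := fun h =>
    O.of_Bk A hA (by simpa only [mul_one] using h)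
  have x1 : O 2 (fun _ => 1) fun i => d1 (fr i).x := mk fun i => i.2.1
  have x2 : O 2 (fun _ => 1) fun i => d2 (fr i).x := mk fun i => i.2.2.1
  have y1 : O 2 (fun _ => 1) fun i => d1 (fr i).y := mk fun i => i.2.2.2.1
  have y2 : O 2 (fun _ => 1) fun i => d2 (fr i).y := mk fun i => i.2.2.2.2.1
  have j0 : O 2 (fun _ => 1) fun i => (fr i).j := (x1.mul₁ y2).sub (x2.mul₁ y1)
  have ji : O 2 (fun _ => 1) fun i => (fr i).ji :=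
    j0.inv (fun i => (fr i).j_ji) (mk fun i => i.2.2.2.2.2.1)
  have p : O 2 (fun _ => 1) fun i => (fr i).j * Ji i := j0.mul₁ (mk fun i => i.2.2.2.2.2.2.1)
  have P1 : O 2 (fun _ => 1) fun i => d1 (P i) := mk fun i => i.2.2.2.2.2.2.2.1
  have P2 : O 2 (fun _ => 1) fun i => d2 (P i) := mk fun i => i.2.2.2.2.2.2.2.2
  have al : O 2 (fun _ => 1) fun i => (fr i).al := ji.mul₁ y2
  have be : O 2 (fun _ => 1) fun i => (fr i).be := (ji.mul₁ x2).neg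
  have Dx : ∀ {k : ℕ} {f : ι → S}, k ≤ 2 → O (k + 1) (fun _ => 1) f →
      O k (fun _ => 1) fun i => (fr i).Dx (f i) := fun hk h => O_Dx ji y1 y2 hk h
  have Dy : ∀ {k : ℕ} {f : ι → S}, k ≤ 2 → O (k + 1) (fun _ => 1) f →
      O k (fun _ => 1) fun i => (fr i).Dy (f i) := fun hk h => O_Dy ji x1 x2 hk h
  have EP : O 2 (fun _ => 1) fun i => (fr i).Dy (P i) :=
    (((ji.mul₁ x1).mul₁ P2).sub ((ji.mul₁ x2).mul₁ P1)).congr fun i => (fr i).Dy_apply _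
  have o2 : (1 : ℕ) ≤ 2 := one_le_two
  have z2 : (0 : ℕ) ≤ 2 := Nat.zero_le _
  have s0 : O 1 (fun _ => 1) fun i => (fr i).s0 (P i) ((fr i).j * Ji i) :=
    p.down.mul₁ ((al.down.mul₁ (Dy o2 be)).sub
      ((((O.hf.mul₁ (Dy o2 EP)).mul₁ al.down).mul₁ al.down).mul₁ p.down))
  have aap := ((O.hf.mul₁ al).mul₁ al).mul₁ p
  have s1 : O 1 (fun _ => 1) fun i => (fr i).s1 (P i) ((fr i).j * Ji i) :=
    (s0.sub (Dx o2 (((O.hf.mul₁ p).mul₁ be).mul₁ be))).add ((O.hf.mul₁ p.down).mul₁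
      ((be.down.mul₁ (Dy o2 al)).sub (al.down.mul₁ (Dy o2 be))))
  have s2 : O 1 (fun _ => 1) fun i => (fr i).s2 ((fr i).j * Ji i) :=
    ((Dx o2 ((p.mul₁ al).mul₁ be)).sub (O.two.mul₁ (Dy o2 aap))).add ((O.hf.mul₁ p.down).mul₁
      ((al.down.mul₁ (Dy o2 al)).sub (be.down.mul₁ (Dx o2 al))))
  have c0 : O 0 (fun _ => 1) fun i => (fr i).c0 (P i) ((fr i).j * Ji i) :=
    (Dx z2 s0).sub (Dy z2 (Dy o2 aap))
  have c1 : O 1 (fun _ => 1) fun i => (fr i).c1 (P i) ((fr i).j * Ji i) :=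
    (s1.mul₁ al.down).add (s2.mul₁ be.down)
  have c2 : O 1 (fun _ => 1) fun i => (fr i).c2 (P i) ((fr i).j * Ji i) :=
    ((s2.mul₁ (ji.mul₁ x1).down).sub (s1.mul₁ (ji.mul₁ y1).down)).sub
      (((O.hf.mul₁ p).mul₁ ji).down.mul₁ ji.d2)
  have c3 : O 2 (fun _ => 1) fun i => (fr i).c3 ((fr i).j * Ji i) :=
    (((O.hf.mul₁ p).mul₁ ji).mul₁ ji).neg
  have one : ∀ _ : ι, (0 : ℝ) ≤ 1 := fun _ => zero_le_one
  obtain ⟨A', hA', k0, k1, k2, k3, k4⟩ := ((eventually_ge_atTop (1 : ℝ)).and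
    ((j0.down.down.ev one).and ((c0.ev one).and ((c1.down.ev one).and ((c2.down.ev one).and
      (c3.down.down.ev one)))))).exists
  refine ⟨A', hA', fun fr' P' Ji' a1 a2 a3 a4 a5 a6 a7 a8 => ?_⟩
  let i : ι := ⟨(fr', P', Ji'), a1, a2, a3, a4, a5, a6, a7, a8⟩
  exact ⟨by simpa using k0 i, by simpa using k1 i, by simpa using k2 i, by simpa using k3 i,
    by simpa using k4 i⟩

theorem tl_bound {C ε μ ρ A : ℝ} {m : Trip} {Ji : S} (hε : 0 < ε) (hε1 : ε ≤ 1) (hA : 1 ≤ A)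
    (r4 : ρ ≤ ε / 1000) (hm : Mn C ε μ ρ m) (hJ : m.J * Ji = 1)
    (XT : Bk 3 (A * (ρ * ρ)) (m.X Ji - m.Lam • T)) (u : Om) (hu : ‖u.1‖ ≤ ε / (40 * A)) :
    (d2 (m.X Ji)).1 u ^ 2 ≤ ε * ρ ^ 4 / 100 := by
  have h0 := hm.pos
  have Jo : Ji.1 o = 1 := by
    have := congrArg (fun s : S => s.1 o) hJ
    simpa [Trip.J, hm.P1, hm.P2, hm.Y1, hm.Y2] using this
  have e1 : (d2 (m.X Ji)).1 o = (d2 (d1 m.Z)).1 o := by
    simp [Trip.X, Derivation.leibniz, hm.Z1, hm.Z2, hm.Y1, hm.Y2, Jo]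
  have e2 : Bk 2 (A * (ρ * ρ)) (d2 (m.X Ji)) := by simpa using XT.d2
  have e3 := e2.d1.lip0 e2.d2 u
  have e4 := hm.Z12
  rw [← e1] at e4
  have e5 : 2 * (A * (ρ * ρ)) * ‖u.1‖ ≤ ρ * ρ * (ε / 20) := by
    rw [le_div_iff₀ (by positivity)] at hu
    nlinarith [mul_pos h0 h0]
  have e6 : |(d2 (m.X Ji)).1 u| ≤ ρ * ρ * (ε / 10) := by
    have := abs_sub_abs_le_abs_sub ((d2 (m.X Ji)).1 u) ((d2 (m.X Ji)).1 o)
    nlinarith [mul_pos h0 h0]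
  have := pow_le_pow_left₀ (abs_nonneg _) e6 2
  rw [sq_abs] at this
  nlinarith [mul_pos hε (pow_pos h0 4)]

theorem lo_bound {C B Λ : ℝ} (fr : Frame d1 d2) {Ji : S} (hC : 0 < C) (hB : 8 * C ≤ B)
    (hL : 0 < Λ) (hL2 : Λ ≤ C) (u : Om) (bJ : 1 / 2 ≤ Ji.1 u) :
    1 / B ≤ -(fr.j.1 u * (Λ⁻¹ • fr.c3 (fr.j * Ji)).1 u) := by
  have e1 : fr.j * fr.c3 (fr.j * Ji) = -(hf S * Ji) := by
    simp only [Frame.c3]
    linear_combination (-(hf S * Ji) * (fr.j * fr.ji + 1)) * fr.j_ji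
  have e2 : fr.j.1 u * (fr.c3 (fr.j * Ji)).1 u = -(1 / 2 * Ji.1 u) :=
    congrArg (fun s : S => s.1 u) e1
  show _ ≤ -(fr.j.1 u * (Λ⁻¹ * (fr.c3 (fr.j * Ji)).1 u))
  rw [mul_left_comm, e2]
  have e3 : C⁻¹ ≤ Λ⁻¹ := inv_anti₀ hL hL2
  have e4 : 1 / B ≤ 1 / (8 * C) := one_div_le_one_div_of_le (by positivity) hB
  have e5 : 1 / (8 * C) = C⁻¹ / 8 := by field_simp
  nlinarith [inv_pos.2 hC]

theorem j_near {x y : S} (n1 : ∀ u, |(d1 x).1 u - 1| ≤ 1 / 100) (n2 : ∀ u, |(d2 x).1 u| ≤ 1 / 100)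
    (n3 : ∀ u, |(d1 y).1 u| ≤ 1 / 100) (n4 : ∀ u, |(d2 y).1 u - 1| ≤ 1 / 100) (u : Om) :
    |(d1 x * d2 y - d2 x * d1 y - 1).1 u| ≤ 1 / 2 := by
  show |(d1 x).1 u * (d2 y).1 u - (d2 x).1 u * (d1 y).1 u - 1| ≤ _
  have a1 := abs_le.1 (n1 u)
  have a2 := abs_le.1 (n2 u)
  have a3 := abs_le.1 (n3 u)
  have a4 := abs_le.1 (n4 u)
  rw [abs_le]
  constructor <;> nlinarith

theorem geo_est (C ε μ : ℝ) (hC : 0 < C) (hε : 0 < ε) (hε1 : ε ≤ 1) (hμ : 0 < μ) :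
    ∃ ρ0 : ℝ, 0 < ρ0 ∧ ∀ ρ : ℝ, 0 < ρ → ρ ≤ ρ0 →
    ∃ B H e0 : ℝ, 1 ≤ B ∧ 0 < H ∧ H ≤ 1 / 4 ∧ 0 < e0 ∧ ∀ m : Trip, Mn C ε μ ρ m →
      ∃ (Ji : S) (fr : Frame d1 d2) (e : ℝ), m.J * Ji = 1 ∧ fr.x = m.Lam⁻¹ • m.X Ji ∧
        fr.y = m.Y ∧ e0 ≤ e ∧ e ≤ 1 ∧
        Near e H fr (-(m.Lam⁻¹ ^ 2 • (bri d1 d2 m.E m.F m.G * Ji ^ 4))) ∧
        Coef B fr.j (m.Lam⁻¹ • fr.c0 m.P (fr.j * Ji)) (m.Lam⁻¹ • fr.c1 m.P (fr.j * Ji))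
          (m.Lam⁻¹ • fr.c2 m.P (fr.j * Ji)) (m.Lam⁻¹ • fr.c3 (fr.j * Ji)) := by
  obtain ⟨ρ1, hρ1, s1⟩ := stage1 C ε μ
  obtain ⟨A, hA, s2⟩ := stage2 C ε μ hε hε1 hμ
  obtain ⟨A', hA', s3⟩ := stage3 (A + 2) (by linarith)
  refine ⟨min ρ1 (min μ (ε / (1000 * A))), by positivity, fun ρ h0 hρ => ?_⟩
  have r1 : ρ ≤ ρ1 := hρ.trans (min_le_left _ _)
  have r2 : ρ ≤ μ := hρ.trans ((min_le_right _ _).trans (min_le_left _ _))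
  have r3 : A * ρ ≤ ε / 1000 := by
    have := hρ.trans ((min_le_right _ _).trans (min_le_right _ _))
    rw [le_div_iff₀ (by positivity)] at this
    linarith
  have r4 : ρ ≤ ε / 1000 := by nlinarith
  refine ⟨A' + A' / (μ * ρ) + 8 * C, ε / (40 * A), ε * ρ ^ 2 / (4 * C ^ 2),
    by linarith [show 0 ≤ A' / (μ * ρ) by positivity], by positivity,
    by rw [div_le_iff₀ (by positivity)]; linarith, by positivity, fun m hm => ?_⟩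
  obtain ⟨Ji, hJ, bJ⟩ := s1 ρ m r1 hm
  obtain ⟨XT, xT, yS, k1, k2, k3, ha⟩ := s2 ρ m Ji hm hJ fun u =>
    abs_le.2 ⟨by linarith [(bJ u).1], (bJ u).2⟩
  have hL := hm.Lam_pos hμ
  have hL1 : μ * ρ ≤ m.Lam := hm.Z11
  have hL2 : m.Lam ≤ C * (2 * ρ) := (le_abs_self _).trans (hm.gr.2.2.2.2.1.d1.le o)
  obtain ⟨x, hx⟩ : ∃ x, x = m.Lam⁻¹ • m.X Ji := ⟨_, rfl⟩
  rw [← hx] at xT ha
  have x1 : Bk 2 (A * ρ) (d1 x - 1) := by simpa using xT.d1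
  have x2 : Bk 2 (A * ρ) (d2 x) := by simpa using xT.d2
  have y1 : Bk 2 (A * ρ) (d1 m.Y) := by simpa using yS.d1
  have y2 : Bk 2 (A * ρ) (d2 m.Y - 1) := by simpa using yS.d2
  have n1 : ∀ u, |(d1 x).1 u - 1| ≤ 1 / 100 := fun u => (x1.le u).trans (by linarith)
  have n2 : ∀ u, |(d2 x).1 u| ≤ 1 / 100 := fun u => (x2.le u).trans (by linarith)
  have n3 : ∀ u, |(d1 m.Y).1 u| ≤ 1 / 100 := fun u => (y1.le u).trans (by linarith)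
  have n4 : ∀ u, |(d2 m.Y).1 u - 1| ≤ 1 / 100 := fun u => (y2.le u).trans (by linarith)
  obtain ⟨ji, hj, bj⟩ := exists_inv_near (j_near n1 n2 n3 n4)
  let fr : Frame d1 d2 := ⟨x, m.Y, ji, hj⟩
  have one : Bk 2 1 (1 : S) := Bk.cst 2 (r := 1) (by simp)
  obtain ⟨c, c0, c1, c2, c3⟩ := s3 fr m.P Ji
    (by simpa using (x1.add one).mono (b := A + 2) (by linarith)) (x2.mono (by linarith))
    (y1.mono (by linarith)) (by simpa using (y2.add one).mono (b := A + 2) (by linarith))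
    (fun u => abs_le.2 ⟨by linarith [(bj u).1], by linarith [(bj u).2]⟩)
    (k1.mono (by linarith)) (k2.mono (by linarith)) (k3.mono (by linarith))
  have hLi : m.Lam⁻¹ ≤ (μ * ρ)⁻¹ := inv_anti₀ (by positivity) hL1
  have cb : ∀ f : S, Bk 0 A' f → ∀ u, |(m.Lam⁻¹ • f).1 u| ≤ A' + A' / (μ * ρ) + 8 * C := by
    intro f hf u
    refine ((hf.smul _).le u).trans ?_
    rw [abs_of_pos (inv_pos.2 hL), div_eq_inv_mul]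
    nlinarith
  refine ⟨Ji, fr, m.Lam⁻¹ ^ 2 * (ε * ρ ^ 4), hJ, hx, rfl, ?_, ?_,
    ⟨n1, n2, n3, n4, ?_, hm.Y0, ?_, fun u hu => ?_⟩,
    ⟨fun u => (c u).trans (by linarith [show 0 ≤ A' / (μ * ρ) by positivity]), cb _ c0, cb _ c1,
      cb _ c2, cb _ c3, fun u => lo_bound fr hC (by linarith [show 0 ≤ A' / (μ * ρ) by positivity])
        hL (by nlinarith [hm.le]) u (bJ u).1⟩⟩
  · have : (C * (2 * ρ))⁻¹ ≤ m.Lam⁻¹ := inv_anti₀ hL hL2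
    calc ε * ρ ^ 2 / (4 * C ^ 2) = (C * (2 * ρ))⁻¹ ^ 2 * (ε * ρ ^ 4) := by field_simp; ring
      _ ≤ _ := by gcongr
  · calc m.Lam⁻¹ ^ 2 * (ε * ρ ^ 4) ≤ (μ * ρ)⁻¹ ^ 2 * (1 * ρ ^ 4) := by gcongr
      _ = (ρ / μ) ^ 2 := by field_simp
      _ ≤ 1 := pow_le_one₀ (by positivity) ((div_le_one hμ).2 r2)
  · show x.1 o = 0
    simp [hx, Trip.X, hm.Z1, hm.Z2]
  · have := (ha.smul (m.Lam⁻¹ ^ 2)).mono (b := m.Lam⁻¹ ^ 2 * (ε * ρ ^ 4) / 1000) (by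
      rw [abs_of_nonneg (by positivity), mul_div_assoc]
      gcongr
      nlinarith [pow_pos h0 4])
    rw [smul_sub, smul_neg, smul_smul] at this
    exact this
  · have e7 := tl_bound hε hε1 hA r4 hm hJ XT u hu
    show (d2 x).1 u ^ 2 ≤ _
    rw [hx, Derivation.map_smul]
    show (m.Lam⁻¹ * (d2 (m.X Ji)).1 u) ^ 2 ≤ _
    rw [mul_pow, mul_div_assoc]
    gcongr

theorem strain (D D' : Derivation ℝ S S) (t t' : Trip) {Λ : ℝ} (hL : Λ ≠ 0) :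
    D (t.mean t').P * D' (t.P - t'.P) + D (t.mean t').Y * D' (t.Y - t'.Y) +
      D (Λ⁻¹ • (t.mean t').Z) * D' (Λ • (t.Z - t'.Z)) +
    (D' (t.mean t').P * D (t.P - t'.P) + D' (t.mean t').Y * D (t.Y - t'.Y) +
      D' (Λ⁻¹ • (t.mean t').Z) * D (Λ • (t.Z - t'.Z))) =
    (D t.P * D' t.P + D t.Y * D' t.Y + D t.Z * D' t.Z) -
      (D t'.P * D' t'.P + D t'.Y * D' t'.Y + D t'.Z * D' t'.Z) := by
  have c : cst Λ⁻¹ * cst Λ = 1 := by rw [cst, cst, ← map_mul, inv_mul_cancel₀ hL, map_one]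
  have c' : 2 * cst (1 / 2) = 1 := two_hf
  simp only [Trip.mean, Derivation.map_smul, map_add, map_sub]
  simp only [smul_eq_cst]
  linear_combination (cst (1 / 2) * ((D t.Z + D t'.Z) * (D' t.Z - D' t'.Z) +
    (D' t.Z + D' t'.Z) * (D t.Z - D t'.Z))) * c +
    ((D t.P * D' t.P + D t.Y * D' t.Y + D t.Z * D' t.Z) -
      (D t'.P * D' t'.P + D t'.Y * D' t'.Y + D t'.Z * D' t'.Z)) * c'

theorem geo_pde (t t' : Trip) {Λ : ℝ} (hL : Λ ≠ 0) {Ji : S} (fr : Frame d1 d2)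
    (hJ : (t.mean t').J * Ji = 1) (hx : fr.x = Λ⁻¹ • (t.mean t').X Ji) (hy : fr.y = (t.mean t').Y)
    (hF : t.F = t'.F) (hG : t.G = t'.G) :
    fr.Dy (fr.Dy (t.Z - t'.Z)) - fr.Dx (-(Λ⁻¹ ^ 2 • (bri d1 d2 (t.mean t').E (t.mean t').F
        (t.mean t').G * Ji ^ 4)) * fr.Dx (t.Z - t'.Z)) =
      Λ⁻¹ • fr.c0 (t.mean t').P (fr.j * Ji) * (t.E - t'.E) +
        Λ⁻¹ • fr.c1 (t.mean t').P (fr.j * Ji) * d1 (t.E - t'.E) +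
        Λ⁻¹ • fr.c2 (t.mean t').P (fr.j * Ji) * d2 (t.E - t'.E) +
        Λ⁻¹ • fr.c3 (fr.j * Ji) * d2 (d2 (t.E - t'.E)) := by
  have key := geo_alg d_comm (P := (t.mean t').P) (Y := (t.mean t').Y)
    (Z := Λ⁻¹ • (t.mean t').Z) (V₁ := t.P - t'.P) (V₂ := t.Y - t'.Y) (z := Λ • (t.Z - t'.Z))
    (β := t.E - t'.E) d1_T d2_T hJ fr ?_ hy ?_ ?_ ?_
  · rw [show bri d1 d2 (t.mean t').E (t.mean t').F (t.mean t').G = _ from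
      (egregium d_comm _ _ _).symm]
    have e : ∀ a₁ a₂ a₃ b₁ b₂ b₃ c₁ c₂ c₃ : S, det3 a₁ a₂ (Λ⁻¹ • a₃) b₁ b₂ (Λ⁻¹ • b₃) c₁ c₂
        (Λ⁻¹ • c₃) = Λ⁻¹ • det3 a₁ a₂ a₃ b₁ b₂ b₃ c₁ c₂ c₃ := by
      intros
      simp only [det3, smul_eq_cst]
      ring
    simp only [Derivation.map_smul, e] at key
    have e' : ∀ L N M W : S, -((Λ⁻¹ • L * Λ⁻¹ • N - (Λ⁻¹ • M) ^ 2) * Ji ^ 4) * Λ • W =
        Λ • (-(Λ⁻¹ ^ 2 • ((L * N - M ^ 2) * Ji ^ 4)) * W) := by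
      intros
      simp only [smul_eq_cst, cst, map_pow]
      ring
    rw [e', Derivation.map_smul, ← smul_sub] at key
    have key' := congrArg (fun s : S => Λ⁻¹ • s) key
    simp only [smul_smul, inv_mul_cancel₀ hL, one_smul] at key'
    rw [key']
    simp only [smul_add, smul_mul_assoc]
  · rw [hx, Trip.X, Derivation.map_smul, Derivation.map_smul]
    simp only [smul_eq_cst]
    ring
  · rw [two_mul]
    exact strain d1 d1 t t' hL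
  · exact (strain d1 d2 t t' hL).trans (sub_eq_zero.2 hF)
  · rw [two_mul]
    exact (strain d2 d2 t t' hL).trans (sub_eq_zero.2 hG)

theorem geo (C ε μ : ℝ) (hC : 0 < C) (hε : 0 < ε) (hε1 : ε ≤ 1) (hμ : 0 < μ) :
    ∃ ρ0 : ℝ, 0 < ρ0 ∧ ∀ ρ : ℝ, 0 < ρ → ρ ≤ ρ0 →
    ∃ B H e0 : ℝ, 1 ≤ B ∧ 0 < H ∧ H ≤ 1 / 4 ∧ 0 < e0 ∧ ∀ (t t' : Trip),
      Good C ε μ ρ t → Good C ε μ ρ t' → (t.sub t').All (Bk 3 (ρ ^ 3)) → t.F = t'.F →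
      t.G = t'.G → ∃ (fr : Frame d1 d2) (a c0 c1 c2 c3 : S) (e : ℝ), e0 ≤ e ∧ e ≤ 1 ∧
        Near e H fr a ∧ Coef B fr.j c0 c1 c2 c3 ∧
        fr.Dy (fr.Dy (t.Z - t'.Z)) - fr.Dx (a * fr.Dx (t.Z - t'.Z)) =
          c0 * (t.E - t'.E) + c1 * d1 (t.E - t'.E) + c2 * d2 (t.E - t'.E) +
            c3 * d2 (d2 (t.E - t'.E)) := by
  obtain ⟨ρ0, h0, h⟩ := geo_est C ε μ hC hε hε1 hμ
  refine ⟨min ρ0 (1 / 2), by positivity, fun ρ hρ hρ' => ?_⟩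
  obtain ⟨B, H, e0, hB, hH, hH', he0, h⟩ := h ρ hρ (hρ'.trans (min_le_left _ _))
  refine ⟨B, H, e0, hB, hH, hH', he0, fun t t' g g' cl hF hG => ?_⟩
  have hm := g.mean g' cl hρ (hρ'.trans (min_le_right _ _))
  obtain ⟨Ji, fr, e, hJ, hx, hy, e1, e2, hN, hc⟩ := h _ hm
  exact ⟨fr, _, _, _, _, _, e, e1, e2, hN, hc, geo_pde t t' (hm.Lam_pos hμ).ne' fr hJ hx hy hF hG⟩

end Vale.Agent.P229
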