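import Vale.Agent.P229.Alg

/-! The equation in Legendre coordinates, algebraic part. -/

namespace Vale.Agent.P229

variable {R : Type} [CommRing R] [Algebra ℝ R] {d1 d2 : Derivation ℝ R R}

namespace Frame

variable (fr : Frame d1 d2)

/-- `Dx T` -/
def al : R := fr.ji * d2 fr.y

/-- `Dy T` -/
def be : R := -(fr.ji * d2 fr.x)

/-- auxiliary coefficient -/
noncomputable def s0 (P p : R) : R :=
  p * (fr.al * fr.Dy fr.be - hf R * fr.Dy (fr.Dy P) * fr.al * fr.al * p)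

/-- coefficient of `Dx β` -/
noncomputable def s1 (P p : R) : R :=
  fr.s0 P p - fr.Dx (hf R * p * fr.be * fr.be) +
    hf R * p * (fr.be * fr.Dy fr.al - fr.al * fr.Dy fr.be)

/-- coefficient of `Dy β` -/
noncomputable def s2 (p : R) : R :=
  fr.Dx (p * fr.al * fr.be) - 2 * fr.Dy (hf R * fr.al * fr.al * p) +
    hf R * p * (fr.al * fr.Dy fr.al - fr.be * fr.Dx fr.al)

/-- coefficient of `β` -/
noncomputable def c0 (P p : R) : R :=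
  fr.Dx (fr.s0 P p) - fr.Dy (fr.Dy (hf R * fr.al * fr.al * p))

/-- coefficient of `d1 β` -/
noncomputable def c1 (P p : R) : R := fr.s1 P p * fr.al + fr.s2 p * fr.be

/-- coefficient of `d2 β` -/
noncomputable def c2 (P p : R) : R :=
  fr.s2 p * (fr.ji * d1 fr.x) - fr.s1 P p * (fr.ji * d1 fr.y) - hf R * p * fr.ji * d2 fr.ji

/-- coefficient of `d2 d2 β` -/
noncomputable def c3 (p : R) : R := -(hf R * p * fr.ji * fr.ji)

end Frame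

theorem geo_alg (hc : ∀ f, d1 (d2 f) = d2 (d1 f)) {T P Y Z V₁ V₂ z Ji β : R} (hT1 : d1 T = 1)
    (hT2 : d2 T = 0) (hJ : (d1 P * d2 Y - d2 P * d1 Y) * Ji = 1) (fr : Frame d1 d2)
    (hx : fr.x = (d1 Z * d2 Y - d2 Z * d1 Y) * Ji) (hy : fr.y = Y)
    (h11 : 2 * (d1 P * d1 V₁ + d1 Y * d1 V₂ + d1 Z * d1 z) = β)
    (h12 : d1 P * d2 V₁ + d1 Y * d2 V₂ + d1 Z * d2 z + (d2 P * d1 V₁ + d2 Y * d1 V₂ + d2 Z * d1 z) = 0)
    (h22 : 2 * (d2 P * d2 V₁ + d2 Y * d2 V₂ + d2 Z * d2 z) = 0) :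
    fr.Dy (fr.Dy z) - fr.Dx (-((det3 (d1 (d1 P)) (d1 (d1 Y)) (d1 (d1 Z)) (d1 P) (d1 Y) (d1 Z)
        (d2 P) (d2 Y) (d2 Z) * det3 (d2 (d2 P)) (d2 (d2 Y)) (d2 (d2 Z)) (d1 P) (d1 Y) (d1 Z)
        (d2 P) (d2 Y) (d2 Z) - det3 (d1 (d2 P)) (d1 (d2 Y)) (d1 (d2 Z)) (d1 P) (d1 Y) (d1 Z)
        (d2 P) (d2 Y) (d2 Z) ^ 2) * Ji ^ 4) * fr.Dx z) =
      fr.c0 P (fr.j * Ji) * β + fr.c1 P (fr.j * Ji) * d1 β + fr.c2 P (fr.j * Ji) * d2 β +
        fr.c3 (fr.j * Ji) * d2 (d2 β) := by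
  have hc' := fr.comm hc
  obtain ⟨q, hq⟩ : ∃ q, q = (d1 P * d2 Z - d2 P * d1 Z) * Ji := ⟨_, rfl⟩
  have z1 : d1 Z = fr.x * d1 P + q * d1 Y := by rw [hx, hq]; linear_combination (-d1 Z) * hJ
  have z2 : d2 Z = fr.x * d2 P + q * d2 Y := by rw [hx, hq]; linear_combination (-d2 Z) * hJ
  have DY : fr.Dx Y = 0 := hy ▸ fr.Dx_y
  have EY : fr.Dy Y = 1 := hy ▸ fr.Dy_y
  have DZ : fr.Dx Z = fr.x * fr.Dx P := by
    have : fr.Dx Z = fr.x * fr.Dx P + q * fr.Dx Y := by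
      simp only [Frame.Dx_apply, z1, z2]; ring
    rw [this, DY]; ring
  have EZ : fr.Dy Z = fr.x * fr.Dy P + q := by
    have : fr.Dy Z = fr.x * fr.Dy P + q * fr.Dy Y := by
      simp only [Frame.Dy_apply, z1, z2]; ring
    rw [this, EY]; ring
  have Dq : fr.Dx q = -fr.Dy P := by
    have := hc' Z
    rw [DZ, EZ] at this
    simp only [map_add, Derivation.leibniz, smul_eq_mul, hc', fr.Dx_x, fr.Dy_x] at this
    linear_combination this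
  have hp : fr.Dx P * (fr.j * Ji) = 1 := by
    rw [Frame.Dx_apply, hy]
    linear_combination ((d1 P * d2 Y - d2 P * d1 Y) * Ji) * fr.j_ji + hJ
  have k1 : β * fr.al * fr.al = 2 * (fr.Dx P * (fr.Dx V₁ + fr.x * fr.Dx z)) := by
    have : β * fr.al * fr.al =
        2 * (fr.Dx P * fr.Dx V₁ + fr.Dx Y * fr.Dx V₂ + fr.Dx Z * fr.Dx z) := by
      simp only [Frame.Dx_apply, Frame.al]
      linear_combination (-(fr.ji * d2 fr.y) ^ 2) * h11 +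
        2 * (fr.ji * d2 fr.y) * (fr.ji * d1 fr.y) * h12 - (fr.ji * d1 fr.y) ^ 2 * h22
    rw [this, DY, DZ]; ring
  have k2 : β * fr.be * fr.be =
      2 * (fr.Dy P * fr.Dy V₁ + fr.Dy V₂ + (fr.x * fr.Dy P + q) * fr.Dy z) := by
    have : β * fr.be * fr.be =
        2 * (fr.Dy P * fr.Dy V₁ + fr.Dy Y * fr.Dy V₂ + fr.Dy Z * fr.Dy z) := by
      simp only [Frame.Dy_apply, Frame.be]
      linear_combination (-(fr.ji * d2 fr.x) ^ 2) * h11 +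
        2 * (fr.ji * d2 fr.x) * (fr.ji * d1 fr.x) * h12 - (fr.ji * d1 fr.x) ^ 2 * h22
    rw [this, EY, EZ]; ring
  have k3 : β * fr.al * fr.be = fr.Dx P * fr.Dy V₁ + fr.Dy P * fr.Dx V₁ + fr.Dx V₂ +
      fr.x * fr.Dx P * fr.Dy z + (fr.x * fr.Dy P + q) * fr.Dx z := by
    have : β * fr.al * fr.be = fr.Dx P * fr.Dy V₁ + fr.Dx Y * fr.Dy V₂ + fr.Dx Z * fr.Dy z +
        (fr.Dy P * fr.Dx V₁ + fr.Dy Y * fr.Dx V₂ + fr.Dy Z * fr.Dx z) := by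
      simp only [Frame.Dx_apply, Frame.Dy_apply, Frame.al, Frame.be]
      linear_combination ((fr.ji * d2 fr.y) * (fr.ji * d2 fr.x)) * h11 -
        ((fr.ji * d2 fr.y) * (fr.ji * d1 fr.x) + (fr.ji * d1 fr.y) * (fr.ji * d2 fr.x)) * h12 +
        (fr.ji * d1 fr.y) * (fr.ji * d1 fr.x) * h22
    rw [this, DY, EY, DZ, EZ]; ring
  have hab : fr.Dx fr.be = fr.Dy fr.al := by
    have e1 : fr.Dx T = fr.al := by rw [Frame.Dx_apply, hT1, hT2, Frame.al]; ring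
    have e2 : fr.Dy T = fr.be := by rw [Frame.Dy_apply, hT1, hT2, Frame.be]; ring
    rw [← e1, ← e2, hc']
  have pde := pde_id hc' fr.Dx_x fr.Dy_x Dq hp k1 k2 k3
  rw [source_id hc' hab] at pde
  have lb : ∀ g, fr.al * fr.Dy g - fr.be * fr.Dx g = fr.ji * d2 g := by
    intro g
    simp only [Frame.Dx_apply, Frame.Dy_apply, Frame.al, Frame.be]
    linear_combination (fr.ji * d2 g) * fr.hj
  rw [lb β, lb (fr.ji * d2 β)] at pde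
  have cur : (det3 (d1 (d1 P)) (d1 (d1 Y)) (d1 (d1 Z)) (d1 P) (d1 Y) (d1 Z)
        (d2 P) (d2 Y) (d2 Z) * det3 (d2 (d2 P)) (d2 (d2 Y)) (d2 (d2 Z)) (d1 P) (d1 Y) (d1 Z)
        (d2 P) (d2 Y) (d2 Z) - det3 (d1 (d2 P)) (d1 (d2 Y)) (d1 (d2 Z)) (d1 P) (d1 Y) (d1 Z)
        (d2 P) (d2 Y) (d2 Z) ^ 2) * Ji ^ 4 = fr.Dy q * (fr.j * Ji) := by
    have eL : det3 (d1 (d1 P)) (d1 (d1 Y)) (d1 (d1 Z)) (d1 P) (d1 Y) (d1 Z) (d2 P) (d2 Y) (d2 Z) =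
        (d1 P * d2 Y - d2 P * d1 Y) * (d1 fr.x * d1 P + d1 q * d1 Y) := by
      simp only [z1, z2, det3, map_add, Derivation.leibniz, smul_eq_mul]; ring
    have eN : det3 (d2 (d2 P)) (d2 (d2 Y)) (d2 (d2 Z)) (d1 P) (d1 Y) (d1 Z) (d2 P) (d2 Y) (d2 Z) =
        (d1 P * d2 Y - d2 P * d1 Y) * (d2 fr.x * d2 P + d2 q * d2 Y) := by
      simp only [z1, z2, det3, map_add, Derivation.leibniz, smul_eq_mul]; ring
    have eM : det3 (d1 (d2 P)) (d1 (d2 Y)) (d1 (d2 Z)) (d1 P) (d1 Y) (d1 Z) (d2 P) (d2 Y) (d2 Z) =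
        (d1 P * d2 Y - d2 P * d1 Y) * (d1 fr.x * d2 P + d1 q * d2 Y) := by
      simp only [z1, z2, det3, map_add, Derivation.leibniz, smul_eq_mul]; ring
    have eM' : det3 (d1 (d2 P)) (d1 (d2 Y)) (d1 (d2 Z)) (d1 P) (d1 Y) (d1 Z) (d2 P) (d2 Y) (d2 Z) =
        (d1 P * d2 Y - d2 P * d1 Y) * (d2 fr.x * d1 P + d2 q * d1 Y) := by
      rw [hc P, hc Y, hc Z]
      simp only [z1, z2, det3, map_add, Derivation.leibniz, smul_eq_mul]; ring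
    rw [sq, eL, eN]
    nth_rewrite 1 [eM]
    rw [eM', Frame.Dy_apply]
    linear_combination ((d1 fr.x * d2 q - d2 fr.x * d1 q) * Ji *
      (((d1 P * d2 Y - d2 P * d1 Y) * Ji) ^ 2 + (d1 P * d2 Y - d2 P * d1 Y) * Ji + 1)) * hJ -
      (d1 fr.x * d2 q - d2 fr.x * d1 q) * Ji * fr.j_ji
  rw [cur]
  have e : fr.Dx (-(fr.Dy q * (fr.j * Ji)) * fr.Dx z) = -fr.Dx (fr.Dy q * (fr.j * Ji) * fr.Dx z) := by
    rw [← map_neg, neg_mul]
  rw [e, sub_neg_eq_add, pde, fr.Dx_apply β, fr.Dy_apply β]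
  simp only [Frame.c0, Frame.c1, Frame.c2, Frame.c3, Frame.s0, Frame.s1, Frame.s2,
    d2.leibniz fr.ji, smul_eq_mul]
  simp only [Frame.al, Frame.be]
  ring

end Vale.Agent.P229
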