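import Vale.Agent.P229.Bri
import Vale.Agent.P229.GeoA

/-! Estimates for the Legendre frame of a normalised map. -/

open Filter

namespace Vale.Agent.P229

theorem o_val : (o : Om).1 = 0 := rfl

/-- like `Good`, with a weaker bound for the metric -/
structure Mn (C ε μ ρ : ℝ) (t : Trip) : Prop where
  pos : 0 < ρ
  le : ρ ≤ 1 / 2
  Y0 : t.Y.1 o = 0
  P1 : (d1 t.P).1 o = 1
  P2 : (d2 t.P).1 o = 0
  Y1 : (d1 t.Y).1 o = 0
  Y2 : (d2 t.Y).1 o = 1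
  Z1 : (d1 t.Z).1 o = 0
  Z2 : (d2 t.Z).1 o = 0
  gr : t.All (Gr 4 C (2 * ρ))
  Z11 : μ * ρ ≤ (d1 (d1 t.Z)).1 o
  Z12 : |(d2 (d1 t.Z)).1 o| ≤ ρ ^ 3
  mE : Bk 3 (4 * ρ ^ 5) (t.E - lam (ε * ρ ^ 4) 1)
  mF : Bk 3 (4 * ρ ^ 5) t.F
  mG : Bk 3 (4 * ρ ^ 5) (t.G - lam (ε * ρ ^ 4) 1)

/-- the mean of two maps -/
noncomputable def Trip.mean (t t' : Trip) : Trip :=
  ⟨(1 / 2 : ℝ) • (t.P + t'.P), (1 / 2 : ℝ) • (t.Y + t'.Y), (1 / 2 : ℝ) • (t.Z + t'.Z)⟩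

theorem Good.mean {C ε μ ρ : ℝ} {t t' : Trip} (h : Good C ε μ ρ t) (h' : Good C ε μ ρ t')
    (hc : (t.sub t').All (Bk 3 (ρ ^ 3))) (h0 : 0 < ρ) (h1 : ρ ≤ 1 / 2) :
    Mn C ε μ ρ (t.mean t') := by
  have kg : ∀ (D : Derivation ℝ S S) (f g : S), Gr 4 C (2 * ρ) (D f) → Gr 4 C (2 * ρ) (D g) →
      Gr 4 C (2 * ρ) (D ((1 / 2 : ℝ) • (f + g))) := by
    intro D f g hf hg
    rw [Derivation.map_smul, map_add]
    exact ((hf.add hg).smul _).mono (by positivity) (le_of_eq (by rw [abs_of_pos (by norm_num)]; ring))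
  have km : ∀ a b a₁ b₁ a₂ b₂ a₃ b₃ : S, Bk 3 (ρ ^ 5) a → Bk 3 (ρ ^ 5) b → Bk 3 (ρ ^ 3) a₁ →
      Bk 3 (ρ ^ 3) b₁ → Bk 3 (ρ ^ 3) a₂ → Bk 3 (ρ ^ 3) b₂ → Bk 3 (ρ ^ 3) a₃ → Bk 3 (ρ ^ 3) b₃ →
      Bk 3 (4 * ρ ^ 5) ((1 / 2 : ℝ) • (a + b) - (1 / 4 : ℝ) • (a₁ * b₁ + a₂ * b₂ + a₃ * b₃)) := by
    intro a b a₁ b₁ a₂ b₂ a₃ b₃ ha hb k1 l1 k2 l2 k3 l3
    refine (((ha.add hb).smul _).sub ((((k1.mul l1).add (k2.mul l2)).add (k3.mul l3)).smul _)).mono ?_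
    rw [abs_of_pos (by norm_num), abs_of_pos (by norm_num)]
    have : ρ ^ 6 ≤ ρ ^ 5 / 2 := by nlinarith [pow_pos h0 5]
    nlinarith
  obtain ⟨g1, g2, g3, g4, g5, g6⟩ := h.gr
  obtain ⟨g1', g2', g3', g4', g5', g6'⟩ := h'.gr
  obtain ⟨c1, c2, c3, c4, c5, c6⟩ := hc
  refine ⟨h0, h1, by simp [Trip.mean, h.Y0, h'.Y0], by simp [Trip.mean, h.P1, h'.P1]; norm_num,
    by simp [Trip.mean, h.P2, h'.P2], by simp [Trip.mean, h.Y1, h'.Y1],
    by simp [Trip.mean, h.Y2, h'.Y2]; norm_num, by simp [Trip.mean, h.Z1, h'.Z1],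
    by simp [Trip.mean, h.Z2, h'.Z2], ⟨kg _ _ _ g1 g1', kg _ _ _ g2 g2', kg _ _ _ g3 g3',
      kg _ _ _ g4 g4', kg _ _ _ g5 g5', kg _ _ _ g6 g6'⟩, ?_, ?_, ?_, ?_, ?_⟩
  · have := h.Z11
    have := h'.Z11
    simp [Trip.mean]
    linarith
  · have := abs_le.1 h.Z12
    have := abs_le.1 h'.Z12
    simp only [Trip.mean, Derivation.map_smul, map_add]
    show |1 / 2 * ((d2 (d1 t.Z)).1 o + (d2 (d1 t'.Z)).1 o)| ≤ _
    rw [abs_le]
    constructor <;> linarith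
  · convert km _ _ _ _ _ _ _ _ h.mE h'.mE c1 c1 c3 c3 c5 c5 using 1
    simp only [Trip.mean, Trip.sub, Trip.E, Derivation.map_smul, map_add, map_sub]
    refine S.ext' fun u => ?_
    simp
    ring
  · convert km _ _ _ _ _ _ _ _ h.mF h'.mF c1 c2 c3 c4 c5 c6 using 1
    simp only [Trip.mean, Trip.sub, Trip.F, Derivation.map_smul, map_add, map_sub]
    refine S.ext' fun u => ?_
    simp
    ring
  · convert km _ _ _ _ _ _ _ _ h.mG h'.mG c2 c2 c4 c4 c6 c6 using 1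
    simp only [Trip.mean, Trip.sub, Trip.G, Derivation.map_smul, map_add, map_sub]
    refine S.ext' fun u => ?_
    simp
    ring

theorem O.ev {ι : Type} {k : ℕ} {ν : ι → ℝ} {f : ι → S} (h : O k ν f) (hν : ∀ i, 0 ≤ ν i) :
    ∀ᶠ A in atTop, ∀ i, Bk k (A * ν i) (f i) := by
  obtain ⟨A, -, h⟩ := h
  filter_upwards [eventually_ge_atTop A] with B hB i
  exact (h i).mono (mul_le_mul_of_nonneg_right hB (hν i))

section

variable {ι : Type} {C : ℝ} {ρ : ι → ℝ} {f : ι → S}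

theorem gr_d (h0 : ∀ i, 0 < ρ i) (h1 : ∀ i, ρ i ≤ 1 / 2) (hf : ∀ i, Gr 4 C (2 * ρ i) (f i)) :
    (O 3 ρ fun i => d1 (f i)) ∧ O 3 ρ fun i => d2 (f i) := by
  have k : ∀ i, C * (2 * ρ i) ≤ 2 * |C| * ρ i := fun i => by
    nlinarith [le_abs_self C, h0 i]
  exact ⟨O.of_Bk (2 * |C|) (by positivity) fun i =>
      ((hf i).d1.bk (by linarith [h0 i]) (by linarith [h1 i])).mono (k i),
    O.of_Bk (2 * |C|) (by positivity) fun i =>
      ((hf i).d2.bk (by linarith [h0 i]) (by linarith [h1 i])).mono (k i)⟩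

theorem gr_sub (h0 : ∀ i, 0 < ρ i) (h1 : ∀ i, ρ i ≤ 1 / 2) (hf : ∀ i, Gr 4 C (2 * ρ i) (f i))
    (c : ℝ) (hc : ∀ i, (f i).1 o = c) : O 3 ρ fun i => f i - cst c :=
  (O.up 0 le_rfl (fun i => by simp [hc i]) ((gr_d h0 h1 hf).1.congr fun i => by simp)
    ((gr_d h0 h1 hf).2.congr fun i => by simp) fun i => (h0 i).le).down

theorem gr_one (h0 : ∀ i, 0 < ρ i) (h1 : ∀ i, ρ i ≤ 1 / 2) (hf : ∀ i, Gr 4 C (2 * ρ i) (f i))
    (hc : ∀ i, (f i).1 o = 1) : O 3 ρ fun i => f i - 1 := by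
  simpa [cst] using gr_sub h0 h1 hf 1 hc

theorem gr_zero (h0 : ∀ i, 0 < ρ i) (h1 : ∀ i, ρ i ≤ 1 / 2) (hf : ∀ i, Gr 4 C (2 * ρ i) (f i))
    (hc : ∀ i, (f i).1 o = 0) : O 3 ρ f := by
  simpa [cst] using gr_sub h0 h1 hf 0 hc

/-- first order Taylor expansion -/
theorem gr_taylor (h0 : ∀ i, 0 < ρ i) (h1 : ∀ i, ρ i ≤ 1 / 2) (hf : ∀ i, Gr 4 C (2 * ρ i) (f i))
    (hc : ∀ i, (f i).1 o = 0) (h2 : ∀ i, |(d2 (f i)).1 o| ≤ ρ i * ρ i) :
    O 3 (fun i => ρ i * ρ i) fun i => f i - (d1 (f i)).1 o • T := by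
  have hν : ∀ i, 0 ≤ ρ i * ρ i := fun i => mul_self_nonneg _
  have k : ∀ g : ι → S, (∀ i, Gr 2 (C * (2 * ρ i) * (2 * ρ i)) (2 * ρ i) (g i)) →
      O 1 (fun i => ρ i * ρ i) g := fun g hg =>
    (O.of_Bk (4 * |C|) (by positivity) fun i =>
      ((hg i).bk (by linarith [h0 i]) (by linarith [h1 i])).mono
        (by nlinarith [le_abs_self C, hν i])).down
  refine O.up 0 le_rfl (fun i => by simp [hc i, o_val]) ?_ ?_ hν
  · exact O.up 0 le_rfl (fun i => by simp) ((k _ fun i => (hf i).d1.d1).congr fun i => by simp)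
      ((k _ fun i => (hf i).d1.d2).congr fun i => by simp) hν
  · exact O.up 1 zero_le_one (fun i => by simpa using h2 i)
      ((k _ fun i => (hf i).d2.d1).congr fun i => by simp)
      ((k _ fun i => (hf i).d2.d2).congr fun i => by simp) hν

end

/-- the Jacobian of the projection -/
noncomputable def Trip.J (m : Trip) : S := d1 m.P * d2 m.Y - d2 m.P * d1 m.Y

theorem O_J {ι : Type} {C ε μ : ℝ} {ρ : ι → ℝ} {m : ι → Trip} (hm : ∀ i, Mn C ε μ (ρ i) (m i)) :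
    O 3 ρ fun i => (m i).J - 1 := by
  have h0 := fun i => (hm i).pos
  have h1 := fun i => (hm i).le
  have h2 : ∀ i, ρ i ≤ 1 := fun i => by linarith [h1 i]
  have P1 := gr_one h0 h1 (fun i => (hm i).gr.1) fun i => (hm i).P1
  have P2 := gr_zero h0 h1 (fun i => (hm i).gr.2.1) fun i => (hm i).P2
  have Y1 := gr_zero h0 h1 (fun i => (hm i).gr.2.2.1) fun i => (hm i).Y1
  have Y2 := gr_one h0 h1 (fun i => (hm i).gr.2.2.2.1) fun i => (hm i).Y2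
  exact ((((P1.mul₂ (Y2.le h2)).add P1).add Y2).sub (P2.mul₂ (Y1.le h2))).congr fun i => by
    simp only [Trip.J]; ring

theorem exists_inv_near {f : S} (h : ∀ u, |(f - 1).1 u| ≤ 1 / 2) :
    ∃ g : S, f * g = 1 ∧ ∀ u, 1 / 2 ≤ g.1 u ∧ g.1 u ≤ 2 := by
  have k : ∀ u, 1 / 2 ≤ f.1 u ∧ f.1 u ≤ 3 / 2 := fun u => by
    have := abs_le.1 (h u)
    simp only [Subalgebra.coe_sub, Pi.sub_apply, OneMemClass.coe_one, Pi.one_apply] at this
    constructor <;> linarith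
  obtain ⟨g, hg⟩ := exists_inv f fun u => by linarith [(k u).1]
  refine ⟨g, hg, fun u => ?_⟩
  have e : f.1 u * g.1 u = 1 := congrArg (fun s : S => s.1 u) hg
  have := k u
  have p : 0 < g.1 u := by
    by_contra hn
    nlinarith
  constructor <;> nlinarith

theorem stage1 (C ε μ : ℝ) : ∃ ρ1 : ℝ, 0 < ρ1 ∧ ∀ (ρ : ℝ) (m : Trip), ρ ≤ ρ1 → Mn C ε μ ρ m →
    ∃ Ji : S, m.J * Ji = 1 ∧ ∀ u, 1 / 2 ≤ Ji.1 u ∧ Ji.1 u ≤ 2 := by
  obtain ⟨A, hA, h⟩ := O_J (ι := {x : ℝ × Trip // Mn C ε μ x.1 x.2}) (ρ := fun x => x.1.1)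
    (m := fun x => x.1.2) fun x => x.2
  refine ⟨1 / (2 * (A + 1)), by positivity, fun ρ m hρ hm => exists_inv_near fun u => ?_⟩
  refine ((h ⟨(ρ, m), hm⟩).le u).trans ?_
  rw [le_div_iff₀ (by positivity)] at hρ
  have := hm.pos
  show A * ρ ≤ _
  nlinarith

/-- the normal curvature in the first direction at the origin -/
noncomputable def Trip.Lam (m : Trip) : ℝ := (d1 (d1 m.Z)).1 o

/-- the slope of the height function -/
noncomputable def Trip.X (m : Trip) (Ji : S) : S := (d1 m.Z * d2 m.Y - d2 m.Z * d1 m.Y) * Ji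

theorem Mn.Lam_pos {C ε μ ρ : ℝ} {m : Trip} (h : Mn C ε μ ρ m) (hμ : 0 < μ) : 0 < m.Lam :=
  (mul_pos hμ h.pos).trans_le h.Z11

theorem stage2 (C ε μ : ℝ) (hε : 0 < ε) (hε1 : ε ≤ 1) (hμ : 0 < μ) : ∃ A : ℝ, 1 ≤ A ∧
    ∀ (ρ : ℝ) (m : Trip) (Ji : S), Mn C ε μ ρ m → m.J * Ji = 1 → (∀ u, |Ji.1 u| ≤ 2) →
      Bk 3 (A * (ρ * ρ)) (m.X Ji - m.Lam • T) ∧ Bk 3 (A * ρ) (m.Lam⁻¹ • m.X Ji - T) ∧
      Bk 3 (A * ρ) (m.Y - Sc) ∧ Bk 2 A Ji ∧ Bk 2 A (d1 m.P) ∧ Bk 2 A (d2 m.P) ∧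
      Bk 1 (A * ρ ^ 5) (-(bri d1 d2 m.E m.F m.G * Ji ^ 4) -
        (ε * ρ ^ 4) • (1 - (m.Lam⁻¹ • m.X Ji) ^ 2 - m.Y ^ 2)) := by
  let ι := {x : ℝ × Trip × S // Mn C ε μ x.1 x.2.1 ∧ x.2.1.J * x.2.2 = 1 ∧ ∀ u, |x.2.2.1 u| ≤ 2}
  let ρ : ι → ℝ := fun x => x.1.1
  let m : ι → Trip := fun x => x.1.2.1
  let Ji : ι → S := fun x => x.1.2.2
  have hm : ∀ i, Mn C ε μ (ρ i) (m i) := fun i => i.2.1
  have hJ : ∀ i, (m i).J * Ji i = 1 := fun i => i.2.2.1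
  have h0 := fun i => (hm i).pos
  have h1 := fun i => (hm i).le
  have h2 : ∀ i, ρ i ≤ 1 := fun i => by linarith [h1 i]
  have P1 := gr_one h0 h1 (fun i => (hm i).gr.1) fun i => (hm i).P1
  have P2 := gr_zero h0 h1 (fun i => (hm i).gr.2.1) fun i => (hm i).P2
  have Y1 := gr_zero h0 h1 (fun i => (hm i).gr.2.2.1) fun i => (hm i).Y1
  have Y2 := gr_one h0 h1 (fun i => (hm i).gr.2.2.2.1) fun i => (hm i).Y2
  have Z1 := gr_zero h0 h1 (fun i => (hm i).gr.2.2.2.2.1) fun i => (hm i).Z1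
  have Z2 := gr_zero h0 h1 (fun i => (hm i).gr.2.2.2.2.2) fun i => (hm i).Z2
  have J1 := O_J hm
  have J0 : O 3 (fun _ => 1) fun i => (m i).J := ((J1.le h2).add O.one).congr fun i => by ring
  have Ji0 : O 3 (fun _ => 1) Ji :=
    J0.inv hJ (O.of_Bk 2 zero_le_two fun i u => by simpa using i.2.2.2 u)
  have Ji1 : O 3 ρ fun i => Ji i - 1 := (Ji0.mul₁ J1).neg.congr fun i => by
    linear_combination hJ i
  have ZT := gr_taylor h0 h1 (fun i => (hm i).gr.2.2.2.2.1) (fun i => (hm i).Z1) fun i =>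
    (hm i).Z12.trans (by nlinarith [h0 i, h2 i, mul_pos (h0 i) (h0 i)])
  have XT : O 3 (fun i => ρ i * ρ i) fun i => (m i).X (Ji i) - (m i).Lam • T :=
    ((ZT.add (Z1.mul ((Y2.mul₂ Ji0).add Ji1))).sub ((Z2.mul Y1).mul₂ Ji0)).congr fun i => by
      simp only [Trip.X, Trip.Lam]; ring
  have xT : O 3 ρ fun i => (m i).Lam⁻¹ • (m i).X (Ji i) - T := by
    have := XT.smul (ν' := fun i => (ρ i)⁻¹) (fun i => (m i).Lam⁻¹) μ⁻¹ (by positivity) fun i => by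
      rw [abs_of_pos (inv_pos.2 ((hm i).Lam_pos hμ)), ← mul_inv]
      exact inv_anti₀ (mul_pos hμ (h0 i)) (hm i).Z11
    refine (this.le fun i => le_of_eq ?_).congr fun i => ?_
    · field_simp [(h0 i).ne']
    · rw [smul_sub, smul_smul, inv_mul_cancel₀ ((hm i).Lam_pos hμ).ne', one_smul]
  have yS : O 3 ρ fun i => (m i).Y - Sc :=
    (O.up 0 le_rfl (fun i => by simp [(hm i).Y0, o_val]) (Y1.congr fun i => by simp)
      (Y2.congr fun i => by simp) fun i => (h0 i).le).down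
  have h4 : ∀ i, ρ i ^ 4 ≤ 1 := fun i => pow_le_one₀ (h0 i).le (h2 i)
  have h5 : ∀ i, ρ i ^ 5 ≤ ρ i ^ 4 := fun i => pow_le_pow_of_le_one (h0 i).le (h2 i) (by norm_num)
  have he : ∀ i, |ε * ρ i ^ 4| ≤ ρ i ^ 4 := fun i => by
    rw [abs_of_pos (mul_pos hε (pow_pos (h0 i) 4))]
    exact mul_le_of_le_one_left (pow_pos (h0 i) 4).le hε1
  have mE : O 3 (fun i => ρ i ^ 5) fun i => (m i).E - lam (ε * ρ i ^ 4) 1 :=
    O.of_Bk 4 (by norm_num) fun i => (hm i).mE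
  have mF : O 3 (fun i => ρ i ^ 5) fun i => (m i).F := O.of_Bk 4 (by norm_num) fun i => (hm i).mF
  have mG : O 3 (fun i => ρ i ^ 5) fun i => (m i).G - lam (ε * ρ i ^ 4) 1 :=
    O.of_Bk 4 (by norm_num) fun i => (hm i).mG
  have lm : O 3 (fun i => ρ i ^ 4) fun i => lam (ε * ρ i ^ 4) 1 - 1 :=
    O_lam (fun i => ε * ρ i ^ 4) (fun _ => 1) he (by simp)
  have b1 := (O_bri_lin (k := 1) h4 (((mE.le h5).add lm).congr fun i => by ring) (mF.le h5)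
    (((mG.le h5).add lm).congr fun i => by ring)).le (ν' := fun i => ρ i ^ 5) fun i => by
      rw [← pow_add]
      exact pow_le_pow_of_le_one (h0 i).le (h2 i) (by norm_num)
  have b2 : O 1 (fun i => ρ i ^ 5) fun i =>
      bri d1 d2 (m i).E (m i).F (m i).G - (ε * ρ i ^ 4) • (qq - 1) := by
    refine (b1.add (O_lin (k := 1) mE mF mG)).congr fun i => ?_
    have e := lin_add (lam (ε * ρ i ^ 4) 1) 0 (lam (ε * ρ i ^ 4) 1) ((m i).E - lam (ε * ρ i ^ 4) 1)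
      (m i).F ((m i).G - lam (ε * ρ i ^ 4) 1)
    rw [lin_lam, add_sub_cancel, add_sub_cancel, zero_add, one_pow, show cst 1 = 1 from rfl] at e
    rw [e]
    ring
  have sm : ∀ {ν : ι → ℝ} {f : ι → S}, O 1 ν f →
      O 1 (fun i => ρ i ^ 4 * ν i) fun i => (ε * ρ i ^ 4) • f i := fun h =>
    h.smul (ν' := fun i => ρ i ^ 4) _ 1 zero_le_one (by simpa only [one_mul] using he)
  have b3 : O 1 (fun i => ρ i ^ 4) fun i => bri d1 d2 (m i).E (m i).F (m i).G :=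
    ((b2.le h5).add ((sm (O_qq.sub O.one)).le fun i => by simp)).congr fun i => by ring
  have Ji4 : O 1 ρ fun i => Ji i ^ 4 - 1 := by
    have a := Ji0.of_le (l := 1) (by norm_num)
    exact ((Ji1.of_le (l := 1) (by norm_num)).mul₂
      (((((a.mul₁ a).mul₁ a).add (a.mul₁ a)).add a).add O.one)).congr fun i => by ring
  have q1 : O 1 ρ fun i => qq - ((m i).Lam⁻¹ • (m i).X (Ji i)) ^ 2 - (m i).Y ^ 2 := by
    have a := xT.of_le (l := 1) (by norm_num)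
    have b := yS.of_le (l := 1) (by norm_num)
    refine ((a.mul₂ (((a.le h2).add O.T).add O.T)).add
      (b.mul₂ (((b.le h2).add O.Sc).add O.Sc))).neg.congr fun i => ?_
    simp only [qq]
    ring
  have fin : O 1 (fun i => ρ i ^ 5) fun i => -(bri d1 d2 (m i).E (m i).F (m i).G * Ji i ^ 4) -
      (ε * ρ i ^ 4) • (1 - ((m i).Lam⁻¹ • (m i).X (Ji i)) ^ 2 - (m i).Y ^ 2) := by
    refine ((((b3.mul Ji4).le fun i => (pow_succ _ 4).symm.le).neg.sub b2).sub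
      ((sm q1).le fun i => (pow_succ _ 4).symm.le)).congr fun i => ?_
    simp only [smul_eq_cst (ε * ρ i ^ 4)]
    ring
  have one : ∀ _ : ι, (0 : ℝ) ≤ 1 := fun _ => zero_le_one
  obtain ⟨A, hA, k1, k2, k3, k4, k5, k6, k7⟩ := ((eventually_ge_atTop (1 : ℝ)).and
    ((XT.ev fun i => mul_self_nonneg _).and ((xT.ev fun i => (h0 i).le).and
    ((yS.ev fun i => (h0 i).le).and ((Ji0.down.ev one).and
    (((((P1.le h2).add O.one).down.ev one).and (((P2.le h2).down.ev one).and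
    (fin.ev fun i => (pow_pos (h0 i) 5).le))))))))).exists
  refine ⟨A, hA, fun ρ' m' Ji' a b c => ?_⟩
  let i : ι := ⟨(ρ', m', Ji'), a, b, c⟩
  exact ⟨k1 i, k2 i, k3 i, by simpa using k4 i, by simpa using k5 i, by simpa using k6 i, k7 i⟩

end Vale.Agent.P229
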