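import Vale.Agent.P229.Bri

/-! A lower bound for the mean curvature at the origin.

PLAN. `egregium d_comm` says `L * N - M ^ 2 = bri d1 d2 E F G`, hence `τ = L + N` satisfies
`τ² ≥ 4 bri` pointwise. Let `A_r` be the `Aff` with `p = 0, a = d = r, b = c = 0` (`0 < r ≤ 1`),
so `d_i (pull A_r f) = r • pull A_r (d_i f)` and
`r² • pull (bri E F G) = bri (pull E) (pull F) (pull G)` (`simp [bri, ..]`, `pull` is an algebra
map), `pull (lam ε ρ) = lam (ε r⁴) (ρ/r)`. Use the family indexed by the subtype of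
`(r, ρ, t)` with `0 < r ≤ 1`, `|ρ| ≤ r/2`, `t.All (Bk 4 C)` and the three metric bounds with
`η = r⁵`: `O_bri_lin` with `ν = r⁴`, `lin_add`, `O_lin`, `lin_lam` give
`bri (pull ..) = ε r⁴ (qq - (ρ/r)²) + O(r⁵)`; so at a point `p` with `p.1² + p.2² = 1`,
`r² (pull τ p)² ≥ 3 ε r⁴ - A r⁵`, i.e. `|pull τ p| ≥ √ε r` for small `r`. On the other hand
`τ` is `O 2 1`, so the second derivatives of `τ' = pull τ` are `O 0 r²` and `O.up` twice applied to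
`g = τ' - cst (τ' o) - α • T - β • Sc` (`α = d1 τ' o`, `β = d2 τ' o`) gives `|g| ≤ A r²`. Choose the
unit vector `p` with `α p.1 + β p.2 = 0`. Then `|τ o| ≥ √ε r - A r² ≥ √ε r / 2` for a fixed small
`r`; take `μ = √ε r / 8`, `η = r⁵`, `ρ1 = r / 2`. -/

namespace Vale.Agent.P229

namespace Trip

/-- first coefficient of the second fundamental form, times the area element -/
noncomputable def L (t : Trip) : S := det3 (d1 (d1 t.P)) (d1 (d1 t.Y)) (d1 (d1 t.Z))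
  (d1 t.P) (d1 t.Y) (d1 t.Z) (d2 t.P) (d2 t.Y) (d2 t.Z)

/-- second coefficient -/
noncomputable def M (t : Trip) : S := det3 (d1 (d2 t.P)) (d1 (d2 t.Y)) (d1 (d2 t.Z))
  (d1 t.P) (d1 t.Y) (d1 t.Z) (d2 t.P) (d2 t.Y) (d2 t.Z)

/-- third coefficient -/
noncomputable def N (t : Trip) : S := det3 (d2 (d2 t.P)) (d2 (d2 t.Y)) (d2 (d2 t.Z))
  (d1 t.P) (d1 t.Y) (d1 t.Z) (d2 t.P) (d2 t.Y) (d2 t.Z)

theorem gauss (t : Trip) : t.L * t.N - t.M ^ 2 = bri d1 d2 t.E t.F t.G :=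
  egregium d_comm t.P t.Y t.Z

end Trip

/-- the dilation by the factor `r` -/
def lowSc (r : ℝ) (h : |r| ≤ 1) : Aff where
  p := 0
  a := r
  b := 0
  c := 0
  d := r
  maps u hu := by
    rw [mem_Om] at hu ⊢
    have : ((0 : ℝ × ℝ).1 + r * u.1 + 0 * u.2, (0 : ℝ × ℝ).2 + 0 * u.1 + r * u.2) = r • u := by
      ext <;> simp
    rw [this, norm_smul, Real.norm_eq_abs]
    exact (mul_le_of_le_one_left (norm_nonneg u) h).trans_lt hu

section sc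

variable {r : ℝ} (h : |r| ≤ 1)

theorem lowSc_d1 (f : S) : d1 (pull (lowSc r h) f) = r • pull (lowSc r h) (d1 f) := by
  rw [d1_pull]; simp [lowSc]

theorem lowSc_d2 (f : S) : d2 (pull (lowSc r h) f) = r • pull (lowSc r h) (d2 f) := by
  rw [d2_pull]; simp [lowSc]

theorem lowSc_o : (lowSc r h).map o = o := Subtype.ext (by simp [Aff.map, Aff.toFun, lowSc, o])

theorem lowSc_col1 : |(lowSc r h).a| + |(lowSc r h).c| ≤ |r| := by simp [lowSc]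

theorem lowSc_col2 : |(lowSc r h).b| + |(lowSc r h).d| ≤ |r| := by simp [lowSc]

theorem lowSc_bri (E F G : S) :
    bri d1 d2 (pull (lowSc r h) E) (pull (lowSc r h) F) (pull (lowSc r h) G) =
      r ^ 2 • pull (lowSc r h) (bri d1 d2 E F G) := by
  have e : pull (lowSc r h) (hf S) = hf S := AlgHom.commutes _ _
  simp only [bri, lowSc_d1, lowSc_d2, Derivation.map_smul, map_add, map_sub, map_mul, e]
  simp only [smul_eq_cst]
  rw [show cst (r ^ 2) = cst r ^ 2 from map_pow (algebraMap ℝ S) r 2]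
  ring

theorem lowSc_lam (hr : r ≠ 0) (ε ρ : ℝ) :
    pull (lowSc r h) (lam ε ρ) = lam (ε * r ^ 4) (ρ / r) := by
  refine S.ext' fun u => ?_
  simp [lam, qq, Aff.map, Aff.toFun, lowSc]
  field_simp

end sc

theorem low_curv (ε : ℝ) (hε : 0 < ε) (hε1 : ε ≤ 1) : ∃ A : ℝ, 0 ≤ A ∧
    ∀ (r ρ : ℝ) (E F G : S) (_ : 0 < r) (h : |r| ≤ 1), |ρ| ≤ r / 2 →
      Bk 2 (r ^ 5) (E - lam ε ρ) → Bk 2 (r ^ 5) F → Bk 2 (r ^ 5) (G - lam ε ρ) →
      ∀ p : Om, p.1.1 ^ 2 + p.1.2 ^ 2 = 1 →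
        3 / 4 * ε * r ^ 4 - A * r ^ 5 ≤ r ^ 2 * (bri d1 d2 E F G).1 ((lowSc r h).map p) := by
  let ι := {x : ℝ × ℝ × S × S × S // 0 < x.1 ∧ |x.1| ≤ 1 ∧ |x.2.1| ≤ x.1 / 2 ∧
    Bk 2 (x.1 ^ 5) (x.2.2.1 - lam ε x.2.1) ∧ Bk 2 (x.1 ^ 5) x.2.2.2.1 ∧
    Bk 2 (x.1 ^ 5) (x.2.2.2.2 - lam ε x.2.1)}
  let r : ι → ℝ := fun i => i.1.1
  let P : ι → S →ₐ[ℝ] S := fun i => pull (lowSc (r i) i.2.2.1)
  let l : ι → S := fun i => lam (ε * r i ^ 4) (i.1.2.1 / r i)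
  have r0 : ∀ i, 0 < r i := fun i => i.2.1
  have r1 : ∀ i, r i ≤ 1 := fun i => (le_abs_self _).trans i.2.2.1
  have hP : ∀ f : ι → S, (∀ i, Bk 2 (r i ^ 5) (f i)) → O 2 (fun i => r i ^ 5) fun i => P i (f i) :=
    fun f hf => O.of_Bk 1 zero_le_one fun i => by
      rw [one_mul]
      exact (hf i).pull _ ((lowSc_col1 _).trans i.2.2.1) ((lowSc_col2 _).trans i.2.2.1)
  have ha := hP (fun i => i.1.2.2.1 - lam ε i.1.2.1) fun i => i.2.2.2.2.1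
  have hb := hP (fun i => i.1.2.2.2.1) fun i => i.2.2.2.2.2.1
  have hc := hP (fun i => i.1.2.2.2.2 - lam ε i.1.2.1) fun i => i.2.2.2.2.2.2
  have h54 : ∀ i, r i ^ 5 ≤ r i ^ 4 := fun i =>
    pow_le_pow_of_le_one (r0 i).le (r1 i) (by norm_num)
  have hl : O 2 (fun i => r i ^ 4) fun i => l i - 1 :=
    O_lam (fun i => ε * r i ^ 4) (fun i => i.1.2.1 / r i)
      (fun i => by
        have := pow_pos (r0 i) 4
        rw [abs_of_pos (by positivity)]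
        nlinarith)
      fun i => by
        have := r0 i
        have h2 : |i.1.2.1| ≤ r i / 2 := i.2.2.2.1
        rw [abs_div, abs_of_pos (r0 i), div_le_one (r0 i)]
        linarith
  have eP : ∀ i f, P i f = l i + P i (f - lam ε i.1.2.1) := fun i f => by
    rw [map_sub, lowSc_lam _ (r0 i).ne']
    exact (add_sub_cancel _ _).symm
  have h1 := O_bri_lin (k := 0) (ν := fun i => r i ^ 4) (A := fun i => P i i.1.2.2.1)
    (B := fun i => P i i.1.2.2.2.1) (C := fun i => P i i.1.2.2.2.2)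
    (fun i => pow_le_one₀ (r0 i).le (r1 i))
    ((hl.add (ha.le h54)).congr fun i => by rw [eP]; ring) (hb.le h54)
    ((hl.add (hc.le h54)).congr fun i => by rw [eP]; ring)
  obtain ⟨A, hA, h2⟩ := (h1.le (ν' := fun i => r i ^ 5) fun i => by
    rw [← pow_add]
    exact pow_le_pow_of_le_one (r0 i).le (r1 i) (by norm_num)).add (O_lin (k := 0) ha hb hc)
  refine ⟨A, hA, fun r' ρ E F G h0 h hρ hE hF hG p hp => ?_⟩
  let i : ι := ⟨(r', ρ, E, F, G), h0, h, hρ, hE, hF, hG⟩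
  have h3 := h2 i p
  have h4 : lin (P i E) (P i F) (P i G) = (ε * r' ^ 4) • (qq - cst ((ρ / r') ^ 2)) +
      lin (P i (E - lam ε ρ)) (P i F) (P i (G - lam ε ρ)) := by
    rw [← lin_lam, ← lin_add, zero_add, eP i E, eP i G]
  have h5 : bri d1 d2 (P i E) (P i F) (P i G) = r' ^ 2 • P i (bri d1 d2 E F G) :=
    lowSc_bri h E F G
  change |(bri d1 d2 (P i E) (P i F) (P i G) - lin (P i E) (P i F) (P i G) +
    lin (P i (E - lam ε ρ)) (P i F) (P i (G - lam ε ρ))).1 p| ≤ A * r' ^ 5 at h3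
  rw [h4, h5, sub_add_eq_sub_sub, sub_add_cancel] at h3
  change |r' ^ 2 * (bri d1 d2 E F G).1 ((lowSc r' h).map p) -
    ε * r' ^ 4 * (p.1.1 ^ 2 + p.1.2 ^ 2 - (ρ / r') ^ 2)| ≤ A * r' ^ 5 at h3
  rw [hp] at h3
  have h6 : (ρ / r') ^ 2 ≤ 1 / 4 := by
    rw [div_pow, div_le_iff₀ (by positivity)]
    have := sq_le_sq' (abs_le.1 hρ).1 (abs_le.1 hρ).2
    linarith
  have h7 := mul_le_mul_of_nonneg_left h6 (by positivity : 0 ≤ ε * r' ^ 4)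
  linarith [(abs_le.1 h3).1]

theorem low_unit (α β : ℝ) : ∃ p : Om, p.1.1 ^ 2 + p.1.2 ^ 2 = 1 ∧ α * p.1.1 + β * p.1.2 = 0 := by
  obtain ⟨x, y, h1, h2⟩ : ∃ x y : ℝ, x ^ 2 + y ^ 2 = 1 ∧ α * x + β * y = 0 := by
    rcases (by positivity : 0 ≤ α ^ 2 + β ^ 2).eq_or_lt with h | h
    · have : α = 0 := by nlinarith [sq_nonneg α, sq_nonneg β]
      exact ⟨1, 0, by norm_num, by simp [this]⟩
    · refine ⟨-β / √(α ^ 2 + β ^ 2), α / √(α ^ 2 + β ^ 2), ?_, by ring⟩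
      rw [div_pow, div_pow, Real.sq_sqrt h.le]
      field_simp
      ring
  refine ⟨⟨(x, y), ?_⟩, h1, h2⟩
  rw [mem_Om, Prod.norm_def, max_lt_iff, Real.norm_eq_abs, Real.norm_eq_abs, abs_lt, abs_lt]
  refine ⟨⟨?_, ?_⟩, ?_, ?_⟩ <;> nlinarith [sq_nonneg x, sq_nonneg y]

theorem low_taylor {c r : ℝ} {τ : S} (hτ : Bk 2 c τ) (h : |r| ≤ 1) :
    ∃ p : Om, p.1.1 ^ 2 + p.1.2 ^ 2 = 1 ∧
      |τ.1 ((lowSc r h).map p) - τ.1 o| ≤ 64 * c * r ^ 2 := by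
  have hg := hτ.gr_pull (lowSc r h) (lowSc_col1 h) (lowSc_col2 h)
  set σ := pull (lowSc r h) τ with hσ
  obtain ⟨p, hp, hp'⟩ := low_unit ((d1 σ).1 o) ((d2 σ).1 o)
  refine ⟨p, hp, ?_⟩
  have k : ∀ f : S, Gr 1 (c * |r|) |r| f → Bk 1 (0 + 8 * (c * |r| * |r|)) (f - cst (f.1 o)) :=
    fun f hf => Bk.up (k := 0) (by simp)
      (by rw [map_sub, d1_cst, sub_zero]; exact hf.d1)
      (by rw [map_sub, d2_cst, sub_zero]; exact hf.d2)
  have h1 := Bk.up (f := σ - cst (σ.1 o) - (d1 σ).1 o • T - (d2 σ).1 o • Sc) (a := 0) (k := 1)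
    (c := 0 + 8 * (c * |r| * |r|)) (by simp [o])
    (by simpa [smul_eq_cst] using k _ hg.d1) (by simpa [smul_eq_cst] using k _ hg.d2)
  have h2 := h1.le p
  change |τ.1 ((lowSc r h).map p) - τ.1 ((lowSc r h).map o) - (d1 σ).1 o * p.1.1
    - (d2 σ).1 o * p.1.2| ≤ _ at h2
  rw [lowSc_o, sub_sub _ (_ * _), hp', sub_zero, mul_assoc c, abs_mul_abs_self] at h2
  linarith

theorem low_det {ι : Type} {k : ℕ} {a₁ a₂ a₃ b₁ b₂ b₃ c₁ c₂ c₃ : ι → S}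
    (ha₁ : O k (fun _ => 1) a₁) (ha₂ : O k (fun _ => 1) a₂) (ha₃ : O k (fun _ => 1) a₃)
    (hb₁ : O k (fun _ => 1) b₁) (hb₂ : O k (fun _ => 1) b₂) (hb₃ : O k (fun _ => 1) b₃)
    (hc₁ : O k (fun _ => 1) c₁) (hc₂ : O k (fun _ => 1) c₂) (hc₃ : O k (fun _ => 1) c₃) :
    O k (fun _ => 1) fun i =>
      det3 (a₁ i) (a₂ i) (a₃ i) (b₁ i) (b₂ i) (b₃ i) (c₁ i) (c₂ i) (c₃ i) :=
  ((ha₁.mul₁ ((hb₂.mul₁ hc₃).sub (hb₃.mul₁ hc₂))).add
    (ha₂.mul₁ ((hb₃.mul₁ hc₁).sub (hb₁.mul₁ hc₃)))).add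
    (ha₃.mul₁ ((hb₁.mul₁ hc₂).sub (hb₂.mul₁ hc₁)))

theorem low_tau (C : ℝ) : ∃ c : ℝ, 0 ≤ c ∧ ∀ t : Trip, t.All (Bk 4 C) → Bk 2 c (t.L + t.N) := by
  have hO : ∀ f : {t : Trip // t.All (Bk 4 C)} → S, (∀ i, Bk 4 C (f i)) → O 3 (fun _ => 1) f :=
    fun f hf => O.of_Bk |C| (abs_nonneg C) fun i =>
      (hf i).down.mono (by rw [mul_one]; exact le_abs_self C)
  have p1 := hO (fun i => d1 i.1.P) fun i => i.2.1
  have p2 := hO (fun i => d2 i.1.P) fun i => i.2.2.1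
  have y1 := hO (fun i => d1 i.1.Y) fun i => i.2.2.2.1
  have y2 := hO (fun i => d2 i.1.Y) fun i => i.2.2.2.2.1
  have z1 := hO (fun i => d1 i.1.Z) fun i => i.2.2.2.2.2.1
  have z2 := hO (fun i => d2 i.1.Z) fun i => i.2.2.2.2.2.2
  obtain ⟨c, hc, h⟩ := (low_det p1.d1 y1.d1 z1.d1 p1.down y1.down z1.down p2.down y2.down
    z2.down).add (low_det p2.d2 y2.d2 z2.d2 p1.down y1.down z1.down p2.down y2.down z2.down)
  exact ⟨c, hc, fun t ht => by simpa only [mul_one, Trip.L, Trip.N] using h ⟨t, ht⟩⟩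

theorem low (C ε : ℝ) (hε : 0 < ε) (hε1 : ε ≤ 1) : ∃ μ η ρ1 : ℝ, 0 < μ ∧ 0 < η ∧ 0 < ρ1 ∧
    ∀ (ρ : ℝ) (t : Trip), |ρ| ≤ ρ1 → t.All (Bk 4 C) → Bk 2 η (t.E - lam ε ρ) → Bk 2 η t.F →
      Bk 2 η (t.G - lam ε ρ) → 4 * μ ≤ |t.L.1 o + t.N.1 o| := by
  obtain ⟨A, hA, hcurv⟩ := low_curv ε hε hε1
  obtain ⟨c, hc, htau⟩ := low_tau C
  obtain ⟨r, h0, hr⟩ : ∃ r : ℝ, 0 < r ∧ r * (1 + 2 * A + 128 * c) = ε :=
    ⟨ε / (1 + 2 * A + 128 * c), by positivity, by field_simp⟩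
  have hAr := mul_nonneg h0.le hA
  have hcr := mul_nonneg h0.le hc
  have h : |r| ≤ 1 := by rw [abs_of_pos h0]; linarith
  refine ⟨ε * r / 8, r ^ 5, r / 2, by positivity, by positivity, by positivity,
    fun ρ t hρ ht hE hF hG => ?_⟩
  obtain ⟨p, hp, h1⟩ := low_taylor (htau t ht) h
  have h2 := hcurv r ρ _ _ _ h0 h hρ hE hF hG p hp
  rw [← t.gauss] at h2
  generalize (lowSc r h).map p = q at h1 h2
  change |t.L.1 q + t.N.1 q - (t.L.1 o + t.N.1 o)| ≤ _ at h1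
  change _ ≤ r ^ 2 * (t.L.1 q * t.N.1 q - t.M.1 q ^ 2) at h2
  have h3 : (ε * r) ^ 2 ≤ (t.L.1 q + t.N.1 q) ^ 2 := by
    refine le_of_mul_le_mul_left ?_ (by positivity : 0 < r ^ 2)
    have h4 : 4 * (t.L.1 q * t.N.1 q - t.M.1 q ^ 2) ≤ (t.L.1 q + t.N.1 q) ^ 2 := by
      nlinarith [sq_nonneg (t.L.1 q - t.N.1 q), sq_nonneg (t.M.1 q)]
    have h5 := mul_le_mul_of_nonneg_left h4 (sq_nonneg r)
    have h6 : 0 ≤ r ^ 4 * (3 * ε - 4 * (r * A) - ε ^ 2) :=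
      mul_nonneg (by positivity) (by nlinarith)
    nlinarith
  have h4 : ε * r ≤ |t.L.1 q + t.N.1 q| :=
    (le_abs_self _).trans (sq_le_sq.1 h3)
  have h5 := abs_sub_abs_le_abs_sub (t.L.1 q + t.N.1 q) (t.L.1 o + t.N.1 o)
  have h6 : 128 * (r * c) * r ≤ ε * r := mul_le_mul_of_nonneg_right (by linarith) h0.le
  nlinarith

end Vale.Agent.P229
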