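import Vale.Agent.P229.SmL
import Vale.Agent.P229.Gadget

/-! Summing scaled gadgets in disjoint squares accumulating at the origin.

PLAN. `r n = 2⁻ⁿ / 32`, `c n = (2⁻ⁿ, 0)`, gadget number `n` with `C = n`, `N = n`,
`η n = 2⁻ⁿ (r n)ⁿ / 8`. `K n ij v = k n ij ((r n)⁻¹ • (v - c n))` satisfies, by `Sm.of_le` and
`Sm.comp_affine`, `Sm i (2⁻ⁿ/8) (K n ij)` for `i ≤ n`; so `κ ij = ∑' n, K n ij` is smooth on `ℝ × ℝ`
(`contDiff_tsum_of_eventually`), `|κ ij| ≤ 1/4`, and on the square `‖v - c n‖ < 4 r n` it equals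
`K n ij` (`tsum_eq_single`: for `m ≠ n`, `‖v - c m‖ ≥ 6 r m`). `main_plane` is the statement on
`ℝ × ℝ`: given `U` and `P Y Z` smooth on `U`, take `0 < δ ≤ 1` with `ball 0 (4 δ) ⊆ U`, the triple
`t₀ = mk (fun u => δ⁻¹ * P (δ • u)) _, ..` has metric `g (δ • u)` (`der_mk`, chain rule); get one
constant `c₀` from `exists_Bk_pull 4` for its six first derivatives; for large `n` let `A` be the
`Aff` with `p = δ⁻¹ • c n`, `a = d = r n / δ`, `b = c = 0`, and `t = (δ / r n) • pull A t₀`, so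
`d_i t = pull A (d_i t₀)` (`d1_pull`), which contradicts gadget `n` when `c₀ ≤ n` (`Bk.mono`).
`main` transfers along the linear equivalence `EuclideanSpace ℝ (Fin 2) ≃L ℝ × ℝ`,
`x ↦ (x 0, x 1)`, with `g i j x = !![g11, g12; g12, g22] i j` at `(x 0, x 1)`, `P v = F (..) 0` etc.
and `inner` expanded by `Fin.sum_univ_three`. -/

open scoped ContDiff

namespace Vale.Agent.P229

/-- the radius of the `n`-th square -/
noncomputable def rad (n : ℕ) : ℝ := (1 / 2) ^ n / 32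

/-- the centre of the `n`-th square -/
noncomputable def cen (n : ℕ) : ℝ × ℝ := ((1 / 2) ^ n, 0)

theorem rad_pos (n : ℕ) : 0 < rad n := by unfold rad; positivity

theorem rad_le (n : ℕ) : rad n ≤ 1 := by
  have : (1 / 2 : ℝ) ^ n ≤ 1 := pow_le_one₀ (by norm_num) (by norm_num)
  unfold rad; linarith

theorem cen_far {m n : ℕ} (h : m ≠ n) : 4 * rad n + 6 * rad m ≤ ‖cen n - cen m‖ := by
  have h1 : |(1 / 2 : ℝ) ^ n - (1 / 2) ^ m| ≤ ‖cen n - cen m‖ := norm_fst_le (cen n - cen m)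
  have key : ∀ a b : ℕ, a < b → (1 / 2 : ℝ) ^ b ≤ (1 / 2) ^ a / 2 := by
    intro a b hab
    have := pow_le_pow_of_le_one (a := (1 / 2 : ℝ)) (by norm_num) (by norm_num)
      (Nat.succ_le_of_lt hab)
    rw [pow_succ] at this
    linarith
  have p1 : (0 : ℝ) < (1 / 2) ^ n := by positivity
  have p2 : (0 : ℝ) < (1 / 2) ^ m := by positivity
  unfold rad
  rcases lt_or_gt_of_ne h with h | h
  · have := key _ _ h
    have := neg_abs_le ((1 / 2 : ℝ) ^ n - (1 / 2) ^ m)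
    linarith
  · have := key _ _ h
    have := le_abs_self ((1 / 2 : ℝ) ^ n - (1 / 2) ^ m)
    linarith

theorem exists_sum (k : ℕ → ℝ × ℝ → ℝ) (hk : ∀ n, Sm n ((1 / 2) ^ n * rad n ^ n / 8) (k n))
    (h0 : ∀ n u, 6 ≤ ‖u‖ → k n u = 0) :
    ∃ κ : ℝ × ℝ → ℝ, ContDiff ℝ ∞ κ ∧ (∀ v, |κ v| ≤ 1 / 4) ∧
      ∀ n u, ‖u‖ < 4 → κ (cen n + rad n • u) = k n u := by
  let K : ℕ → ℝ × ℝ → ℝ := fun n v =>
    k n (-((rad n)⁻¹ • cen n) + ((rad n)⁻¹ • ContinuousLinearMap.id ℝ (ℝ × ℝ)) v)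
  have hK : ∀ n, Sm n ((1 / 2) ^ n / 8) (K n) := by
    intro n
    have hr := rad_pos n
    refine ((hk n).comp_affine _ _ (m := (rad n)⁻¹) ((one_le_inv₀ hr).2 (rad_le n)) ?_).mono
      (le_of_eq ?_)
    · rw [norm_smul, Real.norm_eq_abs, abs_of_pos (inv_pos.2 hr)]
      exact mul_le_of_le_one_right (inv_pos.2 hr).le ContinuousLinearMap.norm_id_le
    · rw [inv_pow]
      field_simp
  have hs : Summable fun n : ℕ => (1 / 2 : ℝ) ^ n / 8 := summable_geometric_two.div_const 8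
  refine ⟨fun v => ∑' n, K n v, ?_, fun v => ?_, fun n u hu => ?_⟩
  · refine contDiff_tsum_of_eventually (v := fun _ n => (1 / 2 : ℝ) ^ n / 8) (fun n => (hK n).1)
      (fun _ _ => hs) fun i _ => ?_
    rw [Nat.cofinite_eq_atTop]
    filter_upwards [Filter.eventually_ge_atTop i] with n hn x
    exact (hK n).2 i hn x
  · have := tsum_of_norm_bounded (f := fun n => K n v) hs.hasSum fun n => (hK n).abs_le v
    rw [tsum_div_const, tsum_geometric_two] at this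
    norm_num at this ⊢
    exact this
  · have hr := rad_pos n
    dsimp only
    rw [tsum_eq_single n]
    · simp only [K, smul_apply, ContinuousLinearMap.id_apply, smul_add,
        smul_smul, inv_mul_cancel₀ hr.ne', one_smul, neg_add_cancel_left]
    · intro m hm
      have hm' := rad_pos m
      refine h0 m _ ?_
      have e : -((rad m)⁻¹ • cen m) + ((rad m)⁻¹ • ContinuousLinearMap.id ℝ (ℝ × ℝ))
          (cen n + rad n • u) = (rad m)⁻¹ • (cen n - cen m + rad n • u) := by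
        simp only [smul_apply, ContinuousLinearMap.id_apply, smul_add, smul_sub]
        abel
      rw [e, norm_smul, Real.norm_eq_abs, abs_of_pos (inv_pos.2 hm'), le_inv_mul_iff₀ hm']
      have t1 := cen_far hm
      have t2 := norm_sub_le (cen n - cen m + rad n • u) (rad n • u)
      rw [add_sub_cancel_right, norm_smul, Real.norm_eq_abs, abs_of_pos hr] at t2
      nlinarith

theorem der_scale {U : Set (ℝ × ℝ)} (hU : IsOpen U) {P : ℝ × ℝ → ℝ} (hP : ContDiffOn ℝ ∞ P U)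
    {δ : ℝ} (hδ : 0 < δ) (hm : ∀ u ∈ Om, δ • u ∈ U) :
    ∃ f : S, ∀ (e : ℝ × ℝ) (u : Om), (der e f).1 u = fderiv ℝ P (δ • u.1) e := by
  have h1 : ContDiffOn ℝ ∞ (fun u : ℝ × ℝ => δ⁻¹ * P (δ • u)) Om :=
    contDiffOn_const.mul (hP.comp (contDiff_const_smul δ).contDiffOn hm)
  refine ⟨mk _ h1, fun e u => ?_⟩
  have h2 : DifferentiableAt ℝ P (δ • u.1) :=
    (hP.contDiffAt (hU.mem_nhds (hm _ u.2))).differentiableAt (by simp)
  have h3 := ((h2.hasFDerivAt.comp u.1 ((hasFDerivAt_id u.1).const_smul δ)).const_mul δ⁻¹).fderiv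
  rw [der_mk]
  simp only [Function.comp_def] at h3
  rw [h3]
  simp [inv_mul_cancel_left₀ hδ.ne']

theorem main_plane : ∃ κ11 κ12 κ22 : ℝ × ℝ → ℝ, ContDiff ℝ ∞ κ11 ∧ ContDiff ℝ ∞ κ12 ∧
    ContDiff ℝ ∞ κ22 ∧ (∀ v, |κ11 v| ≤ 1 / 4 ∧ |κ12 v| ≤ 1 / 4 ∧ |κ22 v| ≤ 1 / 4) ∧
    ∀ U : Set (ℝ × ℝ), IsOpen U → 0 ∈ U → ∀ P Y Z : ℝ × ℝ → ℝ, ContDiffOn ℝ ∞ P U →
      ContDiffOn ℝ ∞ Y U → ContDiffOn ℝ ∞ Z U → ¬ ∀ v ∈ U,
        fderiv ℝ P v (1, 0) * fderiv ℝ P v (1, 0) + fderiv ℝ Y v (1, 0) * fderiv ℝ Y v (1, 0) +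
          fderiv ℝ Z v (1, 0) * fderiv ℝ Z v (1, 0) = 1 + κ11 v ∧
        fderiv ℝ P v (1, 0) * fderiv ℝ P v (0, 1) + fderiv ℝ Y v (1, 0) * fderiv ℝ Y v (0, 1) +
          fderiv ℝ Z v (1, 0) * fderiv ℝ Z v (0, 1) = κ12 v ∧
        fderiv ℝ P v (0, 1) * fderiv ℝ P v (0, 1) + fderiv ℝ Y v (0, 1) * fderiv ℝ Y v (0, 1) +
          fderiv ℝ Z v (0, 1) * fderiv ℝ Z v (0, 1) = 1 + κ22 v := by
  choose k11 k12 k22 s11 s12 s22 h0 hk using fun n : ℕ =>
    gadget n ((1 / 2) ^ n * rad n ^ n / 8) (by have := rad_pos n; positivity) n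
  obtain ⟨κ11, a1, b1, c1⟩ := exists_sum k11 s11 fun n u hu => (h0 n u hu).1
  obtain ⟨κ12, a2, b2, c2⟩ := exists_sum k12 s12 fun n u hu => (h0 n u hu).2.1
  obtain ⟨κ22, a3, b3, c3⟩ := exists_sum k22 s22 fun n u hu => (h0 n u hu).2.2
  refine ⟨κ11, κ12, κ22, a1, a2, a3, fun v => ⟨b1 v, b2 v, b3 v⟩,
    fun U hU h0U P Y Z hP hY hZ hiso => ?_⟩
  obtain ⟨r, hr, hrU⟩ := Metric.isOpen_iff.1 hU 0 h0U
  have hδ : 0 < r / 4 := by positivity
  have hm : ∀ u ∈ Om, (r / 4) • u ∈ U := fun u hu => hrU (by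
    rw [mem_ball_zero_iff, norm_smul, Real.norm_eq_abs, abs_of_pos hδ]
    have := mem_Om.1 hu
    nlinarith)
  generalize r / 4 = δ at hδ hm
  obtain ⟨P0, hP0⟩ := der_scale hU hP hδ hm
  obtain ⟨Y0, hY0⟩ := der_scale hU hY hδ hm
  obtain ⟨Z0, hZ0⟩ := der_scale hU hZ hδ hm
  obtain ⟨e1, he1⟩ := exists_Bk_pull 4 (d1 P0)
  obtain ⟨e2, he2⟩ := exists_Bk_pull 4 (d2 P0)
  obtain ⟨e3, he3⟩ := exists_Bk_pull 4 (d1 Y0)
  obtain ⟨e4, he4⟩ := exists_Bk_pull 4 (d2 Y0)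
  obtain ⟨e5, he5⟩ := exists_Bk_pull 4 (d1 Z0)
  obtain ⟨e6, he6⟩ := exists_Bk_pull 4 (d2 Z0)
  have ev : ∀ x : ℝ, ∀ᶠ n : ℕ in Filter.atTop, x ≤ n := fun x =>
    (tendsto_natCast_atTop_atTop (R := ℝ)).eventually_ge_atTop x
  have ev2 : ∀ᶠ n : ℕ in Filter.atTop, (1 / 2 : ℝ) ^ n < δ :=
    (tendsto_pow_atTop_nhds_zero_of_lt_one (by norm_num) (by norm_num)).eventually_lt_const hδ
  obtain ⟨n, n1, n2, n3, n4, n5, n6, n7⟩ := ((ev e1).and ((ev e2).and ((ev e3).and ((ev e4).and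
    ((ev e5).and ((ev e6).and ev2)))))).exists
  have hr := rad_pos n
  have hp : (0 : ℝ) < (1 / 2) ^ n := by positivity
  have q1 : (1 / 2 : ℝ) ^ n / δ < 1 := (div_lt_one hδ).2 n7
  have q2 : rad n / δ = (1 / 2 : ℝ) ^ n / δ / 32 := by unfold rad; ring
  have q3 : 0 < rad n / δ := by positivity
  have q4 : 0 < (1 / 2 : ℝ) ^ n / δ := by positivity
  have hb : ∀ u : ℝ × ℝ, u ∈ Om → ‖(((1 / 2 : ℝ) ^ n / δ + rad n / δ * u.1 + 0 * u.2,
      0 + 0 * u.1 + rad n / δ * u.2) : ℝ × ℝ)‖ ≤ 7 / 2 := by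
    intro u hu
    rw [mem_Om] at hu
    have h1 := abs_lt.1 ((norm_fst_le u).trans_lt hu)
    have h2 := abs_lt.1 ((norm_snd_le u).trans_lt hu)
    rw [Prod.norm_def, max_le_iff, Real.norm_eq_abs, Real.norm_eq_abs, abs_le, abs_le]
    refine ⟨⟨?_, ?_⟩, ?_, ?_⟩ <;> nlinarith [h1.1, h1.2, h2.1, h2.2]
  let A : Aff := ⟨((1 / 2) ^ n / δ, 0), rad n / δ, 0, 0, rad n / δ, fun u hu =>
    mem_Om.2 ((hb u hu).trans_lt (by norm_num))⟩
  have hA1 : |A.a| + |A.c| ≤ 1 := by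
    simp only [A, abs_zero, abs_of_pos q3]; linarith
  have hA2 : |A.b| + |A.d| ≤ 1 := by
    simp only [A, abs_zero, abs_of_pos q3]; linarith
  have hA3 : ∀ u : Om, ‖A.toFun u‖ ≤ 7 / 2 := fun u => hb u u.2
  have hone : δ / rad n * (rad n / δ) = 1 := by field_simp
  have g1 : ∀ f : S, d1 ((δ / rad n) • pull A f) = pull A (d1 f) := fun f => by
    rw [Derivation.map_smul, d1_pull]
    simp only [A, zero_smul, add_zero, smul_smul, hone, one_smul]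
  have g2 : ∀ f : S, d2 ((δ / rad n) • pull A f) = pull A (d2 f) := fun f => by
    rw [Derivation.map_smul, d2_pull]
    simp only [A, zero_smul, zero_add, smul_smul, hone, one_smul]
  refine hk n ⟨(δ / rad n) • pull A P0, (δ / rad n) • pull A Y0, (δ / rad n) • pull A Z0⟩ ?_
    fun u => ?_
  · simp only [Trip.All, g1, g2]
    exact ⟨(he1 A hA1 hA2 hA3).mono n1, (he2 A hA1 hA2 hA3).mono n2, (he3 A hA1 hA2 hA3).mono n3,
      (he4 A hA1 hA2 hA3).mono n4, (he5 A hA1 hA2 hA3).mono n5, (he6 A hA1 hA2 hA3).mono n6⟩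
  · have hv : δ • (A.map u).1 = cen n + rad n • u.1 := by
      ext
      · simp [A, Aff.map, Aff.toFun, cen]; field_simp
      · simp [A, Aff.map, Aff.toFun, cen]; field_simp
    have hi := hiso _ (hm _ (A.map u).2)
    rw [← hP0, ← hP0, ← hY0, ← hY0, ← hZ0, ← hZ0, hv, c1 n _ (mem_Om.1 u.2),
      c2 n _ (mem_Om.1 u.2), c3 n _ (mem_Om.1 u.2)] at hi
    simp only [Trip.E, Trip.F, Trip.G, g1, g2]
    exact hi

theorem main : ∃ g : Fin 2 → Fin 2 → EuclideanSpace ℝ (Fin 2) → ℝ,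
    (∀ i j, ContDiff ℝ ∞ (g i j)) ∧ (∀ x, (Matrix.of fun i j => g i j x).PosDef) ∧
    ∀ U : Set (EuclideanSpace ℝ (Fin 2)), IsOpen U → 0 ∈ U →
      ∀ F : EuclideanSpace ℝ (Fin 2) → EuclideanSpace ℝ (Fin 3), ContDiffOn ℝ ∞ F U →
        ¬ ∀ x ∈ U, ∀ i j, inner ℝ (fderiv ℝ F x (EuclideanSpace.single i 1))
          (fderiv ℝ F x (EuclideanSpace.single j 1)) = g i j x := by
  obtain ⟨κ11, κ12, κ22, a1, a2, a3, hb, hno⟩ := main_plane
  let π : EuclideanSpace ℝ (Fin 2) → ℝ × ℝ := fun x => (x 0, x 1)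
  have hπ : ContDiff ℝ ∞ π := by fun_prop
  let ι : ℝ × ℝ →L[ℝ] EuclideanSpace ℝ (Fin 2) :=
    (ContinuousLinearMap.fst ℝ ℝ ℝ).smulRight (EuclideanSpace.single 0 1) +
      (ContinuousLinearMap.snd ℝ ℝ ℝ).smulRight (EuclideanSpace.single 1 1)
  have hι : ∀ v, π (ι v) = v := fun v => by
    ext <;> simp [π, ι]
  refine ⟨fun i j x => !![1 + κ11 (π x), κ12 (π x); κ12 (π x), 1 + κ22 (π x)] i j, ?_,
    fun x => ?_, fun U hU h0 F hF hiso => ?_⟩
  · intro i j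
    fin_cases i <;> fin_cases j
    · exact contDiff_const.add (a1.comp hπ)
    · exact a2.comp hπ
    · exact a2.comp hπ
    · exact contDiff_const.add (a3.comp hπ)
  · obtain ⟨b1, b2, b3⟩ := hb (π x)
    rw [abs_le] at b1 b2 b3
    refine Matrix.PosDef.of_dotProduct_mulVec_pos ?_ fun y hy => ?_
    · ext i j
      fin_cases i <;> fin_cases j <;> simp
    · have h1 : 0 < y 0 ^ 2 + y 1 ^ 2 := by
        by_contra h
        refine hy ?_
        ext i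
        fin_cases i
        · show y 0 = 0
          nlinarith [sq_nonneg (y 0), sq_nonneg (y 1)]
        · show y 1 = 0
          nlinarith [sq_nonneg (y 0), sq_nonneg (y 1)]
      simp [Matrix.mulVec, dotProduct, Fin.sum_univ_two]
      nlinarith [mul_nonneg (sub_nonneg.2 b1.1) (sq_nonneg (y 0)),
        mul_nonneg (sub_nonneg.2 b3.1) (sq_nonneg (y 1)),
        mul_nonneg (sub_nonneg.2 b2.1) (sq_nonneg (y 0 + y 1)),
        mul_nonneg (sub_nonneg.2 b2.2) (sq_nonneg (y 0 - y 1))]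
  · have hU' : IsOpen (ι ⁻¹' U) := hU.preimage ι.continuous
    have hc : ∀ a : Fin 3, ContDiffOn ℝ ∞ (fun v => F (ι v) a) (ι ⁻¹' U) := fun a =>
      (EuclideanSpace.proj a : EuclideanSpace ℝ (Fin 3) →L[ℝ] ℝ).contDiff.comp_contDiffOn
        (hF.comp ι.contDiff.contDiffOn fun _ h => h)
    have hd : ∀ (a : Fin 3) (v), v ∈ ι ⁻¹' U → ∀ e, fderiv ℝ (fun v => F (ι v) a) v e =
        fderiv ℝ F (ι v) (ι e) a := by
      intro a v hv e
      have h2 : DifferentiableAt ℝ F (ι v) :=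
        (hF.contDiffAt (hU.mem_nhds hv)).differentiableAt (by simp)
      have h3 := ((EuclideanSpace.proj a : EuclideanSpace ℝ (Fin 3) →L[ℝ] ℝ).hasFDerivAt.comp v
        (h2.hasFDerivAt.comp v ι.hasFDerivAt)).fderiv
      exact congrArg (fun L : ℝ × ℝ →L[ℝ] ℝ => L e) h3
    have i0 : ι (1, 0) = EuclideanSpace.single 0 1 := by simp [ι]
    have i1 : ι (0, 1) = EuclideanSpace.single 1 1 := by simp [ι]
    refine hno _ hU' (by simpa using h0) _ _ _ (hc 0) (hc 1) (hc 2) fun v hv => ?_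
    have k00 := hiso _ hv 0 0
    have k01 := hiso _ hv 0 1
    have k11 := hiso _ hv 1 1
    simp only [hd _ v hv, i0, i1]
    simp only [PiLp.inner_apply, Fin.sum_univ_three, hι, RCLike.inner_apply, conj_trivial] at k00 k01 k11
    simp at k00 k01 k11
    refine ⟨by linarith, by linarith, by linarith⟩

end Vale.Agent.P229
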