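import Vale.Agent.P229.Defs

/-! Averages over an `n × n` grid and the Poincare inequality.

PLAN. For `Cs f` put `F = ext f.1`: smooth on the plane (`Cs.contDiff`), zero outside `Kc`,
`I g = ∫ ext g.1` for `Cs g` (`Cs.I_eq`), `ext (d1 f).1 u = fderiv ℝ F u (1, 0)` (`Cs.ext_der`).
Cells `Q (i, j) = Ico (-4 + i L) (-4 + (i+1) L) ×ˢ Ico (-4 + j L) (-4 + (j+1) L)`, `L = 8/n`, are
disjoint and cover `Kc`. `π f (i, j) = L⁻¹ ∫_{Q (i,j) ∩ Kc} ext f.1` is linear in `f`
(`S.integrableOn`; alternatively copy the definition of `I`). On one cell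
`∫_Q ∫_Q (F u - F v)² = 2 L² ∫_Q F² - 2 (∫_Q F)²`; the left side is `≥ 0` (first claim) and at most
`2 L⁴ ∫_Q (F₁² + F₂²)` since `(F u - F v)² ≤ 2 L ∫ F₁(t, u₂)² dt + 2 L ∫ F₂(v₁, t)² dt`
(fundamental theorem of calculus and Cauchy-Schwarz along the two sides). Any other proof is
fine; there is a factor `4` of slack in the constant `256`. -/

open MeasureTheory Set

namespace Vale.Agent.P229

theorem poin_two {α : Type} [MeasurableSpace α] {μ : Measure α} [IsFiniteMeasure μ]
    {F P R : α → ℝ} (hF : Integrable F μ) (hF2 : Integrable (fun u => F u ^ 2) μ)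
    (hP : Integrable P μ) (hR : Integrable R μ) {c : ℝ}
    (h : ∀ᵐ u ∂μ, ∀ᵐ v ∂μ, c * (F u - F v) ^ 2 ≤ P u + R v) :
    c * (2 * μ.real univ * (∫ u, F u ^ 2 ∂μ) - 2 * (∫ u, F u ∂μ) ^ 2) ≤
      μ.real univ * (∫ u, P u ∂μ) + μ.real univ * ∫ u, R u ∂μ := by
  have h1 : ∀ᵐ u ∂μ, c * (μ.real univ * F u ^ 2 - 2 * (∫ v, F v ∂μ) * F u + ∫ v, F v ^ 2 ∂μ) ≤
      μ.real univ * P u + ∫ v, R v ∂μ := by
    filter_upwards [h] with u hu
    have i1 : Integrable (fun v => F u ^ 2 - 2 * F u * F v) μ :=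
      (integrable_const _).sub (hF.const_mul _)
    have i2 : Integrable (fun v => c * (F u ^ 2 - 2 * F u * F v + F v ^ 2)) μ :=
      (i1.add hF2).const_mul c
    have h2 := integral_mono_ae i2 ((integrable_const (P u)).add hR)
      (by filter_upwards [hu] with v hv
          simp only [Pi.add_apply]
          calc _ = c * (F u - F v) ^ 2 := by ring
            _ ≤ _ := hv)
    simp only [Pi.add_apply] at h2
    rw [integral_const_mul, integral_add i1 hF2, integral_sub (integrable_const _) (hF.const_mul _),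
      integral_add (integrable_const _) hR, integral_const_mul] at h2
    simp only [integral_const, smul_eq_mul] at h2
    linarith
  have i1 : Integrable (fun u => μ.real univ * F u ^ 2 - 2 * (∫ v, F v ∂μ) * F u) μ :=
    (hF2.const_mul _).sub (hF.const_mul _)
  have h2 := integral_mono_ae ((i1.add (integrable_const (∫ v, F v ^ 2 ∂μ))).const_mul c)
    ((hP.const_mul (μ.real univ)).add (integrable_const (∫ v, R v ∂μ))) h1
  simp only [Pi.add_apply] at h2
  rw [integral_const_mul, integral_add i1 (integrable_const _),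
    integral_sub (hF2.const_mul _) (hF.const_mul _), integral_add (hP.const_mul _) (integrable_const _),
    integral_const_mul, integral_const_mul, integral_const_mul] at h2
  simp only [integral_const, smul_eq_mul] at h2
  linarith

theorem poin_cs {α : Type} [MeasurableSpace α] {μ : Measure α} [IsFiniteMeasure μ]
    {F : α → ℝ} (hF : Integrable F μ) (hF2 : Integrable (fun u => F u ^ 2) μ) :
    (∫ u, F u ∂μ) ^ 2 ≤ μ.real univ * ∫ u, F u ^ 2 ∂μ := by
  have h := poin_two hF hF2 (integrable_zero _ _ μ) (integrable_zero _ _ μ) (c := -1)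
    (Filter.Eventually.of_forall fun u => Filter.Eventually.of_forall fun v => by
      simp only [Pi.zero_apply]
      nlinarith [sq_nonneg (F u - F v)])
  simp only [Pi.zero_apply, integral_zero] at h
  linarith

theorem poin_int {f : ℝ → ℝ} (hf : Continuous f) (a b : ℝ) :
    Integrable f (volume.restrict (Ico a b)) :=
  (hf.continuousOn.integrableOn_compact (isCompact_Icc (a := a) (b := b))).mono_set
    Ico_subset_Icc_self

theorem poin_mass (a L : ℝ) (hL : 0 < L) : (volume.restrict (Ico a (a + L))).real univ = L := by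
  simp [Measure.real, hL.le]

theorem poin_line {g g' : ℝ → ℝ} (hg : ∀ t, HasDerivAt g (g' t) t) (hc : Continuous g')
    {a L x y : ℝ} (hL : 0 < L) (hx : x ∈ Ico a (a + L)) (hy : y ∈ Ico a (a + L)) :
    (g x - g y) ^ 2 ≤ L * ∫ t in Ico a (a + L), g' t ^ 2 := by
  have h1 : |g x - g y| ≤ ∫ t in Ico a (a + L), |g' t| := by
    rw [← intervalIntegral.integral_eq_sub_of_hasDerivAt (fun t _ => hg t)
      (hc.intervalIntegrable _ _)]
    refine (intervalIntegral.norm_integral_le_integral_norm_uIoc (f := g')).trans ?_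
    refine setIntegral_mono_set (poin_int hc.abs _ _)
      (Filter.Eventually.of_forall fun t => abs_nonneg _) (Filter.Eventually.of_forall ?_)
    intro t ht
    have h2 := ht.1
    have h3 := ht.2
    exact ⟨(le_min hy.1 hx.1).trans h2.le, h3.trans_lt (max_lt hy.2 hx.2)⟩
  have h2 := poin_cs (poin_int hc.abs a (a + L)) (poin_int (hc.abs.pow 2) a (a + L))
  rw [poin_mass a L hL] at h2
  simp only [sq_abs] at h2
  refine le_trans ?_ h2
  rw [← sq_abs]
  exact pow_le_pow_left₀ (abs_nonneg _) h1 2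

theorem poin_cell {F F1 F2 : ℝ × ℝ → ℝ} (hF : Continuous F) (h1 : Continuous F1)
    (h2 : Continuous F2) (d1 : ∀ x y, HasDerivAt (fun t => F (t, y)) (F1 (x, y)) x)
    (d2 : ∀ x y, HasDerivAt (fun t => F (x, t)) (F2 (x, y)) y) (a b : ℝ) {L : ℝ} (hL : 0 < L) :
    (L⁻¹ * ∫ u in Ico a (a + L) ×ˢ Ico b (b + L), F u) ^ 2 ≤
        ∫ u in Ico a (a + L) ×ˢ Ico b (b + L), F u ^ 2 ∧
      ∫ u in Ico a (a + L) ×ˢ Ico b (b + L), F u ^ 2 ≤
        (L⁻¹ * ∫ u in Ico a (a + L) ×ˢ Ico b (b + L), F u) ^ 2 +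
          L ^ 2 * ∫ u in Ico a (a + L) ×ˢ Ico b (b + L), (F1 u ^ 2 + F2 u ^ 2) := by
  have e : (volume : Measure (ℝ × ℝ)).restrict (Ico a (a + L) ×ˢ Ico b (b + L)) =
      (volume.restrict (Ico a (a + L))).prod (volume.restrict (Ico b (b + L))) := by
    rw [Measure.prod_restrict, Measure.volume_eq_prod]
  have hi : ∀ {G : ℝ × ℝ → ℝ}, Continuous G → Integrable G
      ((volume.restrict (Ico a (a + L))).prod (volume.restrict (Ico b (b + L)))) := by
    intro G hG
    rw [← e]
    exact (hG.continuousOn.integrableOn_compact ((isCompact_Icc (a := a) (b := a + L)).prod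
      (isCompact_Icc (a := b) (b := b + L)))).mono_set
      (prod_mono Ico_subset_Icc_self Ico_subset_Icc_self)
  have hm : ((volume.restrict (Ico a (a + L))).prod (volume.restrict (Ico b (b + L)))).real univ =
      L ^ 2 := by
    rw [← univ_prod_univ, Measure.real, Measure.prod_prod, ENNReal.toReal_mul, sq]
    exact congrArg₂ _ (poin_mass a L hL) (poin_mass b L hL)
  have hae : ∀ᵐ u ∂(volume.restrict (Ico a (a + L))).prod (volume.restrict (Ico b (b + L))),
      u ∈ Ico a (a + L) ×ˢ Ico b (b + L) := by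
    rw [← e]
    exact ae_restrict_mem (measurableSet_Ico.prod measurableSet_Ico)
  rw [e]
  have hL2 : 0 < L ^ 2 := by positivity
  constructor
  · have := poin_cs (hi hF) (hi (hF.pow 2))
    rw [hm] at this
    rw [mul_pow, inv_pow, inv_mul_le_iff₀ hL2]
    exact this
  · have i1 := hi (G := fun u => F1 u ^ 2) (h1.pow 2)
    have i2 := hi (G := fun u => F2 u ^ 2) (h2.pow 2)
    have h := poin_two (hi hF) (hi (hF.pow 2))
      ((i1.integral_prod_right.const_mul (2 * L)).comp_snd _)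
      ((i2.integral_prod_left.const_mul (2 * L)).comp_fst _) (c := 1) ?_
    · rw [integral_fun_snd fun y => 2 * L * ∫ x in Ico a (a + L), F1 (x, y) ^ 2,
        integral_fun_fst fun x => 2 * L * ∫ y in Ico b (b + L), F2 (x, y) ^ 2,
        integral_const_mul, integral_const_mul, ← integral_prod_symm _ i1, ← integral_prod _ i2,
        hm, poin_mass a L hL, poin_mass b L hL] at h
      rw [integral_add i1 i2]
      simp only [smul_eq_mul] at h
      refine le_of_mul_le_mul_left ?_ hL2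
      rw [mul_add, mul_pow, inv_pow, mul_inv_cancel_left₀ hL2.ne']
      linarith
    · filter_upwards [hae] with u hu
      filter_upwards [hae] with v hv
      have k1 := poin_line (fun t => d1 t u.2) (h1.comp (by fun_prop)) hL hu.1 hv.1
      have k2 := poin_line (fun t => d2 v.1 t) (h2.comp (by fun_prop)) hL hu.2 hv.2
      simp only [Prod.mk.eta] at k1 k2
      nlinarith [sq_nonneg (F u - F (v.1, u.2) - (F (v.1, u.2) - F v))]

/-- the cells of the grid -/
def poinCell (n : ℕ) (p : Fin n × Fin n) : Set (ℝ × ℝ) :=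
  Ico (-4 + (p.1 : ℝ) * (8 / n)) (-4 + (p.1 : ℝ) * (8 / n) + 8 / n) ×ˢ
    Ico (-4 + (p.2 : ℝ) * (8 / n)) (-4 + (p.2 : ℝ) * (8 / n) + 8 / n)

theorem poinCell_meas (n : ℕ) (p : Fin n × Fin n) : MeasurableSet (poinCell n p) :=
  measurableSet_Ico.prod measurableSet_Ico

theorem poin_idx {L x : ℝ} (hL : 0 < L) {i j : ℕ} (hi : x ∈ Ico (-4 + i * L) (-4 + i * L + L))
    (hj : x ∈ Ico (-4 + j * L) (-4 + j * L + L)) : i = j := by
  have h1 : (i : ℝ) < j + 1 := lt_of_mul_lt_mul_right (by nlinarith [hi.1, hj.2]) hL.le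
  have h2 : (j : ℝ) < i + 1 := lt_of_mul_lt_mul_right (by nlinarith [hj.1, hi.2]) hL.le
  have h3 : i < j + 1 := by exact_mod_cast h1
  have h4 : j < i + 1 := by exact_mod_cast h2
  omega

theorem poin_cover {n : ℕ} (hn : 0 < n) {x : ℝ} (hx : |x| ≤ 7 / 2) :
    ∃ i : Fin n, x ∈ Ico (-4 + (i : ℝ) * (8 / n)) (-4 + (i : ℝ) * (8 / n) + 8 / n) := by
  have h0 : (0 : ℝ) < n := by exact_mod_cast hn
  have hL : (0 : ℝ) < 8 / n := by positivity
  obtain ⟨h1, h2⟩ := abs_le.mp hx
  have h3 : 0 ≤ (x + 4) / (8 / n) := div_nonneg (by linarith) hL.le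
  have h4 : (x + 4) / (8 / n) < n := by
    rw [div_lt_iff₀ hL, mul_div_cancel₀ _ h0.ne']
    linarith
  refine ⟨⟨⌊(x + 4) / (8 / n)⌋₊, (Nat.floor_lt h3).mpr h4⟩, ?_, ?_⟩
  · have := Nat.floor_le h3
    rw [le_div_iff₀ hL] at this
    simp only
    linarith
  · have := Nat.lt_floor_add_one ((x + 4) / (8 / n))
    rw [div_lt_iff₀ hL] at this
    simp only
    linarith

theorem poin_sum {n : ℕ} (hn : 0 < n) {g : S} (hg : Cs g) :
    I g = ∑ p : Fin n × Fin n, ∫ u in poinCell n p, ext g.1 u := by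
  have h0 : (0 : ℝ) < n := by exact_mod_cast hn
  have hL : (0 : ℝ) < 8 / n := by positivity
  have hi : Integrable (ext g.1) :=
    hg.contDiff.continuous.integrable_of_hasCompactSupport hg.hasCompactSupport
  rw [hg.I_eq, ← integral_iUnion_fintype (poinCell_meas n) ?_ fun _ => hi.integrableOn]
  · refine (setIntegral_eq_integral_of_forall_compl_eq_zero fun u hu => hg.ext_zero fun h => hu ?_).symm
    have h1 : ‖u‖ ≤ 7 / 2 := by simpa [Kc] using h
    obtain ⟨i, hi⟩ := poin_cover hn ((norm_fst_le u).trans h1)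
    obtain ⟨j, hj⟩ := poin_cover hn ((norm_snd_le u).trans h1)
    exact mem_iUnion.mpr ⟨(i, j), hi, hj⟩
  · intro p q hpq
    refine Set.disjoint_left.mpr fun u hp hq => hpq ?_
    exact Prod.ext (Fin.ext (poin_idx hL hp.1 hq.1)) (Fin.ext (poin_idx hL hp.2 hq.2))

theorem exists_proj (n : ℕ) (hn : 0 < n) :
    ∃ π : S →ₗ[ℝ] EuclideanSpace ℝ (Fin n × Fin n), ∀ f : S, Cs f →
      ‖π f‖ ^ 2 ≤ I (f ^ 2) ∧
      I (f ^ 2) ≤ ‖π f‖ ^ 2 + 256 / (n : ℝ) ^ 2 * I (d1 f ^ 2 + d2 f ^ 2) := by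
  have h0 : (0 : ℝ) < n := by exact_mod_cast hn
  have hL : (0 : ℝ) < 8 / n := by positivity
  have hm : ∀ p, MeasurableSet (poinCell n p ∩ Kc) := fun p =>
    (poinCell_meas n p).inter measurableSet_closedBall
  have hi : ∀ (f : S) p, IntegrableOn (ext f.1) (poinCell n p ∩ Kc) := fun f p =>
    (S.integrableOn f).mono_set inter_subset_right
  let π : S →ₗ[ℝ] EuclideanSpace ℝ (Fin n × Fin n) :=
    { toFun := fun f => WithLp.toLp 2 fun p => (8 / (n : ℝ))⁻¹ * ∫ u in poinCell n p ∩ Kc, ext f.1 u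
      map_add' := fun f g => by
        ext p
        simp only [PiLp.add_apply]
        rw [← mul_add, ← integral_add (hi f p) (hi g p)]
        congr 1
        exact setIntegral_congr_fun (hm p) fun u hu => by simp [ext_of_mem _ (Kc_sub hu.2)]
      map_smul' := fun c f => by
        ext p
        simp only [PiLp.smul_apply, RingHom.id_apply, smul_eq_mul]
        rw [mul_left_comm c, ← integral_const_mul c]
        congr 1
        exact setIntegral_congr_fun (hm p) fun u hu => by simp [ext_of_mem _ (Kc_sub hu.2)] }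
  refine ⟨π, fun f hf => ?_⟩
  have hπ : ‖π f‖ ^ 2 = ∑ p, ((8 / (n : ℝ))⁻¹ * ∫ u in poinCell n p, ext f.1 u) ^ 2 := by
    rw [EuclideanSpace.real_norm_sq_eq]
    refine Finset.sum_congr rfl fun p _ => ?_
    rw [setIntegral_eq_of_subset_of_forall_sdiff_eq_zero (poinCell_meas n p)
      (inter_subset_left (t := Kc)) fun u hu => hf.ext_zero fun h => hu.2 ⟨hu.1, h⟩]
    rfl
  have c2 : Cs (f ^ 2) := by rw [sq]; exact hf.mul_left f
  have c3 : Cs (d1 f ^ 2 + d2 f ^ 2) := by
    rw [sq, sq]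
    exact (hf.d1.mul_left _).add (hf.d2.mul_left _)
  have e2 : ∀ u, ext (f ^ 2).1 u = ext f.1 u ^ 2 := fun u => by
    by_cases hu : u ∈ Om
    · simp [ext_of_mem _ hu]
    · simp [ext_of_not_mem _ hu]
  have e3 : ∀ u, ext (d1 f ^ 2 + d2 f ^ 2).1 u = ext (d1 f).1 u ^ 2 + ext (d2 f).1 u ^ 2 := fun u => by
    by_cases hu : u ∈ Om
    · simp [ext_of_mem _ hu]
    · simp [ext_of_not_mem _ hu]
  have hd := hf.contDiff.differentiable (by simp)
  have key := fun p : Fin n × Fin n => poin_cell hf.contDiff.continuous hf.d1.contDiff.continuous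
    hf.d2.contDiff.continuous
    (fun x y => by
      rw [d1, hf.ext_der]
      exact (hd (x, y)).hasFDerivAt.comp_hasDerivAt x
        ((hasDerivAt_id x).prodMk (hasDerivAt_const x y)))
    (fun x y => by
      rw [d2, hf.ext_der]
      exact (hd (x, y)).hasFDerivAt.comp_hasDerivAt y
        ((hasDerivAt_const y x).prodMk (hasDerivAt_id y)))
    (-4 + (p.1 : ℝ) * (8 / n)) (-4 + (p.2 : ℝ) * (8 / n)) hL
  have hp : 0 ≤ I (d1 f ^ 2 + d2 f ^ 2) := I_nonneg fun u => by
    have : (d1 f ^ 2 + d2 f ^ 2).1 u = (d1 f).1 u ^ 2 + (d2 f).1 u ^ 2 := rfl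
    rw [this]
    positivity
  have h64 : (8 / (n : ℝ)) ^ 2 * I (d1 f ^ 2 + d2 f ^ 2) ≤
      256 / (n : ℝ) ^ 2 * I (d1 f ^ 2 + d2 f ^ 2) := by
    refine mul_le_mul_of_nonneg_right ?_ hp
    rw [div_pow]
    gcongr
    norm_num
  refine ⟨?_, le_trans ?_ (add_le_add le_rfl h64)⟩
  · rw [hπ, poin_sum hn c2]
    simp only [e2]
    exact Finset.sum_le_sum fun p _ => (key p).1
  · rw [hπ, poin_sum hn c2, poin_sum hn c3, Finset.mul_sum, ← Finset.sum_add_distrib]
    simp only [e2, e3]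
    exact Finset.sum_le_sum fun p _ => (key p).2

end Vale.Agent.P229
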