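import Mathlib

/-! The ring of smooth functions on the open square of radius 4, with its two coordinate
derivatives, composition, affine pull back and the integral over the square of radius 7/2. -/

open scoped ContDiff
open MeasureTheory Metric Set

namespace Vale.Agent.P229

/-- the open square -/
def Om : Set (ℝ × ℝ) := ball 0 4

theorem isOpen_Om : IsOpen Om := isOpen_ball

theorem convex_Om : Convex ℝ Om := convex_ball _ _

theorem mem_Om {u : ℝ × ℝ} : u ∈ Om ↔ ‖u‖ < 4 := by simp [Om]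

/-- the origin -/
def o : Om := ⟨0, by simp [Om]⟩

open Classical in
/-- extension by zero -/
noncomputable def ext (f : Om → ℝ) : ℝ × ℝ → ℝ := fun u => if h : u ∈ Om then f ⟨u, h⟩ else 0

@[simp] theorem ext_coe (f : Om → ℝ) (u : Om) : ext f u = f u := by simp [ext, u.2]

theorem ext_of_mem (f : Om → ℝ) {u : ℝ × ℝ} (h : u ∈ Om) : ext f u = f ⟨u, h⟩ := by simp [ext, h]

theorem ext_of_not_mem (f : Om → ℝ) {u : ℝ × ℝ} (h : u ∉ Om) : ext f u = 0 := by simp [ext, h]

theorem ext_congr {f : Om → ℝ} {F : ℝ × ℝ → ℝ} (h : ∀ u : Om, f u = F u) : EqOn (ext f) F Om :=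
  fun u hu => by rw [ext_of_mem f hu, h]

/-- smooth functions on the square -/
def S : Subalgebra ℝ (Om → ℝ) where
  carrier := {f | ContDiffOn ℝ ∞ (ext f) Om}
  mul_mem' {f g} hf hg := (ContDiffOn.mul hf hg).congr (ext_congr (by simp))
  add_mem' {f g} hf hg := (ContDiffOn.add hf hg).congr (ext_congr (by simp))
  algebraMap_mem' r := (contDiffOn_const (c := r)).congr (ext_congr (by simp))

theorem S.smooth (f : S) : ContDiffOn ℝ ∞ (ext f.1) Om := f.2

theorem S.contDiffAt (f : S) {u : ℝ × ℝ} (hu : u ∈ Om) : ContDiffAt ℝ ∞ (ext f.1) u :=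
  (S.smooth f).contDiffAt (isOpen_Om.mem_nhds hu)

theorem S.diffAt (f : S) {u : ℝ × ℝ} (hu : u ∈ Om) : DifferentiableAt ℝ (ext f.1) u :=
  (S.contDiffAt f hu).differentiableAt (by simp)

/-- restriction of a function which is smooth on the square -/
def mk (F : ℝ × ℝ → ℝ) (h : ContDiffOn ℝ ∞ F Om) : S :=
  ⟨fun u => F u, h.congr (ext_congr fun _ => rfl)⟩

@[simp] theorem mk_apply (F : ℝ × ℝ → ℝ) (h : ContDiffOn ℝ ∞ F Om) (u : Om) :
    (mk F h).1 u = F u := rfl

theorem S.ext' {f g : S} (h : ∀ u, f.1 u = g.1 u) : f = g := Subtype.ext (funext h)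

theorem fderiv_ext {f : S} {F : ℝ × ℝ → ℝ} (h : ∀ u : Om, f.1 u = F u) (u : Om) :
    fderiv ℝ (ext f.1) u = fderiv ℝ F u :=
  Filter.EventuallyEq.fderiv_eq
    (Filter.eventuallyEq_of_mem (isOpen_Om.mem_nhds u.2) (ext_congr h))

/-- directional derivative -/
noncomputable def dd (e : ℝ × ℝ) (f : S) : S :=
  mk (fun u => fderiv ℝ (ext f.1) u e)
    (((S.smooth f).fderiv_of_isOpen isOpen_Om (by simp)).clm_apply contDiffOn_const)

theorem dd_apply (e : ℝ × ℝ) (f : S) (u : Om) : (dd e f).1 u = fderiv ℝ (ext f.1) u e := rfl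

/-- directional derivative as a derivation -/
noncomputable def der (e : ℝ × ℝ) : Derivation ℝ S S :=
  Derivation.mk'
    { toFun := dd e
      map_add' := fun f g => S.ext' fun u => by
        rw [dd_apply, fderiv_ext (F := ext f.1 + ext g.1) (by simp),
          fderiv_add (S.diffAt f u.2) (S.diffAt g u.2)]
        rfl
      map_smul' := fun c f => S.ext' fun u => by
        rw [dd_apply, fderiv_ext (F := c • ext f.1) (by simp),
          fderiv_const_smul (S.diffAt f u.2)]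
        rfl }
    fun f g => S.ext' fun u => by
      show (dd e (f * g)).1 u = f.1 u * (dd e g).1 u + g.1 u * (dd e f).1 u
      rw [dd_apply, fderiv_ext (F := ext f.1 * ext g.1) (by simp),
        fderiv_mul (S.diffAt f u.2) (S.diffAt g u.2)]
      simp [dd_apply]

theorem der_apply (e : ℝ × ℝ) (f : S) (u : Om) : (der e f).1 u = fderiv ℝ (ext f.1) u e := rfl

theorem der_mk (e : ℝ × ℝ) (F : ℝ × ℝ → ℝ) (h : ContDiffOn ℝ ∞ F Om) (u : Om) :
    (der e (mk F h)).1 u = fderiv ℝ F u e := by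
  rw [der_apply, fderiv_ext (F := F) fun _ => rfl]

theorem der_comm (e e' : ℝ × ℝ) (f : S) : der e (der e' f) = der e' (der e f) := by
  refine S.ext' fun u => ?_
  have key : ∀ a b : ℝ × ℝ, (der a (der b f)).1 u = fderiv ℝ (fderiv ℝ (ext f.1)) u a b := by
    intro a b
    have h1 : DifferentiableAt ℝ (fderiv ℝ (ext f.1)) u :=
      ((S.contDiffAt f u.2).fderiv_right (m := 1) (by norm_cast)).differentiableAt (by simp)
    rw [der_apply, fderiv_ext (F := fun v => fderiv ℝ (ext f.1) v b) fun _ => rfl,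
      fderiv_clm_apply h1 (differentiableAt_const _)]
    simp
  rw [key, key]
  exact ((S.contDiffAt f u.2).isSymmSndFDerivAt (by simp; norm_cast)).eq e e'

/-- first coordinate derivative -/
noncomputable def d1 : Derivation ℝ S S := der (1, 0)

/-- second coordinate derivative -/
noncomputable def d2 : Derivation ℝ S S := der (0, 1)

theorem d_comm (f : S) : d1 (d2 f) = d2 (d1 f) := der_comm _ _ f

theorem fderiv_eq (f : S) (u : Om) (e : ℝ × ℝ) :
    fderiv ℝ (ext f.1) u e = e.1 * (d1 f).1 u + e.2 * (d2 f).1 u := by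
  have : e = e.1 • ((1, 0) : ℝ × ℝ) + e.2 • ((0, 1) : ℝ × ℝ) := by ext <;> simp
  conv_lhs => rw [this]
  rw [map_add, map_smul, map_smul]
  rfl

/-- constants -/
noncomputable def cst (c : ℝ) : S := algebraMap ℝ S c

@[simp] theorem cst_apply (c : ℝ) (u : Om) : (cst c).1 u = c := rfl
@[simp] theorem d1_cst (c : ℝ) : d1 (cst c) = 0 := d1.map_algebraMap c
@[simp] theorem d2_cst (c : ℝ) : d2 (cst c) = 0 := d2.map_algebraMap c

/-- first coordinate -/
noncomputable def T : S := mk (fun u => u.1) contDiffOn_fst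

/-- second coordinate -/
noncomputable def Sc : S := mk (fun u => u.2) contDiffOn_snd

@[simp] theorem T_apply (u : Om) : T.1 u = u.1.1 := rfl
@[simp] theorem Sc_apply (u : Om) : Sc.1 u = u.1.2 := rfl
@[simp] theorem d1_T : d1 T = 1 := S.ext' fun u => by rw [d1, T, der_mk]; simp [fderiv_fst]
@[simp] theorem d2_T : d2 T = 0 := S.ext' fun u => by rw [d2, T, der_mk]; simp [fderiv_fst]
@[simp] theorem d1_Sc : d1 Sc = 0 := S.ext' fun u => by rw [d1, Sc, der_mk]; simp [fderiv_snd]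
@[simp] theorem d2_Sc : d2 Sc = 1 := S.ext' fun u => by rw [d2, Sc, der_mk]; simp [fderiv_snd]

/-- composition with a smooth function of one variable -/
noncomputable def comp (φ : ℝ → ℝ) (h : ContDiff ℝ ∞ φ) (f : S) : S :=
  mk (fun u => φ (ext f.1 u)) (h.comp_contDiffOn (S.smooth f))

@[simp] theorem comp_apply (φ : ℝ → ℝ) (h : ContDiff ℝ ∞ φ) (f : S) (u : Om) :
    (comp φ h f).1 u = φ (f.1 u) := by simp [comp]

theorem contDiff_deriv {φ : ℝ → ℝ} (h : ContDiff ℝ ∞ φ) : ContDiff ℝ ∞ (deriv φ) :=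
  (contDiff_infty_iff_deriv.1 h).2

theorem der_comp (e : ℝ × ℝ) (φ : ℝ → ℝ) (h : ContDiff ℝ ∞ φ) (f : S) :
    der e (comp φ h f) = comp (deriv φ) (contDiff_deriv h) f * der e f := by
  refine S.ext' fun u => ?_
  have h1 := ((h.differentiable (by simp)) (ext f.1 u)).hasDerivAt.comp_hasFDerivAt (u : ℝ × ℝ)
    (S.diffAt f u.2).hasFDerivAt
  rw [comp, der_mk]
  have h2 := h1.fderiv
  simp only [Function.comp_def] at h2
  rw [h2]
  simp [der_apply]

theorem d1_comp (φ : ℝ → ℝ) (h : ContDiff ℝ ∞ φ) (f : S) :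
    d1 (comp φ h f) = comp (deriv φ) (contDiff_deriv h) f * d1 f := der_comp _ _ _ _

theorem d2_comp (φ : ℝ → ℝ) (h : ContDiff ℝ ∞ φ) (f : S) :
    d2 (comp φ h f) = comp (deriv φ) (contDiff_deriv h) f * d2 f := der_comp _ _ _ _

/-- a function without zeros is a unit -/
theorem exists_inv (f : S) (h : ∀ u, f.1 u ≠ 0) : ∃ g : S, f * g = 1 :=
  ⟨mk (fun u => (ext f.1 u)⁻¹) ((S.smooth f).inv fun u hu => by rw [ext_of_mem _ hu]; exact h _),
    S.ext' fun u => by simp [h u]⟩

/-- mean value inequality -/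
theorem abs_sub_le (f : S) {c₁ c₂ : ℝ} (h1 : ∀ u, |(d1 f).1 u| ≤ c₁) (h2 : ∀ u, |(d2 f).1 u| ≤ c₂)
    (u v : Om) : |f.1 u - f.1 v| ≤ c₁ * |u.1.1 - v.1.1| + c₂ * |u.1.2 - v.1.2| := by
  have hm : ∀ t ∈ Icc (0 : ℝ) 1, (v : ℝ × ℝ) + t • ((u : ℝ × ℝ) - v) ∈ Om := fun t ht =>
    convex_Om.add_smul_sub_mem v.2 u.2 ht
  have hd : ∀ t ∈ Icc (0 : ℝ) 1, HasDerivWithinAt
      (fun t : ℝ => ext f.1 ((v : ℝ × ℝ) + t • ((u : ℝ × ℝ) - v)))
      (fderiv ℝ (ext f.1) ((v : ℝ × ℝ) + t • ((u : ℝ × ℝ) - v)) ((u : ℝ × ℝ) - v)) (Icc 0 1) t := by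
    intro t ht
    have h3 : HasDerivAt (fun t : ℝ => (v : ℝ × ℝ) + t • ((u : ℝ × ℝ) - v)) ((u : ℝ × ℝ) - v) t := by
      simpa using ((hasDerivAt_id t).smul_const ((u : ℝ × ℝ) - v)).const_add (v : ℝ × ℝ)
    exact ((S.diffAt f (hm t ht)).hasFDerivAt.comp_hasDerivAt t h3).hasDerivWithinAt
  have := norm_image_sub_le_of_norm_deriv_le_segment_01' hd
    (C := c₁ * |u.1.1 - v.1.1| + c₂ * |u.1.2 - v.1.2|) fun t ht => by
      have h4 := fderiv_eq f ⟨_, hm t (Ico_subset_Icc_self ht)⟩ ((u : ℝ × ℝ) - v)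
      dsimp only at h4
      rw [h4, Real.norm_eq_abs]
      refine (abs_add_le _ _).trans (add_le_add ?_ ?_)
      · rw [abs_mul, mul_comm]
        exact mul_le_mul_of_nonneg_right (h1 _) (abs_nonneg _)
      · rw [abs_mul, mul_comm]
        exact mul_le_mul_of_nonneg_right (h2 _) (abs_nonneg _)
  simpa using this

/-! ### affine pull back -/

/-- the affine map `u ↦ p + A u` -/
structure Aff where
  p : ℝ × ℝ
  a : ℝ
  b : ℝ
  c : ℝ
  d : ℝ
  maps : ∀ u : ℝ × ℝ, u ∈ Om → (p.1 + a * u.1 + b * u.2, p.2 + c * u.1 + d * u.2) ∈ Om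

/-- the underlying map -/
def Aff.toFun (A : Aff) (u : ℝ × ℝ) : ℝ × ℝ :=
  (A.p.1 + A.a * u.1 + A.b * u.2, A.p.2 + A.c * u.1 + A.d * u.2)

/-- the map on the square -/
def Aff.map (A : Aff) (u : Om) : Om := ⟨A.toFun u, A.maps u u.2⟩

theorem Aff.contDiff (A : Aff) : ContDiff ℝ ∞ A.toFun := by unfold Aff.toFun; fun_prop

/-- pull back along an affine map -/
noncomputable def pull (A : Aff) : S →ₐ[ℝ] S where
  toFun f := ⟨fun u => f.1 (A.map u), ((S.smooth f).comp A.contDiff.contDiffOn A.maps).congr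
    (ext_congr fun u => (ext_coe f.1 (A.map u)).symm)⟩
  map_one' := rfl
  map_mul' _ _ := rfl
  map_zero' := rfl
  map_add' _ _ := rfl
  commutes' _ := rfl

@[simp] theorem pull_apply (A : Aff) (f : S) (u : Om) : (pull A f).1 u = f.1 (A.map u) := rfl

theorem der_pull (e : ℝ × ℝ) (A : Aff) (f : S) : der e (pull A f) =
    (A.a * e.1 + A.b * e.2) • pull A (d1 f) + (A.c * e.1 + A.d * e.2) • pull A (d2 f) := by
  refine S.ext' fun u => ?_
  have h1 : HasFDerivAt A.toFun ((A.a • ContinuousLinearMap.fst ℝ ℝ ℝ +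
      A.b • ContinuousLinearMap.snd ℝ ℝ ℝ).prod (A.c • ContinuousLinearMap.fst ℝ ℝ ℝ +
      A.d • ContinuousLinearMap.snd ℝ ℝ ℝ)) (u : ℝ × ℝ) := by
    refine HasFDerivAt.prodMk ?_ ?_
    · simpa [add_assoc] using ((hasFDerivAt_fst.const_mul A.a).add
        (hasFDerivAt_snd.const_mul A.b)).const_add A.p.1
    · simpa [add_assoc] using ((hasFDerivAt_fst.const_mul A.c).add
        (hasFDerivAt_snd.const_mul A.d)).const_add A.p.2
  have h2 := ((S.diffAt f (A.map u).2).hasFDerivAt.comp (u : ℝ × ℝ) h1).fderiv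
  rw [der_apply, fderiv_ext (F := ext f.1 ∘ A.toFun) fun v => (ext_coe f.1 (A.map v)).symm, h2,
    ContinuousLinearMap.comp_apply, fderiv_eq]
  simp

theorem d1_pull (A : Aff) (f : S) : d1 (pull A f) = A.a • pull A (d1 f) + A.c • pull A (d2 f) := by
  rw [d1, der_pull]; simp [d1]

theorem d2_pull (A : Aff) (f : S) : d2 (pull A f) = A.b • pull A (d1 f) + A.d • pull A (d2 f) := by
  rw [d2, der_pull]; simp [d2]

/-! ### the integral -/

/-- the closed square of radius 7/2 -/
def Kc : Set (ℝ × ℝ) := closedBall 0 (7 / 2)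

theorem Kc_sub : Kc ⊆ Om := closedBall_subset_ball (by norm_num)

theorem S.integrableOn (f : S) : IntegrableOn (ext f.1) Kc :=
  ((S.smooth f).continuousOn.mono Kc_sub).integrableOn_compact (isCompact_closedBall _ _)

/-- the integral over the square of radius 7/2 -/
noncomputable def I : S →ₗ[ℝ] ℝ where
  toFun f := ∫ u in Kc, ext f.1 u
  map_add' f g := by
    rw [← integral_add (S.integrableOn f) (S.integrableOn g)]
    exact setIntegral_congr_fun measurableSet_closedBall fun u hu => by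
      simp [ext_of_mem _ (Kc_sub hu)]
  map_smul' c f := by
    rw [RingHom.id_apply, smul_eq_mul, ← integral_const_mul]
    exact setIntegral_congr_fun measurableSet_closedBall fun u hu => by
      simp [ext_of_mem _ (Kc_sub hu)]

theorem I_def (f : S) : I f = ∫ u in Kc, ext f.1 u := rfl

theorem I_mono {f g : S} (h : ∀ u, f.1 u ≤ g.1 u) : I f ≤ I g :=
  setIntegral_mono_on (S.integrableOn f) (S.integrableOn g) measurableSet_closedBall
    fun u hu => by rw [ext_of_mem _ (Kc_sub hu), ext_of_mem _ (Kc_sub hu)]; exact h _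

theorem I_nonneg {f : S} (h : ∀ u, 0 ≤ f.1 u) : 0 ≤ I f := by
  simpa using I_mono (f := 0) (g := f) h

/-- support in the closed square of radius 7/2 -/
def Cs (f : S) : Prop := ∀ u : Om, 7 / 2 < ‖u.1‖ → f.1 u = 0

theorem Cs.mul_left {f : S} (h : Cs f) (g : S) : Cs (g * f) := fun u hu => by simp [h u hu]
theorem Cs.mul_right {f : S} (h : Cs f) (g : S) : Cs (f * g) := fun u hu => by simp [h u hu]
theorem Cs.add {f g : S} (h : Cs f) (h' : Cs g) : Cs (f + g) := fun u hu => by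
  simp [h u hu, h' u hu]
theorem Cs.sub {f g : S} (h : Cs f) (h' : Cs g) : Cs (f - g) := fun u hu => by
  simp [h u hu, h' u hu]
theorem Cs.neg {f : S} (h : Cs f) : Cs (-f) := fun u hu => by simp [h u hu]
theorem Cs.smul {f : S} (h : Cs f) (c : ℝ) : Cs (c • f) := fun u hu => by simp [h u hu]

theorem Cs.ext_zero {f : S} (h : Cs f) {u : ℝ × ℝ} (hu : u ∉ Kc) : ext f.1 u = 0 := by
  by_cases h1 : u ∈ Om
  · rw [ext_of_mem _ h1]
    exact h _ (by simpa [Kc] using hu)
  · exact ext_of_not_mem _ h1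

theorem Cs.eventually {f : S} (h : Cs f) {u : ℝ × ℝ} (hu : u ∉ Kc) : ext f.1 =ᶠ[nhds u] 0 :=
  Filter.eventuallyEq_of_mem (isClosed_closedBall.isOpen_compl.mem_nhds hu)
    fun _ hv => h.ext_zero hv

theorem Cs.contDiff {f : S} (h : Cs f) : ContDiff ℝ ∞ (ext f.1) := by
  refine contDiff_iff_contDiffAt.2 fun u => ?_
  by_cases hu : u ∈ Kc
  · exact S.contDiffAt f (Kc_sub hu)
  · exact contDiffAt_const.congr_of_eventuallyEq (h.eventually hu)

theorem Cs.hasCompactSupport {f : S} (h : Cs f) : HasCompactSupport (ext f.1) :=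
  HasCompactSupport.intro (isCompact_closedBall _ _) fun _ hu => h.ext_zero hu

theorem Cs.der {f : S} (h : Cs f) (e : ℝ × ℝ) : Cs (der e f) := fun u hu => by
  rw [der_apply, (h.eventually (by simpa [Kc] using hu)).fderiv_eq]
  simp

theorem Cs.d1 {f : S} (h : Cs f) : Cs (d1 f) := h.der _
theorem Cs.d2 {f : S} (h : Cs f) : Cs (d2 f) := h.der _

theorem Cs.I_eq {f : S} (h : Cs f) : I f = ∫ u, ext f.1 u :=
  setIntegral_eq_integral_of_forall_compl_eq_zero fun _ hu => h.ext_zero hu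

theorem Cs.ext_der {f : S} (h : Cs f) (e : ℝ × ℝ) (u : ℝ × ℝ) :
    ext (P229.der e f).1 u = fderiv ℝ (ext f.1) u e := by
  by_cases hu : u ∈ Om
  · rw [ext_of_mem _ hu]; rfl
  · rw [ext_of_not_mem _ hu, (h.eventually fun h' => hu (Kc_sub h')).fderiv_eq]
    simp

theorem Cs.I_der {f : S} (h : Cs f) (e : ℝ × ℝ) : I (P229.der e f) = 0 := by
  rw [(h.der e).I_eq]
  simp only [h.ext_der e]
  have h1 : Integrable (fun u => fderiv ℝ (ext f.1) u e) :=
    ((h.contDiff.continuous_fderiv (by simp)).clm_apply continuous_const).integrable_of_hasCompactSupport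
      (h.hasCompactSupport.fderiv_apply ℝ e)
  have h2 := integral_mul_fderiv_eq_neg_fderiv_mul_of_integrable (𝕜 := ℝ) (μ := volume)
    (f := fun _ : ℝ × ℝ => (1 : ℝ)) (g := ext f.1) (v := e) (by simp) (by simpa using h1)
    (by simpa using h.contDiff.continuous.integrable_of_hasCompactSupport h.hasCompactSupport)
    (fun _ _ => differentiableAt_const _)
    (fun u _ => h.contDiff.differentiable (by simp) u)
  simpa using h2

theorem Cs.I_d1 {f : S} (h : Cs f) : I (P229.d1 f) = 0 := h.I_der _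
theorem Cs.I_d2 {f : S} (h : Cs f) : I (P229.d2 f) = 0 := h.I_der _

end Vale.Agent.P229
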