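import Vale.Agent.P229.Defs

/-! Closure properties of `Sm` (bounds on all derivatives of order at most `N` on the plane).

PLAN. `iteratedFDeriv_add`, `iteratedFDeriv_const_smul_apply`, `ContinuousLinearMap.iteratedFDeriv_comp_right`
with `ContinuousMultilinearMap.norm_compContinuousLinearMap_le`, `iteratedFDeriv_comp_add_left`,
`ContDiff.continuous_iteratedFDeriv` with `HasCompactSupport.iteratedFDeriv` and
`Continuous.bounded_above_of_compact_support`. For `exists_back` take a `ContDiffBump (0 : ℝ × ℝ)`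
with radii `4` and `6`, `φ₁ = -(q²/8) bump`, `φ₂ = (q/2) bump`, `k0 = ε (φ₁ + ρ² φ₂)`. -/

open scoped ContDiff

namespace Vale.Agent.P229

variable {N : ℕ} {a b : ℝ} {φ ψ : ℝ × ℝ → ℝ}

theorem Sm.nonneg (h : Sm N a φ) : 0 ≤ a := (norm_nonneg _).trans (h.2 0 (Nat.zero_le _) 0)

theorem Sm.mono (h : Sm N a φ) (hab : a ≤ b) : Sm N b φ :=
  ⟨h.1, fun i hi u => (h.2 i hi u).trans hab⟩

theorem Sm.of_le {M : ℕ} (h : Sm N a φ) (hM : M ≤ N) : Sm M a φ :=
  ⟨h.1, fun i hi u => h.2 i (hi.trans hM) u⟩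

theorem Sm.abs_le (h : Sm N a φ) (u : ℝ × ℝ) : |φ u| ≤ a := by
  simpa using h.2 0 (Nat.zero_le _) u

theorem Sm.zero (N : ℕ) : Sm N 0 fun _ => 0 :=
  ⟨contDiff_const, fun i _ u => by simp⟩

theorem Sm.add (h : Sm N a φ) (h' : Sm N b ψ) : Sm N (a + b) fun u => φ u + ψ u := by
  refine ⟨h.1.add h'.1, fun i hi u => ?_⟩
  rw [fun_iteratedFDeriv_add_apply (h.1.contDiffAt.of_le (mod_cast le_top))
    (h'.1.contDiffAt.of_le (mod_cast le_top))]
  exact (norm_add_le _ _).trans (add_le_add (h.2 i hi u) (h'.2 i hi u))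

theorem Sm.smul (h : Sm N a φ) (c : ℝ) : Sm N (|c| * a) fun u => c * φ u := by
  refine ⟨contDiff_const.mul h.1, fun i hi u => ?_⟩
  have h1 := iteratedFDeriv_const_smul_apply' (a := c) (x := u) (i := i)
    (h.1.contDiffAt.of_le (mod_cast le_top))
  simp only [smul_eq_mul] at h1
  rw [h1, norm_smul, Real.norm_eq_abs]
  exact mul_le_mul_of_nonneg_left (h.2 i hi u) (abs_nonneg _)

theorem Sm.sum {ι : Type} (s : Finset ι) (c : ι → ℝ) (f : ι → ℝ × ℝ → ℝ)
    (h : ∀ i ∈ s, Sm N (c i) (f i)) : Sm N (∑ i ∈ s, c i) fun u => ∑ i ∈ s, f i u := by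
  classical
  induction s using Finset.induction_on with
  | empty => simpa using Sm.zero N
  | insert i s hi ih =>
    simp only [Finset.sum_insert hi]
    exact (h i (Finset.mem_insert_self _ _)).add
      (ih fun j hj => h j (Finset.mem_insert_of_mem hj))

theorem Sm.comp_affine (h : Sm N a φ) (p : ℝ × ℝ) (L : (ℝ × ℝ) →L[ℝ] (ℝ × ℝ)) {m : ℝ}
    (hm : 1 ≤ m) (hL : ‖L‖ ≤ m) : Sm N (a * m ^ N) fun u => φ (p + L u) := by
  have h1 : ContDiff ℝ ∞ fun v => φ (p + v) := h.1.comp (contDiff_const.add contDiff_id)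
  refine ⟨h1.comp L.contDiff, fun i hi u => ?_⟩
  have h2 := L.iteratedFDeriv_comp_right h1 u (i := i) (mod_cast le_top)
  rw [iteratedFDeriv_comp_add_left] at h2
  refine (congrArg norm h2).trans_le
    ((ContinuousMultilinearMap.norm_compContinuousLinearMap_le _ _).trans ?_)
  rw [Finset.prod_const, Finset.card_univ, Fintype.card_fin]
  exact mul_le_mul (h.2 i hi _) ((pow_le_pow_left₀ (norm_nonneg _) hL i).trans
    (pow_le_pow_right₀ hm hi)) (by positivity) h.nonneg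

theorem exists_Sm (N : ℕ) (h : ContDiff ℝ ∞ φ) (hc : HasCompactSupport φ) :
    ∃ M, Sm N M φ := by
  choose C hC using fun i : ℕ =>
    (h.continuous_iteratedFDeriv (m := i) (mod_cast le_top)).bounded_above_of_compact_support
      (hc.iteratedFDeriv i)
  refine ⟨∑ i ∈ Finset.range (N + 1), C i, h, fun i hi u => (hC i u).trans ?_⟩
  exact Finset.single_le_sum (fun j _ => (norm_nonneg _).trans (hC j 0))
    (Finset.mem_range.2 (Nat.lt_succ_of_le hi))

/-- the background metric extends to a small compactly supported perturbation of the flat one -/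
theorem exists_back (N : ℕ) (η : ℝ) (hη : 0 < η) : ∃ ε : ℝ, 0 < ε ∧ ε ≤ 1 ∧ ∀ ρ : ℝ, |ρ| ≤ 1 →
    ∃ k0 : ℝ × ℝ → ℝ, Sm N η k0 ∧ (∀ u, 6 ≤ ‖u‖ → k0 u = 0) ∧
      ∀ u : Om, (lam ε ρ).1 u = 1 + k0 u := by
  let β : ContDiffBump (0 : ℝ × ℝ) := ⟨4, 6, by norm_num, by norm_num⟩
  have hq : ContDiff ℝ ∞ fun u : ℝ × ℝ => u.1 ^ 2 + u.2 ^ 2 := by fun_prop
  obtain ⟨M₁, h₁⟩ := exists_Sm (φ := fun u => (u.1 ^ 2 + u.2 ^ 2) ^ 2 * β u) N
    ((hq.pow 2).mul β.contDiff) β.hasCompactSupport.mul_left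
  obtain ⟨M₂, h₂⟩ := exists_Sm (φ := fun u => (u.1 ^ 2 + u.2 ^ 2) * β u) N
    (hq.mul β.contDiff) β.hasCompactSupport.mul_left
  have p₁ := h₁.nonneg
  have p₂ := h₂.nonneg
  have hM : 0 < M₁ + M₂ + 1 := by linarith
  refine ⟨min 1 (η / (M₁ + M₂ + 1)), lt_min one_pos (div_pos hη hM), min_le_left _ _,
    fun ρ hρ => ?_⟩
  have he0 : 0 < min 1 (η / (M₁ + M₂ + 1)) := lt_min one_pos (div_pos hη hM)
  have he1 : min 1 (η / (M₁ + M₂ + 1)) * (M₁ + M₂ + 1) ≤ η := (le_div_iff₀ hM).1 (min_le_right _ _)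
  generalize min 1 (η / (M₁ + M₂ + 1)) = ε at he0 he1
  refine ⟨_, (((h₁.smul (-1 / 8)).add (h₂.smul (ρ ^ 2 / 2))).smul ε).mono ?_, fun u hu => ?_,
    fun u => ?_⟩
  · have h3 : ρ ^ 2 ≤ 1 := (sq_le_one_iff_abs_le_one ρ).2 hρ
    have h4 : |ρ ^ 2 / 2| ≤ 1 := by
      rw [abs_of_nonneg (by positivity)]
      linarith
    have h5 : |(-1 / 8 : ℝ)| ≤ 1 := by
      rw [abs_le]
      constructor <;> norm_num
    rw [abs_of_pos he0]
    refine le_trans (mul_le_mul_of_nonneg_left ?_ he0.le) he1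
    linarith [mul_le_of_le_one_left p₁ h5, mul_le_of_le_one_left p₂ h4]
  · have h3 : β u = 0 := β.zero_of_le_dist (by simpa using hu)
    simp [h3]
  · have h3 : β u = 1 := β.one_of_mem_closedBall (Metric.ball_subset_closedBall u.2)
    rw [h3, mul_one, mul_one]
    rfl

end Vale.Agent.P229
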